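import Vale.Agent.P301Z.Ho.HDefs

/-!
# P301Z, Lemma H: the abstract approximate estimate
-/

open scoped Manifold ContDiff ComplexOrder Topology Matrix
open Filter UniformSpace
open Vale.Agent.P272.K Vale.Agent.P301.H599 Vale.Agent.P285Z Vale.Agent.P285Z.H0
open Vale.Agent.P301.H862 Vale.Agent.P301.H862.HB Vale.Agent.P299.H863

set_option linter.all false

noncomputable section

namespace Vale.Agent.P301Z.Ho

namespace AbsX

/-- the orthogonal decomposition with respect to the graph of `r D` -/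
theorem graph_dec {E : Type} [NormedAddCommGroup E] [InnerProductSpace ℂ E] (D : E →ₗ[ℂ] E)
    (s : E) (r : ℝ) : ∃ y₁ y₂ : Completion E,
      (∀ u : E, inner ℂ ((D u : E) : Completion E) (-(r : ℂ) • y₂) =
        inner ℂ (u : Completion E) y₁) ∧
      ‖y₁‖ ^ 2 + ‖y₂‖ ^ 2 = (inner ℂ y₁ (s : Completion E)).re ∧
      ∀ δ : ℝ, 0 < δ → ∃ u : E, ‖s - u‖ ^ 2 + r ^ 2 * ‖D u‖ ^ 2 ≤ ‖y₁‖ ^ 2 + ‖y₂‖ ^ 2 + δ := by
  set i₁ : E →ₗᵢ[ℂ] Completion E := Completion.toComplₗᵢ with hi₁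
  let T : E →ₗ[ℂ] WithLp 2 (Completion E × Completion E) :=
    (WithLp.linearEquiv 2 ℂ (Completion E × Completion E)).symm.toLinearMap ∘ₗ
      (i₁.toLinearMap.prod ((r : ℂ) • (i₁.toLinearMap ∘ₗ D)))
  have hT1 : ∀ u, (T u).fst = (u : Completion E) := fun u => rfl
  have hT2 : ∀ u, (T u).snd = (r : ℂ) • ((D u : E) : Completion E) := fun u => rfl
  set R := LinearMap.range T with hR
  set K := R.topologicalClosure with hK
  have hKc : IsClosed (K : Set (WithLp 2 (Completion E × Completion E))) :=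
    R.isClosed_topologicalClosure
  have : CompleteSpace K := hKc.completeSpace_coe
  have : K.HasOrthogonalProjection := inferInstance
  let x : WithLp 2 (Completion E × Completion E) := WithLp.toLp 2 ((s : Completion E), 0)
  have hx1 : x.fst = (s : Completion E) := rfl
  have hx2 : x.snd = 0 := rfl
  obtain ⟨z, hz, y, hy, hzy⟩ := K.exists_add_mem_mem_orthogonal x
  have hn : ‖y‖ ^ 2 = ‖y.fst‖ ^ 2 + ‖y.snd‖ ^ 2 := WithLp.prod_norm_sq_eq_of_L2 y
  refine ⟨y.fst, y.snd, fun u => ?_, ?_, fun δ hδ => ?_⟩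
  · have h1 := (K.mem_orthogonal y).1 hy _ (R.le_topologicalClosure ⟨u, rfl⟩)
    rw [WithLp.prod_inner_apply] at h1
    change inner ℂ (T u).fst y.fst + inner ℂ (T u).snd y.snd = 0 at h1
    rw [hT1, hT2, inner_smul_left, Complex.conj_ofReal] at h1
    rw [inner_smul_right]
    linear_combination -h1
  · have h1 : inner ℂ y z = 0 := (K.mem_orthogonal' y).1 hy z hz
    have h2 : inner ℂ y x = inner ℂ y y := by rw [hzy, inner_add_right, h1, zero_add]
    have h3 : inner ℂ y x = inner ℂ y.fst (s : Completion E) := by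
      rw [WithLp.prod_inner_apply]
      change inner ℂ y.fst x.fst + inner ℂ y.snd x.snd = _
      rw [hx1, hx2, inner_zero_right, add_zero]
    rw [← h3, h2, ← hn]
    exact (inner_self_eq_norm_sq (𝕜 := ℂ) y).symm
  · have h1 : z ∈ closure (R : Set (WithLp 2 (Completion E × Completion E))) := hz
    have hc : Continuous fun t : WithLp 2 (Completion E × Completion E) => ‖x - t‖ ^ 2 := by
      fun_prop
    have ho : IsOpen {t : WithLp 2 (Completion E × Completion E) | ‖x - t‖ ^ 2 < ‖y‖ ^ 2 + δ} :=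
      isOpen_lt hc continuous_const
    have hzo : ‖x - z‖ ^ 2 < ‖y‖ ^ 2 + δ := by
      rw [hzy, add_sub_cancel_left]
      linarith
    obtain ⟨t, ht, u, rfl⟩ := mem_closure_iff.1 h1 _ ho hzo
    refine ⟨u, ?_⟩
    have h2 : ‖x - T u‖ ^ 2 = ‖s - u‖ ^ 2 + r ^ 2 * ‖D u‖ ^ 2 := by
      rw [WithLp.prod_norm_sq_eq_of_L2]
      change ‖x.fst - (T u).fst‖ ^ 2 + ‖x.snd - (T u).snd‖ ^ 2 = _
      rw [hx1, hx2, hT1, hT2, zero_sub, norm_neg, norm_smul, ← Completion.coe_sub,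
        Completion.norm_coe, Completion.norm_coe, mul_pow, Complex.norm_real, Real.norm_eq_abs,
        sq_abs]
    rw [← h2, ← hn]
    exact le_of_lt ht

/-- passage to the limit -/
theorem lim_le {E : Type} [NormedAddCommGroup E] [InnerProductSpace ℂ E] {D : E →ₗ[ℂ] E} {s : E}
    {A ε : ℝ} {v f : Completion E}
    (hw : ∀ δ : ℝ, 0 < δ → ∃ w : E, ‖(w : Completion E) - v‖ ≤ δ ∧
      ‖((D w : E) : Completion E) - f‖ ≤ δ)
    (h : ∀ w : E, 2 * (inner ℂ (D w) s).re ≤ A + (‖D w‖ ^ 2 + ε * ‖w‖ ^ 2)) :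
    2 * (inner ℂ f (s : Completion E)).re ≤ A + (‖f‖ ^ 2 + ε * ‖v‖ ^ 2) := by
  choose w hw1 hw2 using fun n : ℕ => hw (1 / ((n : ℝ) + 1)) (by positivity)
  have hlim := tendsto_one_div_add_atTop_nhds_zero_nat (𝕜 := ℝ)
  have h1 : Tendsto (fun n => (w n : Completion E)) atTop (𝓝 v) := by
    rw [tendsto_iff_norm_sub_tendsto_zero]
    exact squeeze_zero (fun n => norm_nonneg _) hw1 hlim
  have h2 : Tendsto (fun n => ((D (w n) : E) : Completion E)) atTop (𝓝 f) := by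
    rw [tendsto_iff_norm_sub_tendsto_zero]
    exact squeeze_zero (fun n => norm_nonneg _) hw2 hlim
  have h4 : Tendsto (fun n => 2 * (inner ℂ ((D (w n) : E) : Completion E) (s : Completion E)).re)
      atTop (𝓝 (2 * (inner ℂ f (s : Completion E)).re)) :=
    ((Complex.continuous_re.tendsto _).comp (h2.inner tendsto_const_nhds)).const_mul 2
  have h5 := ((h2.norm.pow 2).add ((h1.norm.pow 2).const_mul ε)).const_add A
  refine le_of_tendsto_of_tendsto' h4 h5 fun n => ?_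
  rw [Completion.inner_coe, Completion.norm_coe, Completion.norm_coe]
  exact h (w n)

variable {d : ℕ} {X : Type} [TopologicalSpace X] {ι : Type} [ChartedSpace (Cm d) X]
  [IsManifold 𝓘(ℂ, Cm d) ω X] [T2Space X] [CompactSpace X] {B : HB d X ι}

theorem norm_D_dg_le' {p : ℕ} (hp : p < d + 1) (s : B.S) :
    ‖B.D (B.dg p s)‖ ^ 2 ≤ ‖B.D s‖ ^ 2 := by
  rw [norm_D_dg s]
  exact Finset.single_le_sum (f := fun p => ‖B.D (B.dg p s)‖ ^ 2) (fun p _ => sq_nonneg _)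
    (Finset.mem_range.2 hp)

theorem one_est {s : B.S} (hs : B.dg d s = s) {A ε : ℝ} (hε : 0 ≤ ε) {p : ℕ} (hpd : p + 1 = d)
    (h : ∀ γ : B.S, B.dg p γ = γ → 2 * (inner ℂ γ (B.Dd s)).re ≤ A + B.qf γ + ε * ‖γ‖ ^ 2)
    (w : B.S) : 2 * (inner ℂ (B.D w) s).re ≤ A + (‖B.D w‖ ^ 2 + ε * ‖w‖ ^ 2) := by
  have e0 : B.D s = B.dg p (B.Dd s) := by
    rw [D_eq, Dp_top hs, zero_add, ← Dd_dg_succ, hpd, hs]
  rw [D_symm, e0, ← dg_symm]
  have e1 := h _ (dg_idem p w)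
  have e2 := grad_nonneg (B := B) (B.dg p w)
  have e3 := HB.bkn (B := B) (B.dg p w)
  rw [← norm_D_sq] at e3
  have e4 := norm_D_dg_le' (show p < d + 1 by omega) w
  have e5 : ‖B.dg p w‖ ^ 2 ≤ ‖w‖ ^ 2 := pow_le_pow_left₀ (norm_nonneg _) (norm_dg_le p _) 2
  have e6 := mul_le_mul_of_nonneg_left e5 hε
  linarith

theorem top_le {s : B.S} (hs : B.dg d s = s) {c : ℝ} (hc : 0 ≤ c) (u : B.S) :
    ‖s - B.dg d u‖ ^ 2 + c * B.grad (B.dg d u) ≤ ‖s - u‖ ^ 2 + c * ‖B.D u‖ ^ 2 := by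
  have e1 : s - B.dg d u = B.dg d (s - u) := by rw [map_sub, hs]
  have e2 : ‖B.dg d (s - u)‖ ^ 2 ≤ ‖s - u‖ ^ 2 :=
    pow_le_pow_left₀ (norm_nonneg _) (norm_dg_le d _) 2
  have e4 := mul_le_mul_of_nonneg_left (norm_D_dg_le' (Nat.lt_succ_self d) u) hc
  rw [e1, ← norm_D_top (dg_idem d u)]
  exact add_le_add e2 e4

end AbsX

/-- **ABS** -/
theorem abs_eps : ABS := by
  intro d X _ _ _ _ _ ι B s A ε η hs hA hε hη h
  rcases Nat.eq_zero_or_eq_succ_pred d with h0 | h0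
  · refine ⟨s, hs, ?_⟩
    have h1 : B.Dd s = 0 := by
      rw [← hs]
      have := Dd_dg_zero (B := B) s
      rwa [← h0] at this
    rw [← norm_D_top hs, D_eq, Dp_top hs, h1, sub_self, add_zero, norm_zero,
      zero_pow two_ne_zero, mul_zero, add_zero]
    exact add_nonneg hA hη.le
  have hr2 : Real.sqrt ε⁻¹ ^ 2 = ε⁻¹ := Real.sq_sqrt (inv_nonneg.2 hε.le)
  obtain ⟨y₁, y₂, hw, hN, hu⟩ := AbsX.graph_dec B.D s (Real.sqrt ε⁻¹)
  have h6 := AbsX.lim_le (fun δ hδ => weak_eq_strong (𝕜 := ℂ) (D := B.D) (D' := B.D) D_symm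
    B.ell.smoothing B.ell.smoothing B.ell.comm _ y₁ hw hδ)
    (AbsX.one_est hs hε.le h0.symm (h _ h0.symm))
  rw [norm_smul, norm_neg, mul_pow, Complex.norm_real, Real.norm_eq_abs, sq_abs, hr2,
    ← mul_assoc, mul_inv_cancel₀ hε.ne', one_mul, ← hN] at h6
  obtain ⟨u, hu1⟩ := hu η hη
  rw [hr2] at hu1
  refine ⟨B.dg d u, dg_idem d u, (AbsX.top_le hs (inv_nonneg.2 hε.le) u).trans (hu1.trans ?_)⟩
  generalize ‖y₁‖ ^ 2 = a at *
  generalize ‖y₂‖ ^ 2 = b at *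
  linarith

end Vale.Agent.P301Z.Ho
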