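import Vale.Agent.P301Z.Ho.HDefs
import Vale.Agent.P301.H897.Main
import Vale.Agent.P285Z.Psh

/-!
# P301Z, Lemma H: the `L²` estimate with a small loss of positivity
-/

open scoped Manifold ContDiff ComplexOrder Topology Matrix ENNReal
open MeasureTheory Filter Set
open Vale.Agent.P272.K Vale.Agent.P299.IX Vale.Agent.P301.H599 Vale.Agent.P285Z
open Vale.Agent.P285Z.H0 Vale.Agent.P299.IX.Fock Vale.Agent.P301.H862 Vale.Agent.P301.H862.HB
open Vale.Agent.P301.H98 (IsSection nrm)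
open Vale.Agent.P272.K.AMP (volX volD integrable_volX isDensity_det_metric det_metric_pos)

set_option linter.unusedSectionVars false

noncomputable section

namespace Vale.Agent.P301Z.Ho

variable {d : ℕ} {X : Type} [TopologicalSpace X] [ChartedSpace (Cm d) X]
  [IsManifold 𝓘(ℂ, Cm d) ω X] [T2Space X] [CompactSpace X] [MeasurableSpace X] [BorelSpace X]
  {κ : Type} {w : Fm d X} {B : LineBundle d X κ} {ρ : κ → X → ℝ}

/-- integrals over compact subsets of charts -/
lemma lint_chart_le (hw : IsHermitian w) {e : Chart d X} (he : e ∈ atlas (Cm d) X)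
    {K : Set (Cm d)} (hK : IsCompact K) (hKe : K ⊆ e.target) :
    ∃ c : ℝ≥0∞, c ≠ ⊤ ∧ ∀ f : X → ℝ≥0∞, Measurable f →
      ∫⁻ z in K, f (e.symm z) ≤ c * ∫⁻ x, f x ∂(volX w) := by
  have hD := isDensity_det_metric hw
  have hpos : ∀ z ∈ e.target, 0 < (w e z).det.re := fun z hz => by
    have h3 := det_metric_pos hw e (e.symm z) (At.of_target he hz)
    rwa [e.right_inv hz] at h3
  obtain ⟨δ, hδ, hδK⟩ : ∃ δ : ℝ, 0 < δ ∧ ∀ z ∈ K, δ ≤ (w e z).det.re := by
    rcases K.eq_empty_or_nonempty with rfl | hne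
    · exact ⟨1, one_pos, fun z hz => hz.elim⟩
    · obtain ⟨z₀, hz₀, hmin⟩ := hK.exists_isMinOn hne ((hD.continuousOn he).mono hKe)
      exact ⟨_, hpos z₀ (hKe hz₀), fun z hz => hmin hz⟩
  refine ⟨ENNReal.ofReal δ⁻¹, ENNReal.ofReal_ne_top, fun f hf => ?_⟩
  have h1 := P299.H167.lintegral_volD hD (fun e x hx => (det_metric_pos hw e x hx).le) he
    (G := e.source.indicator f) (hf.indicator e.open_source.measurableSet)
    (fun x hx => indicator_of_notMem hx _)
  have h2 : ∫⁻ x, e.source.indicator f x ∂(volD fun e z => (w e z).det.re) ≤ ∫⁻ x, f x ∂(volX w) :=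
    lintegral_mono fun x => indicator_le_self _ _ x
  rw [h1] at h2
  have h3 : ∫⁻ z in K, f (e.symm z) ≤ ∫⁻ z in K, ENNReal.ofReal δ⁻¹ *
      (ENNReal.ofReal (w e z).det.re * e.source.indicator f (e.symm z)) := by
    refine setLIntegral_mono' hK.measurableSet fun z hz => ?_
    rw [indicator_of_mem (e.map_target (hKe hz)), ← mul_assoc,
      ← ENNReal.ofReal_mul (inv_pos.2 hδ).le]
    have h4 : 1 ≤ δ⁻¹ * (w e z).det.re := by
      rw [← inv_mul_cancel₀ hδ.ne']
      exact mul_le_mul_of_nonneg_left (hδK z hz) (inv_pos.2 hδ).le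
    calc f (e.symm z) = 1 * f (e.symm z) := (one_mul _).symm
      _ ≤ _ := mul_le_mul_left (ENNReal.one_le_ofReal.2 h4) _
  rw [lintegral_const_mul' _ _ ENNReal.ofReal_ne_top] at h3
  exact h3.trans (mul_le_mul_right ((lintegral_mono_set hKe).trans h2) _)

lemma int_le_toReal (hw : IsHermitian w) {f : X → ℝ} (hf : Continuous f) (h0 : ∀ x, 0 ≤ f x)
    {A : ℝ≥0∞} (hA : A ≠ ⊤) (h : ∫⁻ x, ENNReal.ofReal (f x) ∂(volX w) ≤ A) :
    ∫ x, f x ∂(volX w) ≤ A.toReal := by
  rw [← ofReal_integral_eq_lintegral_ofReal (integrable_volX hw hf) (Eventually.of_forall h0)] at h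
  exact (ENNReal.ofReal_le_iff_le_toReal hA).1 h

lemma int_le_mul (hw : IsHermitian w) {f g : X → ℝ} (hf : Continuous f) (hg : Continuous g)
    {c : ℝ} (h : ∀ x, f x ≤ c * g x) : ∫ x, f x ∂(volX w) ≤ c * ∫ x, g x ∂(volX w) := by
  rw [← integral_const_mul]
  exact integral_mono (integrable_volX hw hf) ((integrable_volX hw hg).const_mul c) h

lemma dn_upS (hw : IsKahler w) (hρ : IsMetric B ρ) {s : κ → X → ℂ} (hs : IsSc B s) {i : κ} {x : X}
    (hi : x ∈ B.U i) : dn (upS hw hρ hs).f i x = s i x := by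
  have hx := atChart (d := d) x
  rw [dn_eq (upS hw hρ hs).isSec hx hi, (upS_near hw hρ hs hx hi).self_of_nhds]
  simp [ev]

lemma norm_upS (hw : IsKahler w) (hρ : IsMetric B ρ) {s : κ → X → ℂ} (hs : IsSc B s) :
    ‖upS hw hρ hs‖ ^ 2 = ∫ x, nrm B ρ s x ∂(volX w) := by
  rw [norm_top hw hρ (dg_upS hw hρ hs)]
  congr 1
  funext x
  exact nrm_congr fun i hi => dn_upS hw hρ hs hi

lemma norm_sub_upS (hw : IsKahler w) (hρ : IsMetric B ρ) {s : κ → X → ℂ} (hs : IsSc B s)
    {u : Fam d X (κ × Chart d X)} (hu : IsSec (NB B) u)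
    (h0 : ∀ I, I ≠ Finset.univ → ∀ p e x, At e x → x ∈ (NB B).U p → u p e (e x) I = 0) :
    ‖mkS (B := HN hw hρ) u hu - upS hw hρ hs‖ ^ 2 =
      ∫ x, nrm B ρ (fun i y => dn u i y - s i y) x ∂(volX w) := by
  have h1 : (HN hw hρ).dg d (mkS (B := HN hw hρ) u hu) = mkS (B := HN hw hρ) u hu := by
    apply S.ext_f
    intro p e x hx hp
    rw [HB.dg, dgc_at _ _ hx hp, top_mulVec, mkS_at (B := HN hw hρ) hu hx hp]
    funext I
    by_cases hI : I = Finset.univ
    · subst hI
      simp [ev]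
    · rw [h0 I hI p e x hx hp]
      simp [ev, hI]
  have h2 : (HN hw hρ).dg d (mkS (B := HN hw hρ) u hu - upS hw hρ hs) =
      mkS (B := HN hw hρ) u hu - upS hw hρ hs := by rw [map_sub, h1, dg_upS]
  rw [norm_top hw hρ h2]
  congr 1
  funext x
  refine nrm_congr fun i hi => ?_
  have hx := atChart (d := d) x
  rw [← dn_upS hw hρ hs hi, dn_eq hu hx hi, ← mkS_at (B := HN hw hρ) hu hx (mem_NB hx hi)]
  rfl

lemma sq_le_two {E : Type} [SeminormedAddCommGroup E] (a b : E) :
    ‖a - b‖ ^ 2 ≤ 2 * ‖a‖ ^ 2 + 2 * ‖b‖ ^ 2 := by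
  have h1 := norm_sub_le a b
  have h2 := norm_nonneg (a - b)
  nlinarith [sq_nonneg (‖a‖ - ‖b‖)]

/-- **(AHK)** -/
theorem ahk_of (hA : ABS) (hE : EST) : AHK := by
  intro d X _ _ _ _ _ _ _ w hw h hh hhk
  have hW := hw.toIsHermitian
  obtain ⟨H, hH⟩ := (isCompact_range (smooth_continuous hh)).isBounded.exists_norm_le
  have hH1 : ∀ x, -h x ≤ |H| := fun x =>
    (neg_le_abs _).trans ((hH _ ⟨x, rfl⟩).trans (le_abs_self H))
  have hH2 : ∀ x, h x ≤ |H| := fun x =>
    (le_abs_self _).trans ((hH _ ⟨x, rfl⟩).trans (le_abs_self H))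
  set E : ℝ := Real.exp |H| with hEdef
  have hE1 : 1 ≤ E := Real.one_le_exp (abs_nonneg H)
  refine ⟨ENNReal.ofReal (4 * E ^ 2), ENNReal.ofReal_ne_top, ?_⟩
  intro κ B ρ hρ Ψ a ε s C₁ A hAt hε hε0 hΨ hΨC hM hP hs hsC ha ha0 hd hA'
  set v : ℕ → X → ℝ := fun n x => Ψ n x + h x with hv
  have hvs : ∀ n, Smooth (d := d) (v n) := fun n e x hx => (hΨ n e x hx).add (hh e x hx)
  have hρn : ∀ n, IsMetric B (fun i x => ρ i x + v n x) := fun n => isMetric_add hρ (hvs n)
  have hc : ∀ n e x, At e x →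
      curvature B (fun i x => ρ i x + v n x) e (e x) - kc w e (e x) + (ε n : ℂ) • w e (e x) =
        curvature B ρ e (e x) + ddc (Ψ n) e (e x) + (ε n : ℂ) • w e (e x) := by
    intro n e x hx
    have h1 := curvature_add hρ (hvs n) e x hx
    have h2 := ddc_add (hΨ n) hh e x hx
    simp only [] at h1 h2
    rw [h1, h2, hhk e x hx]
    abel
  have hcv : ∀ n, Continuous fun x => Real.exp (-v n x) :=
    fun n => (smooth_continuous (hvs n)).neg.rexp
  have hcΨ : ∀ n, Continuous fun x => Real.exp (-Ψ n x) :=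
    fun n => (smooth_continuous (hΨ n)).neg.rexp
  have he1 : ∀ n x, Real.exp (-v n x) ≤ E * Real.exp (-Ψ n x) := fun n x => by
    rw [hEdef, ← Real.exp_add]
    exact Real.exp_le_exp.2 (by simp only [hv]; linarith [hH1 x])
  have he2 : ∀ n x, Real.exp (-Ψ n x) ≤ E * Real.exp (-v n x) := fun n x => by
    rw [hEdef, ← Real.exp_add]
    exact Real.exp_le_exp.2 (by simp only [hv]; linarith [hH2 x])
  set A' : ℝ := E * A.toReal + 1 with hA'def
  have hex : ∀ n, ∃ u : (HN hw (hρn n)).S, (HN hw (hρn n)).dg d u = u ∧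
      ‖upS hw (hρn n) (hs n) - u‖ ^ 2 + (ε n)⁻¹ * (HN hw (hρn n)).grad u ≤ A' := by
    intro n
    have hb : Continuous fun x => a n x * Real.exp (-v n x) := (ha n).mul (hcv n)
    have hb0 : ∀ x, 0 ≤ a n x * Real.exp (-v n x) :=
      fun x => mul_nonneg (ha0 n x) (Real.exp_pos _).le
    obtain ⟨u, hu1, hu2⟩ := hA d X _ (HN hw (hρn n)) (upS hw (hρn n) (hs n)) _ (ε n) 1
      (dg_upS hw (hρn n) (hs n)) (integral_nonneg hb0) (hε n) one_pos
      (hE d X w hw κ B _ (hρn n) (ε n) (fun e x hx => by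
        have := hP n e x hx
        simp only [] at this ⊢
        rwa [hc n e x hx]) (s n) (hs n) _ hb hb0 (fun i e x hx hi ξ => by
        have h1 := hd n i e x hx hi ξ
        simp only [] at h1 ⊢
        rw [hc n e x hx, neg_add, Real.exp_add, ← mul_assoc, mul_right_comm (a n x)]
        exact mul_le_mul_of_nonneg_right h1 (Real.exp_pos _).le))
    refine ⟨u, hu1, hu2.trans (add_le_add_left ?_ 1)⟩
    have hb' : Continuous fun x => a n x * Real.exp (-Ψ n x) := (ha n).mul (hcΨ n)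
    refine (int_le_mul hW hb hb' (c := E) fun x => ?_).trans (mul_le_mul_of_nonneg_left
      (int_le_toReal hW hb' (fun x => mul_nonneg (ha0 n x) (Real.exp_pos _).le) hAt (hA' n))
      (by linarith))
    rw [mul_left_comm]
    exact mul_le_mul_of_nonneg_left (he1 n x) (ha0 n x)
  choose u hu1 hu2 using hex
  have hg0 : ∀ n, 0 ≤ (HN hw (hρn n)).grad (u n) := fun n => grad_nonneg _
  have hu3 : ∀ n, ‖upS hw (hρn n) (hs n) - u n‖ ^ 2 ≤ A' := fun n =>
    le_trans (le_add_of_nonneg_right (mul_nonneg (inv_pos.2 (hε n)).le (hg0 n))) (hu2 n)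
  have hu4 : ∀ n, (HN hw (hρn n)).grad (u n) ≤ ε n * A' := fun n => by
    rw [← inv_mul_le_iff₀ (hε n)]
    exact le_trans (le_add_of_nonneg_left (sq_nonneg _)) (hu2 n)
  have hmet : ∀ n, (fun i x => (HN hw hρ).ρ i x + v n x) = (HN hw (hρn n)).ρ := fun n => by
    funext p x
    exact add_right_comm _ _ _
  obtain ⟨B1, hB1, hB1'⟩ := hM 1 one_pos
  obtain ⟨B2, hB2, hB2'⟩ := hM (2 * d + 1) (by positivity)
  have ht : ∀ n, ‖upS hw (hρn n) (hs n)‖ ^ 2 ≤ |C₁| * E * B1.toReal := by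
    intro n
    rw [norm_upS]
    refine (int_le_mul hW (continuous_nrm (hρn n) (hs n)) (hcΨ n) (c := |C₁| * E) fun x => ?_).trans
      (mul_le_mul_of_nonneg_left (int_le_toReal hW (hcΨ n) (fun x => (Real.exp_pos _).le) hB1 ?_)
        (by positivity))
    · rw [nrm_add_weight, mul_assoc]
      exact mul_le_mul ((hsC n x).trans (le_abs_self _)) (he1 n x) (Real.exp_pos _).le
        (abs_nonneg _)
    · simpa only [one_mul] using hB1' n
  obtain ⟨U, hU, -, hU2, hU3⟩ := P301.H897.lim_main (L := NB B) hw (HN hw hρ).metric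
    (hyperfilter ℕ) hvs (C₁ := C₁ + |H|) (fun n x => add_le_add (hΨC n x) (hH2 x))
    (g := fun n => (u n).f) (fun n => (u n).isSec)
    (M := 2 * (|C₁| * E * B1.toReal) + 2 * A') (fun n => by
      rw [hmet n]
      have h1 := sq_le_two (upS hw (hρn n) (hs n)) (upS hw (hρn n) (hs n) - u n)
      rw [sub_sub_cancel, norm_sq_eq] at h1
      exact h1.trans (by linarith [ht n, hu3 n])) (by
      simp only [hmet]
      have h1 := hε0.mul_const A'
      rw [zero_mul] at h1
      exact (squeeze_zero hg0 hu4 h1).mono_left Nat.hyperfilter_le_atTop)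
  have hU4 := hU3 fun e he K hK hKe => by
    obtain ⟨c, hc1, hc2⟩ := lint_chart_le hW he hK hKe
    refine ⟨c * (ENNReal.ofReal (E ^ (2 * d + 1)) * B2), by finiteness, fun n => ?_⟩
    have hm : ∀ f : X → ℝ, Smooth (d := d) f →
        Measurable fun x => ENNReal.ofReal (Real.exp (-((2 * d + 1) * f x))) := fun f hf =>
      ((continuous_const.mul (smooth_continuous hf)).neg.rexp).measurable.ennreal_ofReal
    refine (hc2 _ (hm _ (hvs n))).trans (mul_le_mul_right ?_ c)
    refine le_trans ?_ (mul_le_mul_right (hB2' n) _)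
    rw [← lintegral_const_mul _ (hm _ (hΨ n))]
    refine lintegral_mono fun x => ?_
    rw [← ENNReal.ofReal_mul (by positivity), hEdef, ← Real.exp_nat_mul, ← Real.exp_add]
    refine ENNReal.ofReal_le_ofReal (Real.exp_le_exp.2 ?_)
    have h1 : (0 : ℝ) ≤ 2 * d + 1 := by positivity
    have h2 := mul_le_mul_of_nonneg_left (hH1 x) h1
    simp only [hv]
    push_cast
    linarith
  obtain ⟨n, hn⟩ := (hU4.eventually (gt_mem_nhds one_pos)).exists
  have hG : IsSection B (dn U) :=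
    ⟨fun i e x hx hi => (hU.holo (i, e) e x hx (mem_NB hx hi) Finset.univ).congr
      (dn_near hU.isSec hx hi).symm, (isSc_dn hU.isSec).change⟩
  refine ⟨dn U, hG, n, ?_⟩
  have h1 : ‖u n - mkS (B := HN hw (hρn n)) U hU.isSec‖ ^ 2 ≤ 1 := by
    rw [hmet n] at hn
    rw [norm_sq_eq]
    refine le_trans (le_of_eq (congrArg Complex.re ?_)) hn.le
    refine ipB_congr (B := HN hw (hρn n)) (fun i e x hx hi => ?_) fun i e x hx hi => ?_ <;>
      rw [← mkS_at (B := HN hw (hρn n)) hU.isSec hx hi] <;> rfl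
  have h2 := sq_le_two (upS hw (hρn n) (hs n) - u n) (mkS (B := HN hw (hρn n)) U hU.isSec - u n)
  rw [sub_sub_sub_cancel_right, norm_sub_rev, norm_sub_upS hw (hρn n) (hs n) hU.isSec
    (fun I hI => hU2 I fun m p e x hx hp => by
      rw [f_top (hu1 m) hx hp]
      simp [ev, hI]), norm_sub_rev _ (u n)] at h2
  have hsc := isSc_sub (isSc_of_section hG) (hs n)
  have hcn : Continuous fun x => nrm B ρ (fun i y => dn U i y - s n i y) x * Real.exp (-Ψ n x) :=
    (continuous_nrm hρ hsc).mul (hcΨ n)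
  rw [← ofReal_integral_eq_lintegral_ofReal (integrable_volX hW hcn) (Eventually.of_forall
    fun x => mul_nonneg (nrm_nonneg' _ _ _ x) (Real.exp_pos _).le), ← ENNReal.ofReal_toReal hAt,
    ← ENNReal.ofReal_one, ← ENNReal.ofReal_add ENNReal.toReal_nonneg zero_le_one,
    ← ENNReal.ofReal_mul (by positivity)]
  refine ENNReal.ofReal_le_ofReal ((int_le_mul hW hcn (continuous_nrm (hρn n) hsc) (c := E)
    fun x => ?_).trans ?_)
  · rw [nrm_add_weight, mul_left_comm]
    exact mul_le_mul_of_nonneg_left (he2 n x) (nrm_nonneg' _ _ _ x)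
  · have h3 := hu3 n
    rw [norm_sub_rev] at h1 h3
    have h4 : 0 ≤ A.toReal := ENNReal.toReal_nonneg
    have h5 : ∫ x, nrm B (fun i x => ρ i x + v n x) (fun i y => dn U i y - s n i y) x ∂(volX w) ≤
        4 * E * (A.toReal + 1) := by nlinarith
    nlinarith

end Vale.Agent.P301Z.Ho
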