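import Vale.Agent.P301Z.Ho.Defs
import Vale.Agent.P285Z.Alg
import Vale.Agent.P285Z.Zeta

/-!
# P301Z, Lemma H: sections for a smooth obstacle
-/

open scoped Manifold ContDiff ComplexOrder Topology ENNReal Matrix
open MeasureTheory Filter Set
open Vale.Agent.P272.K Vale.Agent.P301.H599 Vale.Agent.P285Z
open Vale.Agent.P301.H98 (IsSection nrm rform_curvature)
open Vale.Agent.P301.H862 (powL IsSc)
open Vale.Agent.P272.K.AMP (volX)

noncomputable section

namespace Vale.Agent.P301Z.Ho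

namespace Asm1X

variable {d : ℕ} {X : Type} [TopologicalSpace X] [ChartedSpace (Cm d) X] {κ : Type}
  {B : LineBundle d X κ} {ρ : κ → X → ℝ} {U : Set X} {E : κ → X → ℂ}

theorem ca_of {Y : Type} [TopologicalSpace Y] {f : X → Y} {e : Chart d X} {x : X} (he : At e x)
    (h : ContinuousAt (fun z => f (e.symm z)) (e x)) : ContinuousAt f x :=
  (h.comp (f := e) (e.continuousAt he.2)).congr (by
    filter_upwards [e.open_source.mem_nhds he.2] with y hy
    exact congrArg f (e.left_inv hy))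

theorem nrm_loc (hρ : IsMetric B ρ) (hE : SecOn B U E) {x : X} (hx : x ∈ U) {i : κ}
    (hi : x ∈ B.U i) : nrm B ρ E x = ‖E i x‖ ^ 2 * Real.exp (-ρ i x) := by
  have hj := (B.cover x).choose_spec
  have hg := B.ne_zero i _ x hi hj
  rw [nrm, hE.chg i _ x hx hi hj, hρ.change i _ x hi hj, neg_add, Real.exp_add,
    Real.exp_neg (Real.log _), Real.exp_log (by positivity), norm_mul]
  field_simp

theorem nrm_bd (hρ : IsMetric B ρ) (hU : IsOpen U) (hE : SecOn B U E) {K : Set X}
    (hK : IsCompact K) (hKU : K ⊆ U) : ∃ C : ℝ, 0 ≤ C ∧ ∀ x ∈ K, nrm B ρ E x ≤ C := by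
  have h : ContinuousOn (nrm B ρ E) K := fun x hx => by
    obtain ⟨i, hi⟩ := B.cover x
    have he : At (chartAt (Cm d) x) x := ⟨chart_mem_atlas _ x, mem_chart_source _ x⟩
    have h1 := ca_of he (hE.hol i x (hKU hx) hi _ he).continuousAt
    have h2 := ca_of he (hρ.smooth i _ x he hi).continuousAt
    refine (((h1.norm.pow 2).mul h2.neg.rexp).congr ?_).continuousWithinAt
    filter_upwards [hU.mem_nhds (hKU hx), (B.isOpen i).mem_nhds hi] with y hy hy'
    exact (nrm_loc hρ hE hy hy').symm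
  obtain ⟨C, hC⟩ := hK.bddAbove_image h
  exact ⟨max C 0, le_max_right _ _, fun x hx => (hC (mem_image_of_mem _ hx)).trans (le_max_left _ _)⟩

omit [TopologicalSpace X] in
theorem wW_le {M : ℝ} {u φ ψ : X → ℝ} {x : X} (hM : 1 ≤ M) (h1 : u x ≤ ψ x + 1) (h2 : φ x ≤ 0)
    (h3 : ψ x ≤ 0) : wW M u φ x ≤ (M - 1) * ψ x + M := by
  have h4 := kap_le_max (tt u φ x)
  have h5 := mul_le_mul_of_nonneg_left h1 (sub_nonneg.2 hM)
  rw [wW]
  rcases le_max_iff.1 h4 with h | h
  · rw [tt] at h
    rw [tt]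
    linarith
  · linarith

omit [TopologicalSpace X] in
theorem lint [MeasurableSpace X] (μ : Measure X) {f g : X → ℝ} {c : ℝ} (hc : 0 ≤ c)
    (h : ∀ x, f x ≤ c * g x) :
    ∫⁻ x, ENNReal.ofReal (f x) ∂μ ≤ ENNReal.ofReal c * ∫⁻ x, ENNReal.ofReal (g x) ∂μ := by
  rw [← lintegral_const_mul' _ _ ENNReal.ofReal_ne_top]
  exact lintegral_mono fun x => by
    rw [← ENNReal.ofReal_mul hc]
    exact ENNReal.ofReal_le_ofReal (h x)

end Asm1X

open Asm1X

theorem asm1_of (ayo : AYO) (wtr : WTR) (ahk : AHK) : ASM1 := by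
  intro d X _ _ _ _ _ _ _ _ w hw h hh hfe ι L ρ hρ hnef φ hφ hmom U K M E hU hK hKU hM hE
  have hB := isMetric_pow hρ M
  have hM1 : (1 : ℝ) ≤ M := by exact_mod_cast hM
  have hM0 : (0 : ℝ) < M := by linarith
  obtain ⟨C₀, hC₀, H⟩ := ahk d X w hw h hh hfe
  obtain ⟨CE, hCE, hbd⟩ := nrm_bd hB hU hE hK hKU
  obtain ⟨Kz, hKz, hz⟩ := exists_deriv_zeta_le
  obtain ⟨BM, hBM, hm⟩ := hmom M hM0
  have hA : ENNReal.ofReal (Kz * CE * Real.exp (4 * M)) * BM ≠ ⊤ :=
    ENNReal.mul_ne_top ENNReal.ofReal_ne_top hBM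
  refine ⟨ENNReal.ofReal (2 * Real.exp M) *
    (C₀ * (ENNReal.ofReal (Kz * CE * Real.exp (4 * M)) * BM + 1)) +
    ENNReal.ofReal (2 * CE * Real.exp (5 * M)) * BM, by finiteness, fun ψ hψ hψ0 hψK hV => ?_⟩
  have ep0 : ∀ n, 0 < ep n := fun n => by unfold ep; positivity
  have ex : ∀ n, ∃ (u : X → ℝ) (j : ℕ), Smooth (d := d) u ∧
      (PSD fun e z => curvature L ρ e z + (ep n : ℂ) • w e z + ddc u e z) ∧
      (∀ x, u x ≤ ψ x + 1) ∧ ep j ≤ ep n ∧ ∀ x, φ j x + ψ x - 2 ≤ u x := fun n => by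
    obtain ⟨u, k1, k2, k3, k4⟩ := ayo d X w _ hw (rform_curvature hρ) hnef φ ψ
      (fun j => (hφ j).nonpos) hψ hV _ (ep0 n)
    obtain ⟨j, k5, k6⟩ := (k4.and (eventually_ge_atTop n)).exists
    exact ⟨u, j, k1, k2, k3, Nat.one_div_le_one_div k6, k5⟩
  choose u j u1 u2 u3 u4 u5 using ex
  have hin : ∀ n x, -1 < tt (u n) (φ (j n)) x → x ∈ K := fun n x ht => hψK x fun h0 => by
    have := u5 n x
    rw [tt] at ht
    linarith
  have W := fun n => wtr d X ι _ _ hB U K E hU hK.isClosed hKU hE (curvature L ρ) w M (ep n)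
    (ep (j n)) (u n) (φ (j n)) (fun e x he => (hw.posDef e x he).posSemidef) hM1 (u4 n) (u1 n)
    (hφ _).smooth (u2 n) (hφ _).psd (hin n)
  have up : ∀ n x, wW M (u n) (φ (j n)) x ≤ (M - 1) * ψ x + M := fun n x =>
    wW_le hM1 (u3 n x) ((hφ _).nonpos x) (hψ0 x)
  have lo : ∀ n x, M * u n x ≤ wW M (u n) (φ (j n)) x := fun n x =>
    le_add_of_nonneg_right (kap_nonneg _)
  have hn : ∀ x, 0 ≤ nrm (powL L M) (powM ρ M) E x := fun x => nrm_nonneg' _ _ _ x
  obtain ⟨G, hG, n, hI⟩ := H ι _ _ hB (fun n => wW M (u n) (φ (j n)))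
    (fun n x => deriv zeta (tt (u n) (φ (j n)) x) * nrm (powL L M) (powM ρ M) E x)
    (fun n => M * ep n) (fun n i x => (zeta (tt (u n) (φ (j n)) x) : ℂ) * E i x) (M + CE) _ hA
    (fun n => mul_pos hM0 (ep0 n))
    (by simpa [ep] using tendsto_one_div_add_atTop_nhds_zero_nat.const_mul (M : ℝ))
    (fun n => (W n).1)
    (fun n x => by
      have := mul_nonpos_of_nonneg_of_nonpos (sub_nonneg.2 hM1) (hψ0 x)
      linarith [up n x])
    (fun p hp => by
      obtain ⟨Bp, k1, k2⟩ := hmom (p * M) (mul_pos hp hM0)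
      obtain ⟨m, k3⟩ := (isCompact_range (smooth_continuous hψ)).bddBelow
      refine ⟨ENNReal.ofReal (Real.exp (p * M * (2 - m))) * Bp, by finiteness, fun n => ?_⟩
      refine (lint _ (Real.exp_pos _).le fun x => ?_).trans (mul_le_mul_right (k2 (j n)) _)
      rw [← Real.exp_add, Real.exp_le_exp]
      have k4 : m ≤ ψ x := k3 (mem_range_self x)
      have k5 := mul_le_mul_of_nonneg_left (lo n x) hp.le
      have k6 := mul_le_mul_of_nonneg_left (show φ (j n) x + m - 2 ≤ u n x by linarith [u5 n x])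
        (mul_pos hp hM0).le
      linarith)
    (fun n e x he => by
      have := (W n).2.1 e x he
      beta_reduce at this
      rwa [← show _ = ((M : ℝ) : ℂ) • curvature L ρ e (e x) from curvature_pow hρ M e x he] at this)
    (fun n => (W n).2.2.1)
    (fun n x => by
      rw [nrm_smul, Complex.norm_real, Real.norm_of_nonneg (zeta_nonneg _)]
      rcases lt_or_ge (-1) (tt (u n) (φ (j n)) x) with ht | ht
      · have k1 := pow_le_one₀ (n := 2) (zeta_nonneg (tt (u n) (φ (j n)) x)) (zeta_le_one _)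
        have k2 := mul_le_mul k1 (hbd x (hin n x ht)) (hn x) zero_le_one
        linarith
      · rw [zeta_of_le ht]
        simp only [ne_eq, OfNat.ofNat_ne_zero, not_false_eq_true, zero_pow, zero_mul]
        positivity)
    (fun n => (W n).2.2.2.1) (fun n x => mul_nonneg (deriv_zeta_nonneg _) (hn x))
    (fun n i e x he hi v => by
      have := (W n).2.2.2.2 i e x he hi v
      beta_reduce at this
      rwa [← show _ = ((M : ℝ) : ℂ) • curvature L ρ e (e x) from curvature_pow hρ M e x he] at this)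
    (fun n => by
      refine (lint _ (by positivity) fun x => ?_).trans (mul_le_mul_right (hm (j n)) _)
      rcases le_or_gt (tt (u n) (φ (j n)) x) (-1) with ht | ht
      · rw [deriv_zeta_of_le ht, zero_mul, zero_mul]
        positivity
      rcases le_total 0 (tt (u n) (φ (j n)) x) with ht' | ht'
      · rw [deriv_zeta_of_ge ht', zero_mul, zero_mul]
        positivity
      rw [mul_assoc (Kz * CE), ← Real.exp_add]
      refine mul_le_mul (mul_le_mul (hz _) (hbd x (hin n x ht)) (hn x) hKz)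
        (Real.exp_le_exp.2 ?_) (Real.exp_pos _).le (by positivity)
      rw [tt] at ht'
      have k1 := mul_le_mul_of_nonneg_left (show φ (j n) x - 4 ≤ u n x by linarith) hM0.le
      linarith [lo n x])
  refine ⟨G, hG, ?_⟩
  set t := tt (u n) (φ (j n)) with ht
  set N := nrm (powL L M) (powM ρ M) fun i y => G i y - (zeta (t y) : ℂ) * E i y with hN
  have pw : ∀ x ∈ K, nrm (powL L M) (powM ρ M) (fun i y => G i y - E i y) x *
      Real.exp (-(((M : ℝ) - 1) * ψ x)) ≤
      2 * Real.exp M * (N x * Real.exp (-wW M (u n) (φ (j n)) x)) +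
      2 * CE * Real.exp (5 * M) * Real.exp (-(M * φ (j n) x)) := fun x hx => by
    have k1 := nrm_add_le (powL L M) (powM ρ M) (fun i y => G i y - (zeta (t y) : ℂ) * E i y)
      (fun i y => ((zeta (t y) - 1 : ℝ) : ℂ) * E i y) x
    rw [nrm_smul, Complex.norm_real, Real.norm_eq_abs, sq_abs, ← hN,
      nrm_congr (s' := fun i y => G i y - E i y) fun i _ => by push_cast; ring] at k1
    have k2 : N x * Real.exp (-(((M : ℝ) - 1) * ψ x)) ≤
        N x * (Real.exp M * Real.exp (-wW M (u n) (φ (j n)) x)) := by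
      rw [← Real.exp_add]
      exact mul_le_mul_of_nonneg_left (Real.exp_le_exp.2 (by linarith [up n x]))
        (nrm_nonneg' _ _ _ x)
    have k3 : (zeta (t x) - 1) ^ 2 * nrm (powL L M) (powM ρ M) E x *
        Real.exp (-(((M : ℝ) - 1) * ψ x)) ≤
        1 * CE * (Real.exp (5 * M) * Real.exp (-(M * φ (j n) x))) := by
      rcases le_total 0 (t x) with h0 | h0
      · rw [zeta_of_ge h0, sub_self, pow_two, zero_mul, zero_mul, zero_mul]
        positivity
      rw [← Real.exp_add]
      refine mul_le_mul (mul_le_mul ?_ (hbd x hx) (hn x) zero_le_one) (Real.exp_le_exp.2 ?_)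
        (Real.exp_pos _).le (by positivity)
      · nlinarith [zeta_nonneg (t x), zeta_le_one (t x)]
      · rw [ht, tt] at h0
        have k4 := mul_le_mul_of_nonneg_left (show φ (j n) x - 5 ≤ ψ x by linarith [u3 n x])
          (sub_nonneg.2 hM1)
        linarith [(hφ (j n)).nonpos x]
    have k4 := mul_le_mul_of_nonneg_right k1 (Real.exp_pos (-(((M : ℝ) - 1) * ψ x))).le
    linarith
  have me : Measurable fun x =>
      ENNReal.ofReal (2 * CE * Real.exp (5 * M) * Real.exp (-(M * φ (j n) x))) :=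
    (continuous_const.mul
      ((smooth_continuous (hφ _).smooth).const_mul _).neg.rexp).measurable.ennreal_ofReal
  refine (setLIntegral_mono' hK.measurableSet fun x hx =>
    (ENNReal.ofReal_le_ofReal (pw x hx)).trans ENNReal.ofReal_add_le).trans
    ((setLIntegral_le_lintegral _ _).trans ?_)
  rw [lintegral_add_right _ me]
  exact add_le_add ((lint _ (by positivity) fun _ => le_rfl).trans (mul_le_mul_right hI _))
    ((lint _ (by positivity) fun _ => le_rfl).trans (mul_le_mul_right (hm _) _))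

end Vale.Agent.P301Z.Ho
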