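import Vale.Agent.P301Z.Ho.Defs
import Vale.Agent.P285Z.Fd
import Vale.Agent.P285Z.Gg2A

/-!
# P301Z, Lemma H: the limit of the sections and the estimate in the charts
-/

open scoped Manifold ContDiff ComplexOrder Topology ENNReal Matrix
open MeasureTheory Filter Set Metric
open Vale.Agent.P272.K Vale.Agent.P301.H599 Vale.Agent.P285Z
open Vale.Agent.P301.H98 (IsSection nrm)
open Vale.Agent.P272.K.AMP (volX)

noncomputable section

namespace Vale.Agent.P301Z.Ho

namespace A2

variable {d : ℕ} {X : Type} [TopologicalSpace X] [ChartedSpace (Cm d) X] {κ : Type}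
  {B : LineBundle d X κ} {ρ : κ → X → ℝ} {U : Set X} {E G : κ → X → ℂ}

theorem cont {Y : Type} [TopologicalSpace Y] {a : X → Y} {x : X}
    (h : ∀ e : Chart d X, At e x → ContinuousAt (fun z => a (e.symm z)) (e x)) :
    ContinuousAt a x := by
  have he : At (chartAt (Cm d) x) x := ⟨chart_mem_atlas _ _, mem_chart_source _ _⟩
  refine ((h _ he).comp ((chartAt (Cm d) x).continuousAt he.2)).congr ?_
  filter_upwards [(chartAt (Cm d) x).open_source.mem_nhds he.2] with y hy
  simp only [Function.comp_apply, (chartAt (Cm d) x).left_inv hy]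

theorem sub (hG : IsSection B G) (hE : SecOn B U E) : SecOn B U fun i y => G i y - E i y :=
  ⟨fun i x hx hi e he => (hG.holo i e x he hi).sub (hE.hol i x hx hi e he),
    fun i j x hx hi hj => by rw [hG.change i j x hi hj, hE.chg i j x hx hi hj, mul_sub]⟩

theorem nrm_eq (hρ : IsMetric B ρ) (hE : SecOn B U E) {i : κ} {x : X} (hx : x ∈ U)
    (hi : x ∈ B.U i) : nrm B ρ E x = ‖E i x‖ ^ 2 * Real.exp (-ρ i x) := by
  have hj : x ∈ B.U (B.cover x).choose := (B.cover x).choose_spec
  have hg := B.ne_zero i _ x hi hj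
  rw [nrm, hE.chg i _ x hx hi hj, hρ.change i _ x hi hj, neg_add, Real.exp_add,
    Real.exp_neg (Real.log _), Real.exp_log (by positivity), norm_mul]
  field_simp

theorem nrm_cont (hρ : IsMetric B ρ) (hU : IsOpen U) (hE : SecOn B U E) :
    ContinuousOn (nrm B ρ E) U := fun x hx => by
  obtain ⟨i, hi⟩ := B.cover x
  have h1 : ContinuousAt (E i) x := cont fun e he => (hE.hol i x hx hi e he).continuousAt
  have h2 : ContinuousAt (ρ i) x := cont fun e he => (hρ.smooth i e x he hi).continuousAt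
  refine (((h1.norm.pow 2).mul (Real.continuous_exp.continuousAt.comp h2.neg)).congr
    ?_).continuousWithinAt
  filter_upwards [hU.mem_nhds hx, (B.isOpen i).mem_nhds hi] with y p q
    using (nrm_eq hρ hE p q).symm

theorem wt {q δ δ' p p' : ℝ} (hq : 0 ≤ q) (h0 : 0 < δ) (h1 : δ ≤ δ') (h2 : q + δ ≤ 1)
    (h3 : 0 ≤ p') (h4 : p' ≤ p) :
    Real.exp (-(p' * Real.log (q + δ'))) ≤ Real.exp (-(p * Real.log (q + δ))) := by
  have k1 : Real.log (q + δ) ≤ Real.log (q + δ') := Real.log_le_log (by linarith) (by linarith)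
  have k2 : Real.log (q + δ) ≤ 0 := Real.log_nonpos (by linarith) h2
  exact Real.exp_le_exp.2 (by nlinarith)

end A2

theorem asm2 : ASM2 := by
  intro d X _ _ _ _ _ _ _ w hw κ B ρ hρ U E q p C hU hE hq q0 hK p0 hC H
  set K := {x | x ∈ U ∧ q x ≤ 1 / 4} with hK'
  have Km := hK.isClosed.measurableSet
  have KU : K ⊆ U := fun x hx => hx.1
  have := AMP.isFiniteMeasure_volX hw.toIsHermitian
  have e0 : ∀ k, 0 < ep k / 4 := fun k => by unfold ep; positivity
  have e1 : ∀ k, ep k / 4 ≤ 1 / 4 := fun k => by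
    have : ep k ≤ 1 := by
      rw [ep, div_le_one (by positivity)]
      linarith [Nat.cast_nonneg (α := ℝ) k]
    linarith
  choose G hG hI using fun k => H _ (e0 k) (e1 k)
  have mono : ∀ k (δ p' : ℝ), ep k / 4 ≤ δ → 0 ≤ p' → p' ≤ p → ∫⁻ x in K, ENNReal.ofReal
      (nrm B ρ (fun i y => G k i y - E i y) x * Real.exp (-(p' * Real.log (q x + δ))))
      ∂(volX w) ≤ C := fun k δ p' a b c => le_trans (setLIntegral_mono' Km fun x hx =>
    ENNReal.ofReal_le_ofReal (mul_le_mul_of_nonneg_left
      (A2.wt (q0 x) (e0 k) a (by linarith [hx.2, e1 k]) b c) (nrm_nonneg' _ _ _ _))) (hI k)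
  obtain ⟨M, hM⟩ := hK.exists_bound_of_continuousOn ((A2.nrm_cont hρ hU hE).mono KU)
  obtain ⟨G₀, hG₀, n, hn, hlim⟩ := limS d X w hw κ B ρ hρ ((volX w).restrict K) G
    (2 * C + ENNReal.ofReal (2 * M) * (volX w).restrict K univ) (ENNReal.add_ne_top.2
      ⟨ENNReal.mul_ne_top ENNReal.ofNat_ne_top hC,
        ENNReal.mul_ne_top ENNReal.ofReal_ne_top (measure_ne_top _ _)⟩) hG fun k => by
    have h1 := mono k 1 0 ((e1 k).trans (by norm_num)) le_rfl p0
    simp only [zero_mul, neg_zero, Real.exp_zero, mul_one] at h1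
    refine (setLIntegral_mono' (g := fun x => 2 * ENNReal.ofReal
      (nrm B ρ (fun i y => G k i y - E i y) x) + ENNReal.ofReal (2 * M)) Km fun x hx => ?_).trans ?_
    · have a1 := nrm_add_le B ρ (fun i y => G k i y - E i y) E x
      simp only [sub_add_cancel] at a1
      have a2 := (le_abs_self _).trans (hM x hx)
      have a3 := nrm_nonneg' B ρ (fun i y => G k i y - E i y) x
      have a4 := nrm_nonneg' B ρ E x
      rw [← ENNReal.ofReal_ofNat 2, ← ENNReal.ofReal_mul zero_le_two,
        ← ENNReal.ofReal_add (by positivity) (by linarith)]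
      exact ENNReal.ofReal_le_ofReal (a1.trans (by linarith))
    · rw [lintegral_add_right _ measurable_const, lintegral_const,
        lintegral_const_mul' _ _ ENNReal.ofNat_ne_top]
      gcongr
  have hc : ∀ G', IsSection B G' → ∀ δ p' : ℝ, 0 < δ → ContinuousOn (fun x => ENNReal.ofReal
      (nrm B ρ (fun i y => G' i y - E i y) x * Real.exp (-(p' * Real.log (q x + δ))))) K :=
    fun G' h δ p' a => ENNReal.continuous_ofReal.comp_continuousOn
      (((A2.nrm_cont hρ hU (A2.sub h hE)).mono KU).mul (Real.continuous_exp.comp_continuousOn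
        (continuousOn_const.mul (((hq.mono KU).add continuousOn_const).log fun x _ =>
          (add_pos_of_nonneg_of_pos (q0 x) a).ne')).neg))
  have lim : ∀ δ p' : ℝ, 0 < δ → 0 ≤ p' → p' ≤ p → ∫⁻ x in K, ENNReal.ofReal
      (nrm B ρ (fun i y => G₀ i y - E i y) x * Real.exp (-(p' * Real.log (q x + δ))))
      ∂(volX w) ≤ C := fun δ p' a b c => by
    refine le_trans (lintegral_congr_ae ?_).le ((lintegral_liminf_le' (u := atTop) fun k =>
      (hc _ (hG (n k)) δ p' a).aemeasurable Km).trans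
        (liminf_le_of_frequently_le' (Eventually.frequently ?_)))
    · filter_upwards [hlim] with x hx
      refine (Tendsto.liminf_eq (ENNReal.tendsto_ofReal (Tendsto.mul_const _ ?_))).symm
      exact (((hx _ (B.cover x).choose_spec).sub_const _).norm.pow 2).mul_const _
    · have h2 : ∀ᶠ k : ℕ in atTop, ep k ≤ δ :=
        tendsto_one_div_add_atTop_nhds_zero_nat.eventually (ge_mem_nhds a)
      filter_upwards [hn.tendsto_atTop.eventually h2] with k hk
        using mono _ δ p' (by linarith [e0 (n k)]) b c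
  refine ⟨G₀, hG₀, fun N hN x hx qx i e he hi => ?_⟩
  obtain ⟨c, c0, V₀, hV₀, hV⟩ := G2.lint_lower hw.toIsHermitian he
  have t1 : Tendsto e.symm (𝓝 (e x)) (𝓝 x) := by
    simpa only [ContinuousAt, e.left_inv he.2] using e.continuousAt_symm (e.map_source he.2)
  have t2 : ContinuousAt (ρ i) x := A2.cont fun e he => (hρ.smooth i e x he hi).continuousAt
  obtain ⟨V, v1, v2, v3⟩ := _root_.eventually_nhds_iff.1 ((show ∀ᶠ z in _, z ∈ V₀ from hV₀).and
    (t1.eventually ((show ∀ᶠ y in _, y ∈ U from hU.mem_nhds hx).and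
      ((show ∀ᶠ y in _, y ∈ B.U i from (B.isOpen i).mem_nhds hi).and
        (((hq.continuousAt (hU.mem_nhds hx)).eventually_lt continuousAt_const qx).and
          (t2.eventually_lt continuousAt_const (lt_add_one _)))))))
  refine ⟨V, v2.mem_nhds v3, ENNReal.ofReal (Real.exp (ρ i x + 1)) * ((ENNReal.ofReal c)⁻¹ * C),
    ENNReal.mul_ne_top ENNReal.ofReal_ne_top (ENNReal.mul_ne_top
      (ENNReal.inv_ne_top.2 (ENNReal.ofReal_pos.2 c0).ne') hC), fun δ hδ => ?_⟩
  classical
  have h1 := hV V (fun z hz => (v1 z hz).1) v2.measurableSet _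
    ((hc _ hG₀ δ N hδ).measurable_piecewise continuousOn_const (g := fun _ => 0) Km)
  rw [show ∀ f : X → ℝ≥0∞, (K.piecewise f fun _ => 0) = K.indicator f from
    fun f => piecewise_eq_indicator, lintegral_indicator Km] at h1
  have h2 := (ENNReal.mul_le_iff_le_inv (ENNReal.ofReal_pos.2 c0).ne' ENNReal.ofReal_ne_top).1
    (h1.trans (lim δ N hδ N.cast_nonneg hN))
  refine le_trans ?_ (mul_le_mul_right h2 _)
  rw [← lintegral_const_mul' _ _ ENNReal.ofReal_ne_top]
  refine setLIntegral_mono' v2.measurableSet fun z hz => ?_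
  obtain ⟨-, z1, z2, z3, z4⟩ := v1 z hz
  have z5 := add_pos_of_nonneg_of_pos (q0 (e.symm z)) hδ
  rw [indicator_of_mem (show e.symm z ∈ K from ⟨z1, z3.le⟩), ← ENNReal.ofReal_mul (by positivity),
    A2.nrm_eq hρ (A2.sub hG₀ hE) z1 z2, Real.exp_neg (_ * _), ← Real.log_pow,
    Real.exp_log (by positivity), mul_right_comm, ← div_eq_mul_inv, mul_left_comm, ← Real.exp_add]
  exact ENNReal.ofReal_le_ofReal (le_mul_of_one_le_right (by positivity)
    (Real.one_le_exp (by linarith)))

end Vale.Agent.P301Z.Ho
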