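import Vale.Agent.P301Z.Ho.Defs
import Vale.Agent.P285K.Pde

/-!
# P301Z, Lemma H: the obstacle problem
-/

open scoped Manifold ContDiff ComplexOrder Topology Matrix
open Filter Set
open Vale.Agent.P272.K Vale.Agent.P301.H599 Vale.Agent.P285Z
open Vale.Agent.P301.H98 (RForm)

noncomputable section

namespace Vale.Agent.P301Z.Ho

namespace Ayo

variable {d : ℕ} {X : Type} [TopologicalSpace X] [ChartedSpace (Cm d) X]

theorem two {u : X → ℝ} (hu : Smooth (d := d) u) {e : Chart d X} {x : X} (h : At e x) :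
    ContDiffAt ℝ 2 (fun z => u (e.symm z)) (e x) := (hu e x h).of_le (by norm_cast)

theorem cont {u : X → ℝ} (hu : Smooth (d := d) u) : Continuous u :=
  N.C2Fn.continuous (n := d) fun _ _ h => two hu h

theorem ddc_add {u v : X → ℝ} (hu : Smooth (d := d) u) (hv : Smooth (d := d) v) {e : Chart d X}
    {x : X} (h : At e x) : ddc (fun y => u y + v y) e (e x) = ddc u e (e x) + ddc v e (e x) :=
  C2.cHess_add (two hu h) (two hv h)

theorem ddc_sub {u v : X → ℝ} (hu : Smooth (d := d) u) (hv : Smooth (d := d) v) {e : Chart d X}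
    {x : X} (h : At e x) : ddc (fun y => u y - v y) e (e x) = ddc u e (e x) - ddc v e (e x) :=
  N.cHess_sub' (two hu h) (two hv h)

theorem max_pt [CompactSpace X] {f : X → ℝ} (hf : Smooth (d := d) f) (x : X) :
    ∃ (x₀ : X) (e : Chart d X), At e x₀ ∧ f x ≤ f x₀ ∧ (-ddc f e (e x₀)).PosSemidef := by
  obtain ⟨x₀, -, hx₀⟩ := isCompact_univ.exists_isMaxOn ⟨x, mem_univ x⟩ (cont hf).continuousOn
  have hAt : At (chartAt (Cm d) x₀ : Chart d X) x₀ := AMP.at_chartAt x₀
  refine ⟨x₀, chartAt (Cm d) x₀, hAt, hx₀ (mem_univ x), N.neg_cHess_posSemidef (two hf hAt) ?_⟩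
  refine Eventually.of_forall fun z => ?_
  simp only [OpenPartialHomeomorph.left_inv _ hAt.2]
  exact hx₀ (mem_univ _)

theorem log_det_le {A B : Matrix (Fin d) (Fin d) ℂ} (hA : A.PosDef) (h : (B - A).PosSemidef) :
    Real.log A.det.re ≤ Real.log B.det.re :=
  Real.log_le_log (Complex.pos_iff.1 hA.det_pos).1 (N.det_re_le hA h)

/-- the approximate solution of the obstacle problem -/
theorem solve [IsManifold 𝓘(ℂ, Cm d) ω X] [T2Space X] [CompactSpace X] [ConnectedSpace X]
    {w θ : Fm d X} (hw : IsKahler w) (hθ : RForm θ) (hn : NefW θ w) {ψ : X → ℝ}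
    (hψ : Smooth (d := d) ψ) {ε β : ℝ} (hε : 0 < ε) (hβ : 0 < β) :
    ∃ u : X → ℝ, Smooth (d := d) u ∧ ∀ e x, At e x →
      (θ e (e x) + (ε : ℂ) • w e (e x) + ddc u e (e x)).PosDef ∧
      Real.log (θ e (e x) + (ε : ℂ) • w e (e x) + ddc u e (e x)).det.re =
        β * (u x - ψ x) + Real.log (w e (e x)).det.re := by
  obtain ⟨u₀, hu₀, hp₀⟩ := hn (ε / 2) (half_pos hε)
  have hcl : INT.IsClosedForm (addH (fun e z => θ e z + (ε : ℂ) • w e z) u₀) :=
    (hθ.closed.add ((INT.IsKahler.isClosedForm hw).smul (ε : ℂ))).add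
      (INT.isClosedForm_cHess hu₀)
  have hK : IsKahler (addH (fun e z => θ e z + (ε : ℂ) • w e z) u₀) :=
    { smooth := hcl.smooth
      posDef := fun e x hx => by
        have h1 := (posDef_ofReal_smul (hw.posDef e x hx) (half_pos hε)).posSemidef_add
          (hp₀ e x hx)
        have h2 : addH (fun e z => θ e z + (ε : ℂ) • w e z) u₀ e (e x) =
            θ e (e x) + ((ε / 2 : ℝ) : ℂ) • w e (e x) + ddc u₀ e (e x) +
              ((ε / 2 : ℝ) : ℂ) • w e (e x) := by
          change θ e (e x) + (ε : ℂ) • w e (e x) + ddc u₀ e (e x) = _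
          push_cast
          module
        rw [h2]
        exact h1
      change := hcl.form
      closed := fun e x hx i j k => hcl.closed e x hx k i j }
  obtain ⟨σ, hσ⟩ := P285K.ay d X w _ hw.toIsHermitian hK β (fun x => β * (u₀ x - ψ x)) hβ
    fun e x hx => contDiffAt_const.mul ((hu₀ e x hx).sub (hψ e x hx))
  refine ⟨fun x => u₀ x + σ x, fun e x hx => (hu₀ e x hx).add (hσ.smooth e x hx),
    fun e x hx => ?_⟩
  have hA : addH (addH (fun e z => θ e z + (ε : ℂ) • w e z) u₀) σ e (e x) =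
      θ e (e x) + (ε : ℂ) • w e (e x) + ddc (fun x => u₀ x + σ x) e (e x) := by
    rw [ddc_add hu₀ hσ.smooth hx, ← add_assoc]
    rfl
  have h1 := hσ.eq e x hx
  have h2 := hσ.pos e x hx
  rw [hA] at h1 h2
  exact ⟨h2, by linarith⟩

/-- the lower bound at a touching point -/
theorem lower [CompactSpace X] [Nonempty X] {θ : Fm d X} {φ : ℕ → X → ℝ} {ψ u : X → ℝ}
    (hφ : ∀ j x, φ j x ≤ 0) (hψ : Smooth (d := d) ψ) (hu : Smooth (d := d) u)
    (hV : ∀ x, Vis (LS φ) (fun e z => θ e z + ddc ψ e z) x)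
    (hl : ∀ e x, At e x → (θ e (e x) + ddc u e (e x)).PosSemidef → -1 ≤ u x - ψ x) :
    ∀ᶠ j in atTop, ∀ x, φ j x + ψ x - 2 ≤ u x := by
  have hc : Continuous fun y => ψ y - u y := (cont hψ).sub (cont hu)
  have hF : ∀ x, LS (fun k y => φ k y + (ψ y - u y)) x = LS φ x + ((ψ x - u x : ℝ) : EReal) :=
    fun x => LS_add hc.continuousAt
  obtain ⟨x₀, -, hx₀⟩ := UpperSemicontinuousOn.exists_isMaxOn univ_nonempty isCompact_univ
    ((usc_LS fun k y => φ k y + (ψ y - u y)).upperSemicontinuousOn univ)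
  have hmax : ∀ y, LS φ y + ((ψ y - u y : ℝ) : EReal) ≤ LS φ x₀ + ((ψ x₀ - u x₀ : ℝ) : EReal) :=
    fun y => by
      rw [← hF, ← hF]
      exact hx₀ (mem_univ y)
  have h0 : LS φ x₀ ≤ ((0 : ℝ) : EReal) := LS_le' (Eventually.of_forall fun p => hφ _ _)
  have h1 : LS φ x₀ + ((ψ x₀ - u x₀ : ℝ) : EReal) < ((2 : ℝ) : EReal) := by
    induction hx : LS φ x₀ using EReal.rec with
    | bot =>
      rw [EReal.bot_add]
      exact EReal.bot_lt_coe _
    | top =>
      rw [hx] at h0
      exact absurd h0 (not_le.2 (EReal.coe_lt_top _))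
    | coe p =>
      rw [hx, EReal.coe_le_coe_iff] at h0
      have hs : Smooth (d := d) fun y => u y - ψ y := fun e y hy => (hu e y hy).sub (hψ e y hy)
      have hk : Smooth (d := d) fun _ : X => p + (ψ x₀ - u x₀) := fun _ _ _ => contDiffAt_const
      have hT : Touch d (LS φ) (fun y => (u y - ψ y) + (p + (ψ x₀ - u x₀))) x₀ :=
        { c2 := fun e he => (two hs he).add contDiffAt_const
          ge := by
            rw [hx, EReal.coe_le_coe_iff]
            linarith
          le := Eventually.of_forall fun y => by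
            have h2 := hmax y
            rw [hx, ← EReal.coe_add] at h2
            have h3 := add_le_add_left h2 ((u y - ψ y : ℝ) : EReal)
            rw [add_assoc, ← EReal.coe_add, ← EReal.coe_add, sub_add_sub_cancel, sub_self,
              EReal.coe_zero, add_zero, add_comm] at h3
            exact h3 }
      have hAt : At (chartAt (Cm d) x₀ : Chart d X) x₀ := AMP.at_chartAt x₀
      have h4 := hV x₀ _ hT _ hAt
      have h5 : ddc (fun _ : X => p + (ψ x₀ - u x₀)) (chartAt (Cm d) x₀ : Chart d X)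
          (chartAt (Cm d) x₀ x₀) = 0 := N.cHess_const _ _
      rw [ddc_add hs hk hAt, ddc_sub hu hψ hAt, h5, add_zero, add_assoc, add_sub_cancel] at h4
      have h6 := hl _ x₀ hAt h4
      rw [← EReal.coe_add, EReal.coe_lt_coe_iff]
      linarith
  have h2 : {p : ℕ × X | φ p.1 p.2 + (ψ p.2 - u p.2) < 2} ∈ atTop ×ˢ 𝓝ˢ (univ : Set X) :=
    isCompact_univ.mem_prod_nhdsSet_of_forall fun y _ =>
      LS_lt' (g := fun k y => φ k y + (ψ y - u y)) (by
        rw [hF]
        exact (hmax y).trans_lt h1)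
  have h3 : ∀ᶠ p : ℕ × X in atTop ×ˢ 𝓝ˢ (univ : Set X), φ p.1 p.2 + (ψ p.2 - u p.2) < 2 := h2
  filter_upwards [h3.curry] with j hj x
  have h4 := hj.self_of_nhdsSet x (mem_univ x)
  linarith

end Ayo

theorem ayo : AYO := by
  intro d X _ _ _ _ _ _ w θ hw hθ hn φ ψ hφ hψ hV ε hε
  have hcl : INT.IsClosedForm (addH (fun e z => θ e z + (ε : ℂ) • w e z) ψ) :=
    (hθ.closed.add ((INT.IsKahler.isClosedForm hw).smul (ε : ℂ))).add
      (INT.isClosedForm_cHess hψ)
  obtain ⟨C, hC0, hC⟩ := AMP.Main.exists_comparison' hw.toIsHermitian hcl.smooth hcl.form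
    fun e x hx =>
    ((hθ.herm e x hx).add (posDef_ofReal_smul (hw.posDef e x hx) hε).isHermitian).add
      (C2.cHess_isHermitian (Ayo.two hψ hx))
  set β : ℝ := |d * Real.log C| + |d * Real.log ε| + 1 with hβ
  have hβ0 : 0 < β := by positivity
  obtain ⟨u, hu, hE⟩ := Ayo.solve hw hθ hn hψ hε hβ0
  refine ⟨u, hu, fun e x hx => (hE e x hx).1.posSemidef, fun x => ?_,
    Ayo.lower hφ hψ hu hV fun e x hx h => ?_⟩
  · have hs : Smooth (d := d) fun y => u y - ψ y := fun e y hy => (hu e y hy).sub (hψ e y hy)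
    obtain ⟨x₀, e, hAt, hmax, hneg⟩ := Ayo.max_pt hs x
    rw [Ayo.ddc_sub hu hψ hAt] at hneg
    have h1 := (hC e x₀ hAt).add hneg
    have h2 : (C : ℂ) • w e (e x₀) - addH (fun e z => θ e z + (ε : ℂ) • w e z) ψ e (e x₀) +
        -(ddc u e (e x₀) - ddc ψ e (e x₀)) =
        (C : ℂ) • w e (e x₀) - (θ e (e x₀) + (ε : ℂ) • w e (e x₀) + ddc u e (e x₀)) := by
      change (C : ℂ) • w e (e x₀) - (θ e (e x₀) + (ε : ℂ) • w e (e x₀) + ddc ψ e (e x₀)) + _ = _
      abel
    rw [h2] at h1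
    have h3 := Ayo.log_det_le (hE e x₀ hAt).1 h1
    rw [(hE e x₀ hAt).2, P285K.log_det_smul hC0 (hw.posDef e x₀ hAt)] at h3
    have h4 : β * (u x₀ - ψ x₀) ≤ β * 1 := by
      linarith [le_abs_self (d * Real.log C), abs_nonneg (d * Real.log ε)]
    have h5 := le_of_mul_le_mul_left h4 hβ0
    linarith
  · have h2 : θ e (e x) + ddc u e (e x) =
        θ e (e x) + (ε : ℂ) • w e (e x) + ddc u e (e x) - (ε : ℂ) • w e (e x) := by abel
    rw [h2] at h
    have h3 := Ayo.log_det_le (posDef_ofReal_smul (hw.posDef e x hx) hε) h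
    rw [(hE e x hx).2, P285K.log_det_smul hε (hw.posDef e x hx)] at h3
    have h4 : β * (-1) ≤ β * (u x - ψ x) := by
      linarith [neg_abs_le (d * Real.log ε), abs_nonneg (d * Real.log C)]
    exact le_of_mul_le_mul_left h4 hβ0

end Vale.Agent.P301Z.Ho
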