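import Vale.Agent.P301Z.Ho.Defs
import Vale.Agent.P285K.All
import Vale.Agent.P285Z.Ihs
import Vale.Agent.P301.H450.Fuj

/-!
# P301Z, Lemma H: Calabi-Yau potentials with uniform moments
-/

open scoped Manifold ContDiff ComplexOrder Topology ENNReal Matrix
open MeasureTheory Filter Set
open Vale.Agent.P272.K Vale.Agent.P301.H599 Vale.Agent.P285Z Vale.Agent.P285K
open Vale.Agent.P301.H98 (RForm)
open Vale.Agent.P272.K.AMP (volX IX)
open Vale.Agent.P301.H450 (IsHK vol)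

set_option linter.unusedSectionVars false

noncomputable section

namespace Vale.Agent.P301Z.Ho

namespace Cyf

variable {d : ℕ} {X : Type} [TopologicalSpace X] [ChartedSpace (Cm d) X]
  [IsManifold 𝓘(ℂ, Cm d) ω X] {w s : Fm d X}

theorem ep_pos (j : ℕ) : 0 < ep j := by
  unfold ep
  positivity

theorem ep_le (j : ℕ) : ep j ≤ 1 := by
  unfold ep
  rw [div_le_one (by positivity)]
  linarith [Nat.cast_nonneg (α := ℝ) j]

theorem glob_smooth (h : IsSymplectic d X w s) : Smooth (d := d) (Ihs.glob w s) := fun _ _ hx =>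
  ((Ihs.smooth_w h.kahler hx).sub (contDiffAt_const.mul (Ihs.smooth_s h hx))).congr_of_eventuallyEq
    (Ihs.glob_ev h hx)

theorem glob_eq (h : IsSymplectic d X w s) {e : Chart d X} {x : X} (hx : At e x) :
    Ihs.glob w s x = Real.log (w e (e x)).det.re - Real.log ‖(s e (e x)).det‖ := by
  have h1 : Ihs.glob w s (e.symm (e x)) = _ := (Ihs.glob_ev h hx).self_of_nhds
  rw [e.left_inv hx.2] at h1
  rw [h1, Ihs.loc, Real.log_pow]
  push_cast
  ring

theorem det_hk (h : IsSymplectic d X w s) {χ : Fm d X} {κ : ℝ} (hk : IsHK s χ κ) {e : Chart d X}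
    {x : X} (hx : At e x) : (χ e (e x)).det.re = Real.sqrt (κ ^ d) * ‖(s e (e x)).det‖ := by
  have h3 := P301.H450.det_rel (hk.kahler.posDef e x hx) (isUnit_iff_ne_zero.2 (h.nondeg e x hx))
    (hk.rel e x hx)
  have h4 : 0 < (χ e (e x)).det.re := (Complex.lt_def.1 (hk.kahler.posDef e x hx).det_pos).1
  rw [← Real.sqrt_sq h4.le, h3, Real.sqrt_mul (pow_pos hk.pos d).le, Real.sqrt_sq (norm_nonneg _)]

variable [T2Space X] [CompactSpace X] [ConnectedSpace X]

theorem vol_hk (h : IsSymplectic d X w s) {χ : Fm d X} (hχ : IsKahler χ) {u : X → ℝ}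
    (hu : Smooth (d := d) u) {κ : ℝ} (hk : IsHK s (addH χ u) κ) :
    INT.intX (fun e z => (χ e z).det.re) = Real.sqrt (κ ^ d) * vol s := by
  rw [← INT.intX_det_add_cHess (INT.IsKahler.isClosedForm hχ) hu, vol, ← INT.intX_const_mul]
  exact INT.intX_congr fun e x hx => det_hk h hk hx

/-- the oscillation of the Calabi-Yau potentials relative to near envelopes -/
theorem osc (h : IsSymplectic d X w s) (B : ℝ) : ∃ C : ℝ, ∀ (Θ : Fm d X) (v u : X → ℝ) (κ : ℝ),
    RForm Θ → (PSD fun e z => (B : ℂ) • w e z - Θ e z) → NEnv Θ v → Smooth (d := d) u →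
    IsHK s (addH (addH Θ v) u) κ → ∀ x x', u x - u x' ≤ C := by
  obtain ⟨α, K₀, hα, hexp⟩ := expB d X w h.kahler B
  obtain ⟨C, hC⟩ := gpt d X w h.kahler.toIsHermitian α K₀
    (IX w (fun x => Real.exp (-(2 * Ihs.glob w s x))) / vol s ^ 2) hα
  refine ⟨C, fun Θ v u κ hΘ hB hv hu hk => ?_⟩
  have hχ := Gain.kahler_addH hΘ hv
  have hV := P301.H450.vol_pos (P301.H450.SData.of h hk)
  have hκ : 0 < Real.sqrt (κ ^ d) := Real.sqrt_pos.2 (pow_pos hk.pos d)
  refine hC _ hχ (hexp Θ v hB hv) (fun x => Real.log (Real.sqrt (κ ^ d)) - Ihs.glob w s x) u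
    (AMP.sm_sub (n := d) (AMP.smoothFn_const _) (glob_smooth h)) ⟨hu, hk.kahler.posDef,
      fun e x hx => ?_⟩ (le_of_eq ?_)
  · rw [det_hk h hk hx, glob_eq h hx, Real.log_mul hκ.ne' (norm_ne_zero_iff.2 (h.nondeg e x hx))]
    ring
  · have h1 : ∀ x, Real.exp (2 * (Real.log (Real.sqrt (κ ^ d)) - Ihs.glob w s x)) =
        Real.sqrt (κ ^ d) ^ 2 * Real.exp (-(2 * Ihs.glob w s x)) := fun x => by
      conv_rhs => rw [← Real.exp_log hκ, ← Real.exp_nat_mul, ← Real.exp_add]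
      congr 1
      push_cast
      ring
    have h2 : IX (addH Θ v) (fun _ => 1) = Real.sqrt (κ ^ d) * vol s := by
      rw [← vol_hk h hχ hu hk]
      simp [IX]
    rw [AMP.IX_congr h1, AMP.IX_const_mul, h2]
    field_simp

theorem ex_env {θ : Fm d X} (hw : IsKahler w) (hθ : RForm θ) (hn : NefW θ w) {ε : ℝ} (hε : 0 < ε) :
    ∃ v, NEnv (fun e z => θ e z + (ε : ℂ) • w e z) v := by
  obtain ⟨u, hu, hp⟩ := hn (ε / 2) (half_pos hε)
  refine ne_of ay d X w _ hw (CoreK.rform_add_smul hw hθ ε) ⟨u, hu, fun e x hx => ?_⟩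
  have h4 : (((ε / 2 : ℝ) : ℂ) • w e (e x)).PosDef := by
    rw [show ((ε / 2 : ℝ) : ℂ) • w e (e x) = (ε / 2 : ℝ) • w e (e x) by ext a b; simp]
    exact (hw.posDef e x hx).smul (half_pos hε)
  have h6 : addH (fun e z => θ e z + (ε : ℂ) • w e z) u e (e x) = ((ε / 2 : ℝ) : ℂ) • w e (e x) +
      (θ e (e x) + ((ε / 2 : ℝ) : ℂ) • w e (e x) + ddc u e (e x)) := by
    show θ e (e x) + (ε : ℂ) • w e (e x) + ddc u e (e x) = _
    rw [show (ε : ℂ) = ((ε / 2 : ℝ) : ℂ) + ((ε / 2 : ℝ) : ℂ) by push_cast; ring, add_smul]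
    abel
  rw [h6]
  exact h4.add_posSemidef (hp e x hx)

end Cyf

open Cyf in
theorem cyf : CYF := by
  intro d X _ _ _ _ _ _ _ _ w s hs ι L ρ hρ hn hne
  have hw := hs.kahler
  have hwp : PSD w := fun e x hx => (hw.posDef e x hx).posSemidef
  have hR := P301.H98.rform_curvature hρ
  set θ := curvature L ρ with hθ
  have hd : d ≠ 0 := by
    rintro rfl
    exact hne ⟨fun _ => 0, AMP.smoothFn_const _, fun e x _ => Subsingleton.elim _ _⟩
  obtain ⟨c₀, hc₀, hvol⟩ := P301.H450.vol_lower (Nat.pos_of_ne_zero hd) hs ⟨hR.closed, hR.herm⟩ hn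
    fun ⟨u, hu, h⟩ => hne ⟨u, hu, fun e x hx => by rw [zero_add]; exact h e x hx⟩
  obtain ⟨B, -, hB⟩ := QN.exists_comparison_form hw.toIsHermitian hR.closed.smooth hR.herm
    hR.closed.form
  obtain ⟨C, hC⟩ := osc hs (B + 1)
  obtain ⟨u₀, κ₀, -, hk₀⟩ := P301.H450.exists_rf hs hw
  have hV := P301.H450.vol_pos (P301.H450.SData.of hs hk₀)
  obtain ⟨c, hc, hcd⟩ : ∃ c : ℝ, 0 < c ∧ c ^ d = (c₀ / vol s) ^ 2 :=
    ⟨_, Real.rpow_pos_of_pos (by positivity) _, Real.rpow_inv_natCast_pow (by positivity) hd⟩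
  have key : ∀ j, ∃ φ : X → ℝ, InS θ w (ep j) φ ∧ (∀ e x, At e x →
      HKm (θ e (e x) + (ep j : ℂ) • w e (e x) + ddc φ e (e x)) (s e (e x)) (c * ep j)) ∧
      ∀ ψ, InS θ w (ep j) ψ → ∀ x, ψ x ≤ φ x + (C + 1) := by
    intro j
    obtain ⟨v, hv⟩ := ex_env hw hR hn (ep_pos j)
    have hΘ := CoreK.rform_add_smul hw hR (ep j)
    have hχ := Gain.kahler_addH hΘ hv
    obtain ⟨u, κ, hu, hk⟩ := P301.H450.exists_rf hs hχ
    obtain ⟨x₀, -, hx₀⟩ := isCompact_univ.exists_isMaxOn univ_nonempty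
      (smooth_continuous (d := d) hu).continuousOn
    have hle : PSD fun e z => ((B + 1 : ℝ) : ℂ) • w e z - (θ e z + (ep j : ℂ) • w e z) := by
      intro e x hx
      have h3 := (hB e x hx).add (psd_smul (hwp e x hx) (sub_nonneg.2 (ep_le j)))
      have h4 : ((B + 1 : ℝ) : ℂ) • w e (e x) - (θ e (e x) + (ep j : ℂ) • w e (e x)) =
          (B : ℂ) • w e (e x) - θ e (e x) + ((1 - ep j : ℝ) : ℂ) • w e (e x) := by
        rw [Complex.ofReal_sub, Complex.ofReal_add, sub_smul, add_smul]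
        abel
      show (((B + 1 : ℝ) : ℂ) • w e (e x) - (θ e (e x) + (ep j : ℂ) • w e (e x))).PosSemidef
      rw [h4]
      exact h3
    have hosc := hC _ v u κ hΘ hle hv hu hk x₀
    have hu' : SmoothFn (n := d) fun x => u x - u x₀ := AMP.sm_sub hu (AMP.smoothFn_const _)
    have heq : ∀ e x, At e x → θ e (e x) + (ep j : ℂ) • w e (e x) +
        ddc (fun x => v x + (u x - u x₀)) e (e x) =
        addH (addH (fun e z => θ e z + (ep j : ℂ) • w e z) v) u e (e x) := fun e x hx => by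
      rw [← Gain.addH_sub_const _ hu (u x₀) hx]
      exact (congrArg (fun A => θ e (e x) + (ep j : ℂ) • w e (e x) + A)
        (AMP.hess_add' (n := d) hv.smooth hu' hx)).trans (add_assoc _ _ _).symm
    have hκ : c * ep j ≤ κ := by
      have h1 := (hvol (ep j) (ep_pos j) v hv.smooth hv.pos).trans_eq (vol_hk hs hχ hu hk)
      refine le_of_pow_le_pow_left₀ hd hk.pos.le ?_
      rw [mul_pow, hcd, ← Real.sq_sqrt (pow_pos (ep_pos j) d).le, ← Real.sq_sqrt (pow_pos hk.pos d).le,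
        ← mul_pow]
      refine pow_le_pow_left₀ (by positivity) ?_ 2
      rwa [div_mul_eq_mul_div, div_le_iff₀ hV]
    refine ⟨fun x => v x + (u x - u x₀), ⟨AMP.sm_add (n := d) hv.smooth hu', fun x => ?_,
      fun e x hx => ?_⟩, fun e x hx => ?_, fun ψ hψ x => ?_⟩
    · have : u x ≤ u x₀ := hx₀ (mem_univ x)
      linarith [hv.nonpos x]
    · have h1 := (hk.kahler.posDef e x hx).posSemidef
      rwa [← heq e x hx] at h1
    · rw [heq e x hx]
      exact ⟨hk.kahler.posDef e x hx, κ, hκ, hk.rel e x hx⟩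
    · linarith [hv.max ψ hψ.smooth hψ.nonpos hψ.psd x, hosc x]
  choose φ h1 h2 h3 using key
  refine ⟨c, φ, hc, ⟨h1, h2⟩, fun p hp => ?_⟩
  obtain ⟨φ', E₀, hE⟩ := envK d X w θ hw hR hn
  obtain ⟨h, hh, hk⟩ := ihs d X w s hs
  have hI := coreK d X w θ hw hR φ' E₀ hE 0 h le_rfl hh (fun e x hx => by
    show (((0 : ℝ) : ℂ) • θ e (e x) + ddc h e (e x) - kc w e (e x)).PosSemidef
    rw [hk e x hx, Complex.ofReal_zero, zero_smul, zero_add, sub_self]
    exact Matrix.PosSemidef.zero) p hp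
  refine ⟨ENNReal.ofReal (Real.exp (p * (C + 1))) * _, ENNReal.mul_ne_top ENNReal.ofReal_ne_top hI,
    fun j => ?_⟩
  rw [← lintegral_const_mul' _ _ ENNReal.ofReal_ne_top]
  refine lintegral_mono_ae (hE.lim.mono fun x hx => ?_)
  have h4 : E₀ x ≤ φ j x + (C + 1) := le_of_tendsto hx (by
    filter_upwards [eventually_ge_atTop j] with k hk
    refine h3 j _ ((hE.inS k).mono hwp ?_) x
    exact one_div_le_one_div_of_le (by positivity) (by exact_mod_cast Nat.succ_le_succ hk))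
  rw [← ENNReal.ofReal_mul (Real.exp_pos _).le, ← Real.exp_add]
  exact ENNReal.ofReal_le_ofReal (Real.exp_le_exp.2 (by nlinarith))

end Vale.Agent.P301Z.Ho
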