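import Vale.Agent.P301Z.Ho.HDefs

/-!
# P301Z, Lemma H: the pointwise input of the approximate `L²` estimate
-/

open scoped Manifold ContDiff ComplexOrder Topology Matrix ComplexConjugate
open Vale.Agent.P272.K Vale.Agent.P299.IX Vale.Agent.P301.H599 MeasureTheory Filter
open Vale.Agent.P299.IX.Fock Vale.Agent.P301.H862 Vale.Agent.P301.H862.HB
open Vale.Agent.P285Z Vale.Agent.P285Z.H0
open Vale.Agent.P272.K.AMP (volX integral_volX isDensity_det_metric)
open Vale.Agent.P272.K.INT (intX intX_add intX_const_mul intX_mono)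

noncomputable section

namespace Vale.Agent.P301Z.Ho

namespace Est2

variable {d : ℕ} {w : Cm d → Matrix (Fin d) (Fin d) ℂ} {f : Cm d → ℝ} {z : Cm d}

theorem num {p : ℕ} (hp : p + 1 = d) {u : FI d → ℂ}
    (hu : dgl (fun q => if q = p then 1 else 0) *ᵥ u = u) : ∑ l, iot l *ᵥ (eps l *ᵥ u) = u := by
  funext K
  have h1 : ∀ l, (iot l *ᵥ (eps l *ᵥ u)) K = if l ∈ Kᶜ then u K else 0 := fun l => by
    rw [iot_mulVec]
    by_cases h : l ∈ K
    · rw [if_pos h, if_neg (by simpa using h)]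
    · rw [if_neg h, if_pos (by simpa using h), eps_mulVec, if_pos (Finset.mem_insert_self l K),
        Finset.erase_insert h, sg_insert h, if_neg (lt_irrefl l), ← mul_assoc, sg_mul_self, one_mul]
  rw [Finset.sum_apply, Finset.sum_congr rfl fun l _ => h1 l, Finset.sum_ite_mem, Finset.univ_inter,
    Finset.sum_const, Finset.card_compl, Fintype.card_fin]
  by_cases h : K.card = p
  · rw [h, ← hp, Nat.add_sub_cancel_left, one_smul]
  · rw [← hu, dgl_mulVec, if_neg h, zero_mul, smul_zero]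

theorem hw_self (h : KAt w z) {u : FI d → ℂ} {β : Fin d → ℂ}
    (hn : ∑ l, iot l *ᵥ (eps l *ᵥ u) = u) (hu : ∀ l, eps l *ᵥ u = β l • ev Finset.univ) :
    (hw f w z u u).re = Real.exp (-f z) * Qf (w z) (star β) := by
  have h1 : hw f w z u u = (Real.exp (-f z) : ℂ) * (star (star β) ⬝ᵥ (w z *ᵥ star β)) := by
    rw [congrArg (hw f w z · u) hn.symm, hw_sum_left, star_star, dotProduct, Finset.mul_sum]
    refine Finset.sum_congr rfl fun l _ => ?_
    rw [← sum_w_epd h, Matrix.sum_mulVec, hw_sum_left, Matrix.mulVec, dotProduct, Finset.mul_sum,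
      Finset.mul_sum]
    refine Finset.sum_congr rfl fun b _ => ?_
    rw [Matrix.smul_mulVec, hw_smul_left, ← hw_eps_right h, hu l, hw_top h, hu b]
    have h2 : (β b • ev (Finset.univ : Finset (Fin d))) Finset.univ = β b := by simp [ev]
    rw [h2]
    show _ = _ * (β l * (w z l b * conj (β b)))
    ring
  rw [h1, Complex.re_ofReal_mul, Qf]

theorem Qf_eps (A W : Matrix (Fin d) (Fin d) ℂ) (ε : ℝ) (v : Fin d → ℂ) :
    Qf (A + (ε : ℂ) • W) v = Qf A v + ε * Qf W v := by
  simp only [Qf, Matrix.add_mulVec, Matrix.smul_mulVec, dotProduct_add, dotProduct_smul,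
    smul_eq_mul, Complex.add_re, Complex.re_ofReal_mul]

end Est2

open Est2 in
/-- row EST -/
theorem est_eps2 : EST := by
  intro d X _ _ _ _ _ _ _ w hw κ M ρ hρ ε hΘ s hs a ha ha0 hd p hp γ
  revert γ
  set B := HN hw hρ with hB
  intro γ hγ
  set t : B.S := upS hw hρ hs with ht
  have hD1 := B.dens (B.Dd t).isSec γ.isSec
  have hD2 := B.dens (γ.isSec.QX B.metric B.kahler) γ.isSec
  have hD3 := (isDensity_det_metric hw.toIsHermitian).smul ha
  have hD4 := B.dens γ.isSec γ.isSec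
  rw [norm_sq_eq, inner_eq, qf, ipB, ipB, ipB, ip, ip, ip, P301.H862.intC_re, P301.H862.intC_re,
    P301.H862.intC_re, integral_volX hw.toIsHermitian ha, ← intX_const_mul, ← intX_const_mul,
    ← intX_add hD3 hD2.isDensity_re,
    ← intX_add (hD3.add hD2.isDensity_re) (hD4.isDensity_re.const_mul ε)]
  refine intX_mono (hD1.isDensity_re.const_mul 2)
    ((hD3.add hD2.isDensity_re).add (hD4.isDensity_re.const_mul ε)) fun e x hx => ?_
  obtain ⟨i, hi⟩ := M.cover x
  have hm : x ∈ B.L.U (i, e) := mem_NB hx hi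
  show 2 * reD _ _ e (e x) ≤
    a (e.symm (e x)) * (w e (e x)).det.re + reD _ _ e (e x) + ε * reD _ _ e (e x)
  rw [reD_eq hD1 hx hm, reD_eq hD2 hx hm, reD_eq hD4 hx hm, hx.left_inv]
  have h0 : dgl (fun q => if q = p then 1 else 0) *ᵥ γ.f (i, e) e (e x) = γ.f (i, e) e (e x) := by
    rw [← dgc_at _ γ hx hm]
    exact congrArg (fun u : B.S => u.f (i, e) e (e x)) hγ
  have hu : ∀ l, eps l *ᵥ γ.f (i, e) e (e x) =
      (fun l => (eps l *ᵥ γ.f (i, e) e (e x)) Finset.univ) l • ev Finset.univ := eps_top hp h0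
  have hv : ∀ b, DVb b (t.f (i, e) e) (e x) =
      (fun b => dzb b (fun z => s i (e.symm z)) (e x)) b • ev Finset.univ := by
    intro b
    rw [DVb_congr (upS_near hw hρ hs hx hi)]
    exact DVb_smul_ev ((hs.smooth i e x hx hi).differentiableAt (by simp)) _ b
  show 2 * (P301.H862.hw (wt B.ρ (i, e) e) (w e) (e x) ((B.Dd t).f (i, e) e (e x))
      (γ.f (i, e) e (e x))).re ≤ _ + (P301.H862.hw (wt B.ρ (i, e) e) (w e) (e x)
        (Qw (wt B.ρ (i, e) e) (w e) (e x) (γ.f (i, e) e (e x))) (γ.f (i, e) e (e x))).re +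
      ε * (P301.H862.hw (wt B.ρ (i, e) e) (w e) (e x) (γ.f (i, e) e (e x))
        (γ.f (i, e) e (e x))).re
  rw [Dd_at t hx hm, hw_Qw (kat hw hx) hu, hw_self (kat hw hx) (num hp h0) hu]
  have h1 := hw_De (f := wt B.ρ (i, e) e) (kat hw hx) hv hu
  have h2 : B.w e = w e := rfl
  rw [h2, h1, cHess_wt hw hρ hx hi, add_assoc, mul_left_comm ε, ← mul_add, ← Qf_eps]
  exact pt_ineq (exp_wt hw hρ i hx) (Real.exp_pos _).le (C2.det_re_pos (hw.posDef e x hx)).le
    (ha0 x) (Qf_nonneg (hΘ e x hx) _) (hd i e x hx hi _)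

end Vale.Agent.P301Z.Ho
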