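import Vale.Agent.P301Z.Ho.Defs
import Vale.Agent.P281Z.Mf.Adapt
import Vale.Agent.P285Z.Chain
import Vale.Agent.P301.H599.PshLim
import Vale.Agent.P272.K.C2.Wirt

/-!
# P301Z, Lemma H: the upper limit is constant on the fibres
-/

open scoped Manifold ContDiff ComplexOrder Topology Matrix
open Filter Set Metric
open Vale.Agent.P272.K Vale.Agent.P301.H599 Vale.Agent.P285Z
open Vale.Agent.P301Z.Sa

set_option linter.all false

noncomputable section

namespace Vale.Agent.P301Z.Ho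

namespace Fibc

variable {d : ℕ}

theorem Lv_le (H : Matrix (Fin d) (Fin d) ℂ) (η : Fin d → ℂ) :
    Lv H η ≤ (∑ i, ∑ j, ‖H i j‖) * ‖η‖ ^ 2 := by
  unfold Lv Qf
  rw [star_star]
  refine (Complex.re_le_norm _).trans ?_
  simp only [dotProduct, Matrix.mulVec, Finset.mul_sum, Finset.sum_mul]
  refine (norm_sum_le _ _).trans (Finset.sum_le_sum fun i _ => ?_)
  refine (norm_sum_le _ _).trans (Finset.sum_le_sum fun j _ => ?_)
  rw [norm_mul, norm_mul, Pi.star_apply, norm_star]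
  have h1 := norm_le_pi_norm η i
  have h2 := norm_le_pi_norm η j
  calc ‖η i‖ * (‖H i j‖ * ‖η j‖) ≤ ‖η‖ * (‖H i j‖ * ‖η‖) := by gcongr
    _ = ‖H i j‖ * ‖η‖ ^ 2 := by ring

theorem Lv_one (ξ : Fin d → ℂ) : ‖ξ‖ ^ 2 ≤ Lv (1 : Matrix (Fin d) (Fin d) ℂ) ξ := by
  have h : Lv (1 : Matrix (Fin d) (Fin d) ℂ) ξ = ∑ i, ‖ξ i‖ ^ 2 := by
    unfold Lv Qf
    rw [star_star, Matrix.one_mulVec]
    simp only [dotProduct, Complex.re_sum, Pi.star_apply]
    refine Finset.sum_congr rfl fun i _ => ?_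
    rw [Complex.star_def, Complex.mul_conj, Complex.normSq_eq_norm_sq, Complex.ofReal_re]
  rw [h]
  have h0 : 0 ≤ ∑ i, ‖ξ i‖ ^ 2 := Finset.sum_nonneg fun i _ => by positivity
  have h1 : ‖ξ‖ ≤ Real.sqrt (∑ i, ‖ξ i‖ ^ 2) :=
    (pi_norm_le_iff_of_nonneg (Real.sqrt_nonneg _)).2 fun i => Real.le_sqrt_of_sq_le
      (Finset.single_le_sum (f := fun i => ‖ξ i‖ ^ 2) (fun _ _ => by positivity) (Finset.mem_univ i))
  exact (pow_le_pow_left₀ (norm_nonneg _) h1 2).trans_eq (Real.sq_sqrt h0)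

theorem bound {K : Set (Cm d)} (hK : IsCompact K) {W : Cm d → Matrix (Fin d) (Fin d) ℂ}
    {τ : Cm d → Cm d} (hW : ∀ z ∈ K, ∀ i j, ContinuousAt (fun y => W y i j) z)
    (hτ : ∀ z ∈ K, AnalyticAt ℂ τ z) : ∃ B : ℝ, 0 ≤ B ∧ ∀ z ∈ K, ∀ ξ,
      Lv (W z) (fderiv ℂ τ z ξ) ≤ B * Lv (1 : Matrix (Fin d) (Fin d) ℂ) ξ := by
  have hc : ContinuousOn (fun z => (∑ i, ∑ j, ‖W z i j‖) * ‖fderiv ℂ τ z‖ ^ 2) K := fun z hz =>
    ContinuousAt.continuousWithinAt
      ((tendsto_finset_sum _ fun i _ => tendsto_finset_sum _ fun j _ => (hW z hz i j).norm).mul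
        ((hτ z hz).fderiv.continuousAt.norm.pow 2))
  obtain ⟨B, hB⟩ := hK.exists_bound_of_continuousOn hc
  refine ⟨max B 0, le_max_right _ _, fun z hz ξ => (Lv_le _ _).trans ?_⟩
  have h0 : 0 ≤ ∑ i, ∑ j, ‖W z i j‖ := by positivity
  have h1 : ‖fderiv ℂ τ z ξ‖ ^ 2 ≤ ‖fderiv ℂ τ z‖ ^ 2 * ‖ξ‖ ^ 2 := by
    rw [← mul_pow]
    exact pow_le_pow_left₀ (norm_nonneg _) ((fderiv ℂ τ z).le_opNorm ξ) 2
  refine (mul_le_mul_of_nonneg_left h1 h0).trans ?_
  rw [← mul_assoc]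
  exact mul_le_mul (((le_abs_self _).trans (hB z hz)).trans (le_max_left _ _)) (Lv_one ξ)
    (by positivity) (le_max_right _ _)

/-- the strong maximum principle on a disc -/
theorem disc {Ω : Set (Cm d)} {u : Cm d → EReal} (hu : IsPSH Ω u) (hs : UpperSemicontinuous u)
    {a v : Cm d} (hΩ : ∀ ζ : ℂ, ‖ζ‖ ≤ 1 → a + ζ • v ∈ Ω) {m : ℝ}
    (h1 : ∀ ζ : ℂ, ‖ζ‖ = 1 → u (a + ζ • v) ≤ m) (h2 : (m : EReal) ≤ u a) :
    (m : EReal) ≤ u (a + v) := by
  by_contra hc
  obtain ⟨r, hr1, hr2⟩ := EReal.lt_iff_exists_real_btwn.1 (not_le.1 hc)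
  have hr : r < m := by exact_mod_cast hr2
  have hct : ContinuousAt (fun ζ : ℂ => a + ζ • v) 1 := by fun_prop
  have he : ∀ᶠ ζ : ℂ in 𝓝 1, u (a + ζ • v) < r :=
    hct.eventually (hs (a + (1 : ℂ) • v) r (by rwa [one_smul]))
  obtain ⟨ρ, hρ, hb⟩ := Metric.eventually_nhds_iff.1 he
  let h : ℂ → ℝ := fun ζ => m - (m - r) * max 0 (1 - dist ζ 1 / ρ)
  have hh : Continuous h := by fun_prop
  have hle : ∀ ζ, h ζ ≤ m := fun ζ =>
    sub_le_self _ (mul_nonneg (by linarith) (le_max_left _ _))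
  have key := hu.2.2 a v hΩ h hh fun ζ hζ => by
    by_cases hd : dist ζ 1 < ρ
    · refine (hb hd).le.trans (EReal.coe_le_coe_iff.2 ?_)
      have : max 0 (1 - dist ζ 1 / ρ) ≤ 1 :=
        max_le zero_le_one (sub_le_self _ (div_nonneg dist_nonneg hρ.le))
      have := mul_le_mul_of_nonneg_left this (show 0 ≤ m - r by linarith)
      simp only [h]
      linarith
    · refine (h1 ζ hζ).trans (EReal.coe_le_coe_iff.2 ?_)
      have : max 0 (1 - dist ζ 1 / ρ) = 0 :=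
        max_eq_left (sub_nonpos.2 ((one_le_div hρ).2 (not_lt.1 hd)))
      simp only [h, this, mul_zero, sub_zero, le_refl]
  have lt : Real.circleAverage h 0 1 < m := by
    have hpi : 0 < 2 * Real.pi := by positivity
    have := intervalIntegral.integral_lt_integral_of_continuousOn_of_le_of_exists_lt hpi
      (f := fun θ => h (circleMap 0 1 θ)) (g := fun _ => m)
      (hh.comp (continuous_circleMap 0 1)).continuousOn continuousOn_const (fun θ _ => hle _)
      ⟨0, ⟨le_rfl, hpi.le⟩, by simp [h, circleMap, hr]⟩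
    rw [Real.circleAverage_def, smul_eq_mul, inv_mul_lt_iff₀ hpi]
    simpa using this
  exact absurd (EReal.coe_le_coe_iff.1 (h2.trans key)) (not_le.2 lt)

variable {X : Type} [TopologicalSpace X] [ChartedSpace (Cm d) X] [IsManifold 𝓘(ℂ, Cm d) ω X]

/-- the upper limit is plurisubharmonic in holomorphic coordinates -/
theorem psh (h : CHN) {w : Fm d X} (hw : IsHermitian w) {O : Set X} {f : ℕ → X → ℝ}
    (hf : QP w O f) {c e : Chart d X} (hc : P281Z.Co d c) (he : e ∈ atlas (Cm d) X)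
    (hO : c.source ⊆ O ∩ e.source) :
    IsPSH c.target (LS fun k z => f k (e.symm (e (c.symm z)))) ∧
      ∀ z ∈ c.target, LS (fun k z => f k (e.symm (e (c.symm z)))) z = LS f (c.symm z) := by
  have hm : ∀ z ∈ c.target, c.symm z ∈ O ∧ At e (c.symm z) := fun z hz =>
    ⟨(hO (c.map_target hz)).1, he, (hO (c.map_target hz)).2⟩
  have hτ : ∀ z ∈ c.target, AnalyticAt ℂ (fun v => e (c.symm v)) z := fun z hz =>
    hc.inv z hz e (hm z hz).2
  have hmap : ∀ z ∈ c.target, map (fun v => e.symm (e (c.symm v))) (𝓝 z) = 𝓝 (c.symm z) := by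
    intro z hz
    rw [← c.symm.map_nhds_eq hz]
    refine Filter.map_congr ?_
    filter_upwards [c.open_target.mem_nhds hz] with v hv
    exact e.left_inv (hm v hv).2.2
  have hs : ∀ k, ∀ z ∈ c.target, ContDiffAt ℝ ∞ (fun z => f k (e.symm (e (c.symm z)))) z :=
    fun k z hz => ContDiffAt.comp (g := fun y => f k (e.symm y)) z
      (hf.sm k e _ (hm z hz).2 (hm z hz).1) ((hτ z hz).contDiffAt.restrict_scalars ℝ)
  refine ⟨isPSH_LS c.open_target (fun k _ => hs k) (fun z hz => ?_) fun K hK hKc => ?_,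
    fun z hz => (LS_map (hmap z hz)).symm⟩
  · obtain ⟨C, hC⟩ := hf.bdd _ (hm z hz).1
    rw [← hmap z hz, eventually_map] at hC
    exact ⟨C, (tendsto_snd.eventually hC).mono fun p hp => hp p.1⟩
  · obtain ⟨B, hB0, hB⟩ := bound hKc (W := fun z => w e (e (c.symm z)))
      (τ := fun v => e (c.symm v))
      (fun z hz i j => ContinuousAt.comp (g := fun y => w e y i j)
        (hw.smooth e _ (hm z (hK hz)).2 i j).continuousAt (hτ z (hK hz)).continuousAt)
      fun z hz => hτ z (hK hz)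
    refine ⟨B, fun k hk z hz => Ch.psd_of_Qf ((C2.cHess_isHermitian
      ((hs k z (hK hz)).of_le (by norm_cast))).add (Ch.herm_smul _ Matrix.isHermitian_one))
      fun v => ?_⟩
    have hz' := hm z (hK hz)
    have e1 := h d d (fun y => f k (e.symm y)) (fun v => e (c.symm v)) z
      ((hf.sm k e _ hz'.2 hz'.1).of_le (by norm_cast)) (hτ z (hK hz)) (star v)
    have e2 := Ch.Qf_nonneg (hf.psd k e _ hz'.2 hz'.1)
      (star (fderiv ℂ (fun v => e (c.symm v)) z (star v)))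
    have e3 := hB z hz (star v)
    have e4 : 0 ≤ Qf (1 : Matrix (Fin d) (Fin d) ℂ) v := Ch.Qf_nonneg Matrix.PosSemidef.one v
    have hk' : (0 : ℝ) < k := by exact_mod_cast hk
    have e5 : ep k * B ≤ B / k := by
      rw [ep, one_div, ← div_eq_inv_mul]
      exact div_le_div_of_nonneg_left hB0 hk' (by linarith)
    have e6 : 0 ≤ ep k := by unfold ep; positivity
    rw [Ch.Qf_add, Ch.Qf_smul] at e2 ⊢
    unfold Lv at e1 e3
    rw [star_star] at e1 e3
    rw [e1]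
    have e7 := mul_le_mul_of_nonneg_left e3 e6
    have e8 := mul_le_mul_of_nonneg_right e5 e4
    unfold ddc at e2
    linarith

end Fibc

open Fibc in
theorem fibc_of (h : CHN) : FIBC := by
  intro d n X _ _ _ _ w s hw O π b R hT f hf y hy y' hy' hπ
  have ht := hT.maps hy
  obtain ⟨Z, hZ⟩ : ∃ Z, Z = O ∩ π ⁻¹' {π y} := ⟨_, rfl⟩
  have hZc : IsCompact Z := hZ ▸ hT.prp _ (singleton_subset_iff.2 ht) isCompact_singleton
  have hZn : IsConnected Z := hZ ▸ hT.conn _ ht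
  have mem : ∀ x, x ∈ Z ↔ x ∈ O ∧ π x = π y := fun x => by rw [hZ]; rfl
  obtain ⟨y1, hy1, hmax⟩ := ((usc_LS f).upperSemicontinuousOn Z).exists_isMaxOn hZn.nonempty hZc
  have hle : ∀ x ∈ Z, LS f x ≤ LS f y1 := fun x hx => hmax hx
  have loc : ∀ y0 ∈ Z, LS f y1 ≤ LS f y0 → ∀ᶠ x in 𝓝 y0, x ∈ Z → LS f y1 ≤ LS f x := by
    intro y0 h0 hm
    obtain ⟨h0O, h0π⟩ := (mem _).1 h0
    induction hx : LS f y1 using EReal.rec with
    | bot => exact Eventually.of_forall fun _ _ => bot_le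
    | top =>
      obtain ⟨C, hC⟩ := hf.bdd _ h0O
      have : LS f y0 ≤ C := LS_le' ((tendsto_snd.eventually hC).mono fun p hp => hp p.1)
      rw [hx] at hm
      exact absurd (hm.trans this) (not_le.2 (EReal.coe_lt_top C))
    | coe m =>
      rw [hx] at hm hle
      obtain ⟨c, j, hc, hs, hO, -, hj⟩ := P281Z.exists_chart (hT.ind y0 h0O)
        (inter_mem (hT.opn.mem_nhds h0O) (chart_source_mem_nhds (Cm d) y0))
      obtain ⟨p1, p2⟩ := psh h hw hf hc (chart_mem_atlas _ y0) hO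
      obtain ⟨r, hr, hb⟩ := Metric.isOpen_iff.1 c.open_target _ (c.map_source hs)
      filter_upwards [c.open_source.mem_nhds hs,
        (c.continuousAt hs).eventually (ball_mem_nhds _ hr)] with x hxs hxb hxZ
      have hΩ : ∀ ζ : ℂ, ‖ζ‖ ≤ 1 → c y0 + ζ • (c x - c y0) ∈ c.target := fun ζ hζ => hb (by
        rw [mem_ball_iff_norm, add_sub_cancel_left, norm_smul]
        exact (mul_le_of_le_one_left (norm_nonneg _) hζ).trans_lt (mem_ball_iff_norm.1 hxb))
      have := disc p1 (usc_LS _) hΩ (m := m) (fun ζ hζ => by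
        have hz := hΩ ζ hζ.le
        rw [p2 _ hz]
        refine hle _ ((mem _).2 ⟨(hO (c.map_target hz)).1, funext fun i => ?_⟩)
        rw [← hj _ (c.map_target hz) i, c.right_inv hz, Pi.add_apply, Pi.smul_apply, Pi.sub_apply,
          hj _ hxs, hj _ hs, ((mem _).1 hxZ).2, h0π, sub_self, smul_zero, add_zero])
        (by rw [p2 _ (c.map_source hs), c.left_inv hs]; exact hm)
      rwa [add_sub_cancel, p2 _ (c.map_source hxs), c.left_inv hxs] at this
  have all : ∀ x ∈ Z, LS f x = LS f y1 := by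
    intro x hx
    refine le_antisymm (hle x hx) (le_of_not_gt fun hlt => ?_)
    obtain ⟨z, hz, hz1, hz2⟩ := hZn.isPreconnected (interior {x | x ∈ Z → LS f y1 ≤ LS f x})
      (LS f ⁻¹' Ici (LS f y1))ᶜ isOpen_interior ((usc_LS f).isClosed_preimage _).isOpen_compl
      (fun z hz => by
        by_cases k : LS f y1 ≤ LS f z
        · exact Or.inl (mem_interior_iff_mem_nhds.2 (loc z hz k))
        · exact Or.inr k)
      ⟨y1, hy1, mem_interior_iff_mem_nhds.2 (loc y1 hy1 le_rfl)⟩ ⟨x, hx, not_le.2 hlt⟩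
    exact hz2 (interior_subset hz1 hz)
  rw [all y ((mem _).2 ⟨hy, rfl⟩), all y' ((mem _).2 ⟨hy', hπ.symm⟩)]

end Vale.Agent.P301Z.Ho
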