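import Vale.Agent.P301Z.Ho.Defs
import Vale.Agent.P285Z.Pole

/-!
# P301Z, Lemma H at a point
-/

open scoped Manifold ContDiff ComplexOrder Topology ENNReal
open MeasureTheory Filter Set Metric
open Vale.Agent.P272.K Vale.Agent.P301.H599 Vale.Agent.P301.H99 Vale.Agent.P285Z
open Vale.Agent.P301Z.Sa

noncomputable section

namespace Vale.Agent.P301Z.Ho

namespace HptA

theorem not_pl (d : ℕ) (z₀ : Cm d) : ∃ N : ℕ, ∀ (D : Cm d → ℂ) (q : Cm d → ℝ) (C : ℝ),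
    ContinuousAt D z₀ → D z₀ ≠ 0 → 0 < C → (∀ᶠ z in 𝓝 z₀, 0 ≤ q z ∧ q z ≤ C * ‖z - z₀‖ ^ 2) →
    ¬ Pl D q N z₀ := by
  obtain ⟨N, hN⟩ := pole d (fun _ => 1) z₀ analyticAt_const fun h => one_ne_zero h.self_of_nhds
  refine ⟨N, fun D q C hD h0 hC hq ⟨V, hV, K, hK, h⟩ => ?_⟩
  have hb : 0 < ‖D z₀‖ / 2 := by positivity
  obtain ⟨O, h1, h2, h3⟩ := _root_.mem_nhds_iff.1 (inter_mem hV
    (hq.and (hD.norm.eventually (lt_mem_nhds (half_lt_self (norm_pos_iff.2 h0))))))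
  set b := ‖D z₀‖ / 2
  obtain ⟨δ, hδ, h4⟩ := hN O (h2.mem_nhds h3) (ENNReal.ofReal (C ^ N / b ^ 2) * K)
    (ENNReal.mul_ne_top ENNReal.ofReal_ne_top hK)
  refine h4.not_ge ?_
  refine le_trans ?_ (mul_le_mul_right ((lintegral_mono_set fun z hz => (h1 hz).1).trans
    (h (C * δ) (by positivity))) _)
  rw [← lintegral_const_mul' _ _ ENNReal.ofReal_ne_top]
  refine setLIntegral_mono' h2.measurableSet fun z hz => ?_
  obtain ⟨-, ⟨k1, k2⟩, k3⟩ := h1 hz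
  rw [← ENNReal.ofReal_mul (by positivity)]
  refine ENNReal.ofReal_le_ofReal ?_
  have k4 : (q z + C * δ) ^ N ≤ C ^ N * (‖z - z₀‖ ^ 2 + δ) ^ N := by
    rw [← mul_pow]
    exact pow_le_pow_left₀ (by positivity) (by linarith) N
  have k5 : b ^ 2 ≤ ‖D z‖ ^ 2 := pow_le_pow_left₀ hb.le (le_of_lt k3) 2
  rw [norm_one, one_pow, div_mul_div_comm, div_le_div_iff₀ (by positivity) (by positivity),
    one_mul]
  calc b ^ 2 * (q z + C * δ) ^ N ≤ ‖D z‖ ^ 2 * (C ^ N * (‖z - z₀‖ ^ 2 + δ) ^ N) := by gcongr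
    _ = _ := by ring

theorem sq_le {d r : ℕ} {G : Fin r → Cm d → ℂ} {z₀ : Cm d} (h : ∀ k, AnalyticAt ℂ (G k) z₀)
    (h0 : ∀ k, G k z₀ = 0) : ∃ C : ℝ, 0 < C ∧
      ∀ᶠ z in 𝓝 z₀, 0 ≤ ∑ k, ‖G k z‖ ^ 2 ∧ ∑ k, ‖G k z‖ ^ 2 ≤ C * ‖z - z₀‖ ^ 2 := by
  choose c hc using fun k => (h k).differentiableAt.isBigO_sub.bound
  refine ⟨∑ k, c k ^ 2 + 1, by positivity, ?_⟩
  filter_upwards [eventually_all.2 hc] with z hz
  refine ⟨by positivity, ?_⟩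
  rw [add_mul, Finset.sum_mul]
  refine le_add_of_le_of_nonneg (Finset.sum_le_sum fun k _ => ?_) (by positivity)
  rw [← mul_pow]
  exact pow_le_pow_left₀ (norm_nonneg _) (by simpa only [h0, sub_zero] using hz k) 2

end HptA

open HptA in
theorem hpt_of (h : HL2) : HPT := by
  intro d n X _ _ _ _ _ _ w s hd hs ι L ρ hρ hn hi hc U r g a e T hL x hx hg
  obtain ⟨c, hc, H⟩ := h d n X w s hd hs ι L ρ hρ hn hi hc U r g a e T hL
  obtain ⟨i, hi⟩ := L.cover x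
  have hk : At (chartAt (Cm d) x) x := ⟨chart_mem_atlas _ _, mem_chart_source _ _⟩
  obtain ⟨N, hN⟩ := not_pl d (chartAt (Cm d) x x)
  obtain ⟨m, hm⟩ := exists_nat_ge ((N : ℝ) / c)
  obtain ⟨σ, h1, h2⟩ := H (m + 1) m.succ_pos (fun _ => 1) fun _ _ _ _ => analyticAt_const
  refine ⟨a * (m + 1), mul_pos hL.pos m.succ_pos, σ, h1, i, hi, fun h0 => ?_⟩
  obtain ⟨C, hC, hq⟩ := sq_le (fun k => hL.hol k x hx _ hk) fun k => by rw [hk.left_inv, hg]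
  refine hN _ _ C ?_ ?_ hC hq (h2 N ?_ x hx (by simp [sq, hg]) i _ hk hi)
  · exact (h1.1 i _ x hk hi).continuousAt.sub
      (continuousAt_const.mul ((hL.gen.hol i x hx hi _ hk).continuousAt.pow _))
  · simpa [hk.left_inv, h0] using hL.gen.ne i x hx hi
  · have h3 : (1 : ℝ) ≤ a := Nat.one_le_cast.2 hL.pos
    rw [div_le_iff₀' hc] at hm
    refine hm.trans (mul_le_mul_of_nonneg_left ?_ hc.le)
    push_cast
    nlinarith [(Nat.cast_nonneg m : (0 : ℝ) ≤ m)]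

end Vale.Agent.P301Z.Ho
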