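import Vale.Agent.P301Z.Ho.Defs

/-!
# P301Z, Lemma H: the pointwise inequality, the bound of the Hamiltonian fields
-/

open scoped Manifold ContDiff ComplexOrder Topology Matrix
open Filter Set Matrix
open Vale.Agent.P272.K Vale.Agent.P301.H599 Vale.Agent.P285Z
open Vale.Agent.P277Z (Hol)
open Vale.Agent.P301Z.Sa

noncomputable section

namespace Vale.Agent.P301Z.Ho

namespace Lhk

variable {d : ℕ} {W S : Matrix (Fin d) (Fin d) ℂ}

theorem lv_eq (W : Matrix (Fin d) (Fin d) ℂ) (ξ : Fin d → ℂ) :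
    Lv W ξ = (ξ ⬝ᵥ W *ᵥ star ξ).re := by
  rw [Lv, Qf, star_star]

theorem lv_nonneg (h : W.PosSemidef) (ξ : Fin d → ℂ) : 0 ≤ Lv W ξ :=
  (Complex.le_def.1 (h.dotProduct_mulVec_nonneg _)).1

theorem cs (h : W.PosSemidef) (x y : Fin d → ℂ) :
    ‖star x ⬝ᵥ W *ᵥ y‖ ^ 2 ≤ Qf W x * Qf W y := by
  have e : ∀ x y : Fin d → ℂ, (starRingEnd ℂ) (star y ⬝ᵥ W *ᵥ x) = star x ⬝ᵥ W *ᵥ y :=
    fun x y => by
      rw [star_dotProduct, starRingEnd_apply, star_star, star_mulVec, h.isHermitian.eq,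
        dotProduct_mulVec]
  let c : PreInnerProductSpace.Core ℂ (Fin d → ℂ) :=
    { inner := fun x y => star x ⬝ᵥ W *ᵥ y
      conj_inner_symm := e
      re_inner_nonneg := fun x => h.re_dotProduct_nonneg x
      add_left := fun x y z => by simp only [star_add, add_dotProduct]
      smul_left := fun x y r => by simp only [star_smul, smul_dotProduct, smul_eq_mul]; rfl }
  have k : ‖star x ⬝ᵥ W *ᵥ y‖ * ‖star y ⬝ᵥ W *ᵥ x‖ ≤ Qf W x * Qf W y :=
    @InnerProductSpace.Core.inner_mul_inner_self_le ℂ _ _ _ _ c x y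
  rwa [← e y x, RCLike.norm_conj, ← pow_two] at k

theorem key {κ : ℝ} (hS : IsUnit S.det) (hW : W.PosSemidef) (hκ : 0 < κ)
    (h : W * (Sᴴ)⁻¹ * Wᵀ = (κ : ℂ) • S) (G ξ : Fin d → ℂ) :
    κ * ‖G ⬝ᵥ ξ‖ ^ 2 ≤ Lv W ξ * Lv W (S⁻¹ *ᵥ G) := by
  have e1 : W *ᵥ ((Sᴴ)⁻¹ *ᵥ (Wᵀ *ᵥ (S⁻¹ *ᵥ G))) = (κ : ℂ) • G := by
    rw [mulVec_mulVec, mulVec_mulVec, h, mulVec_mulVec, Matrix.smul_mul, mul_nonsing_inv _ hS,
      smul_mulVec, one_mulVec]
  have e2 : Qf W ((Sᴴ)⁻¹ *ᵥ (Wᵀ *ᵥ (S⁻¹ *ᵥ G))) = κ * Lv W (S⁻¹ *ᵥ G) := by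
    rw [Qf, e1, dotProduct_smul, smul_eq_mul, Complex.re_ofReal_mul, lv_eq, star_mulVec,
      conjTranspose_nonsing_inv, conjTranspose_conjTranspose, ← dotProduct_mulVec, star_mulVec,
      hW.isHermitian.transpose.eq, vecMul_transpose, dotProduct_comm]
  have k := cs hW (star ξ) ((Sᴴ)⁻¹ *ᵥ (Wᵀ *ᵥ (S⁻¹ *ᵥ G)))
  rw [e1, e2, star_star, dotProduct_smul, norm_smul, Complex.norm_real, Real.norm_eq_abs,
    abs_of_pos hκ, dotProduct_comm] at k
  refine le_of_mul_le_mul_left ?_ hκ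
  calc κ * (κ * ‖G ⬝ᵥ ξ‖ ^ 2) = (κ * ‖G ⬝ᵥ ξ‖) ^ 2 := by ring
    _ ≤ Lv W ξ * (κ * Lv W (S⁻¹ *ᵥ G)) := k
    _ = _ := by ring

theorem lv_change (J W : Matrix (Fin d) (Fin d) ℂ) (ξ : Fin d → ℂ) :
    Lv (Jᵀ * W * J.map (starRingEnd ℂ)) ξ = Lv W (J *ᵥ ξ) := by
  rw [lv_eq, lv_eq, ← mulVec_mulVec, ← mulVec_mulVec, dotProduct_mulVec, vecMul_transpose,
    star_mulVec, ← mulVec_transpose]
  rfl

variable {X : Type} [TopologicalSpace X] [ChartedSpace (Cm d) X] [IsManifold 𝓘(ℂ, Cm d) ω X]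
  {w s : Fm d X} {e e' : Chart d X} {x : X} {g : X → ℂ}

theorem gr_change (hg : Hol d g x) (h : At e x) (h' : At e' x) :
    gr g e x = (jacM e e' x)ᵀ *ᵥ gr g e' x := by
  funext a
  have h1 : (fun z => g (e.symm z)) =ᶠ[𝓝 (e x)] fun z => g (e'.symm (e' (e.symm z))) := by
    filter_upwards [h.nhds_at h'] with z hz
    rw [hz.2.2.left_inv]
  have h2 : e' (e.symm (e x)) = e' x := by rw [h.left_inv]
  have k := dz_comp_holo (i := a) (τ := fun z => e' (e.symm z)) (f := fun z => g (e'.symm z))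
    (z := e x) (by rw [h2]; exact (hg e' h').differentiableAt.restrictScalars ℝ)
    (transition_differentiableAt h h')
  rw [h2] at k
  rw [mulVec_transpose]
  exact (dz_congr h1).trans k

theorem inv (hw : IsHermitian w) (hs : IsHolTwoForm s) (hg : Hol d g x) (h : At e x)
    (h' : At e' x) : Lv (w e (e x)) ((s e (e x))⁻¹ *ᵥ gr g e x) =
      Lv (w e' (e' x)) ((s e' (e' x))⁻¹ *ᵥ gr g e' x) := by
  have u := jacM_isUnit h h'
  rw [hw.change e e' x h h', hs.change e e' x h h', gr_change hg h h', lv_change, mulVec_mulVec,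
    mulVec_mulVec, Matrix.mul_inv_rev, Matrix.mul_inv_rev, mul_nonsing_inv_cancel_left _ _ u,
    nonsing_inv_mul_cancel_right _ _ (by rwa [det_transpose])]

omit [IsManifold 𝓘(ℂ, Cm d) ω X] in
theorem cont (hw : IsHermitian w) (hs : IsHolTwoForm s) (hg : Hol d g x) (h : At e x)
    (hn : (s e (e x)).det ≠ 0) :
    ContinuousAt (fun y => Lv (w e (e y)) ((s e (e y))⁻¹ *ᵥ gr g e y)) x := by
  have c0 := e.continuousAt h.2
  have c1 : ContinuousAt (w e) (e x) :=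
    continuousAt_pi.2 fun i => continuousAt_pi.2 fun j => (hw.smooth e x h i j).continuousAt
  have c2 : ContinuousAt (s e) (e x) :=
    continuousAt_pi.2 fun i => continuousAt_pi.2 fun j => (hs.holo e x h i j).continuousAt
  have c3 : ContinuousAt (fun z => (s e z)⁻¹) (e x) :=
    (continuousAt_matrix_inv (s e (e x))
      (by rw [Ring.inverse_eq_inv']; exact continuousAt_inv₀ hn)).comp c2
  have c4 : ContinuousAt (fun z a => dz a (fun z => g (e.symm z)) z) (e x) :=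
    continuousAt_pi.2 fun a => (contDiffAt_dz (r := 1) (m := 0)
      ((hg e h).contDiffAt.restrict_scalars ℝ) (by norm_num)).continuousAt
  have c5 : Continuous fun p : Matrix (Fin d) (Fin d) ℂ × Matrix (Fin d) (Fin d) ℂ × (Fin d → ℂ) =>
      Lv p.1 (p.2.1 *ᵥ p.2.2) := by
    have a : Continuous fun p : Matrix (Fin d) (Fin d) ℂ × Matrix (Fin d) (Fin d) ℂ ×
        (Fin d → ℂ) => p.2.1 *ᵥ p.2.2 := continuous_snd.fst.matrix_mulVec continuous_snd.snd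
    simp only [lv_eq]
    exact Complex.continuous_re.comp (a.dotProduct (continuous_fst.matrix_mulVec a.star))
  exact (c5.continuousAt.comp (c1.prodMk (c3.prodMk c4))).comp c0

end Lhk

theorem lhk : LHK := by
  intro d n r W w S H ε c N J G hS e0 c0 hK hJ hG hW hN ξ
  obtain ⟨hP, κ, hκ, h⟩ := hK
  have W0 := Lhk.lv_nonneg hP.posSemidef ξ
  have k : ∀ k, c * ‖G k ⬝ᵥ ξ‖ ^ 2 ≤ Lv w (S⁻¹ *ᵥ G k) * Lv W ξ := fun k => by
    have k1 := Lhk.key hS hP.posSemidef ((mul_pos c0 e0).trans_le hκ) h (G k) ξ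
    have k2 := hW (S⁻¹ *ᵥ G k)
    obtain ⟨l, hl⟩ := hG k
    have k3 : (fun i => J i ⬝ᵥ S⁻¹ *ᵥ G k) = 0 := funext fun i => by
      simp only [hl, mulVec_sum, mulVec_smul, dotProduct_sum, dotProduct_smul, hJ, smul_zero,
        Finset.sum_const_zero, Pi.zero_apply]
    rw [k3, Lhk.lv_eq H, zero_dotProduct, Complex.zero_re, add_zero] at k2
    refine le_of_mul_le_mul_left ?_ e0
    have k4 := mul_le_mul_of_nonneg_left k2 W0
    have k5 := mul_le_mul_of_nonneg_right hκ (sq_nonneg ‖G k ⬝ᵥ ξ‖)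
    nlinarith
  rw [Finset.mul_sum]
  refine (Finset.sum_le_sum fun j _ => k j).trans ?_
  rw [← Finset.sum_mul]
  exact mul_le_mul_of_nonneg_right hN W0

theorem xb : XB := by
  intro d r X _ _ _ w s hw hs hn g K hK hg
  refine hK.induction_on (p := fun K => ∃ N : ℝ, 0 < N ∧ ∀ y ∈ K, XBd w s g N y)
    ⟨1, one_pos, fun _ h => h.elim⟩ (fun _ _ h ⟨N, a, b⟩ => ⟨N, a, fun y hy => b y (h hy)⟩)
    (fun _ _ ⟨N, a, b⟩ ⟨N', _, b'⟩ => ⟨max N N', lt_max_of_lt_left a, fun y hy e he =>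
      hy.elim (fun h => (b y h e he).trans (le_max_left _ _))
        fun h => (b' y h e he).trans (le_max_right _ _)⟩) fun x hx => ?_
  have he : At (chartAt (Cm d) x) x := ⟨chart_mem_atlas _ _, mem_chart_source _ _⟩
  generalize chartAt (Cm d) x = e at he
  have c : ContinuousAt (fun y => ∑ k, Lv (w e (e y)) ((s e (e y))⁻¹ *ᵥ gr (g k) e y)) x :=
    tendsto_finsetSum _ fun k _ => Lhk.cont hw hs (hg k x hx) he (hn e x he)
  obtain ⟨N, hN⟩ := exists_gt (∑ k, Lv (w e (e x)) ((s e (e x))⁻¹ *ᵥ gr (g k) e x))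
  refine ⟨_, inter_mem_nhdsWithin K (inter_mem (c.eventually (gt_mem_nhds hN))
    (e.open_source.mem_nhds he.2)), max N 1, lt_max_of_lt_right one_pos, fun y hy e' he' => ?_⟩
  refine le_trans (le_of_eq (Finset.sum_congr rfl fun k _ =>
    Lhk.inv hw hs (hg k y hy.1) he' ⟨he.1, hy.2.2⟩)) ((le_of_lt hy.2.1).trans (le_max_left _ _))

end Vale.Agent.P301Z.Ho
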