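import Vale.Agent.P301Z.Ho.Defs

/-!
# P301Z, Lemma H: maxima near a fibre
-/

open scoped Topology
open Filter Set Metric
open Vale.Agent.P301.H599

namespace Vale.Agent.P301Z.Ho

theorem maxj : MAXJ := by
  intro n X _ _ O π b₀ f u q x hO hπ hK hf hu hq q0 q1 hx x0 h1 h2
  obtain ⟨r, ⟨hK, hr⟩, r0⟩ := ((hK.and ((eventually_closedBall_subset (hu.and h2)).filter_mono
    nhdsWithin_le_nhds)).and self_mem_nhdsWithin).exists
  have ht : ∀ y ∈ O ∩ π ⁻¹' closedBall b₀ r, ContinuousAt (fun y => -(u (π y) + q (π y))) y :=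
    fun y hy => (((hr hy.2).1.add hq.continuousAt).comp (hπ.continuousAt (hO.mem_nhds hy.1))).neg
  have hn : ∀ y ∈ O, π y = b₀ → O ∩ π ⁻¹' closedBall b₀ r ∈ 𝓝 y := fun y hy e =>
    inter_mem (hO.mem_nhds hy) ((hπ.continuousAt (hO.mem_nhds hy)).preimage_mem_nhds
      (e.symm ▸ closedBall_mem_nhds _ r0))
  have xK := mem_of_mem_nhds (hn x hx x0)
  choose xs m1 m2 using fun j => hK.exists_isMaxOn (f := fun y => f j y + -(u (π y) + q (π y)))
    ⟨x, xK⟩ (((hf j).mono inter_subset_left).add fun y hy => (ht y hy).continuousWithinAt)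
  obtain ⟨φ, hφ, k1⟩ := extraction_forall_of_frequently (P := fun i j =>
    -(1 / ((i : ℝ) + 1)) ≤ f j (xs j) + -(u (π (xs j)) + q (π (xs j)))) fun i => by
      by_contra h
      have k := LS_le' (g := fun j y => f j y + -(u (π y) + q (π y))) (x := x)
        (((not_frequently.1 h).prod_mk (hn x hx x0)).mono fun p hp =>
          (m2 p.1 hp.2).trans (not_le.1 hp.1).le)
      rw [LS_add (ht x xK), x0, q0] at k
      replace k := (add_le_add_left h1 _).trans k
      rw [← EReal.coe_add, EReal.coe_le_coe_iff] at k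
      linarith [Nat.one_div_pos_of_nat (α := ℝ) (n := i)]
  obtain ⟨x', x1, x2⟩ := hK.ultrafilter_le_nhds ((Ultrafilter.of atTop).map fun i => xs (φ i))
    (le_principal_iff.2 (mem_map.2 (univ_mem' fun i => m1 (φ i))))
  have hT := (hφ.tendsto_atTop.mono_left (Ultrafilter.of_le _)).prodMk
    (m₂ := fun i => xs (φ i)) x2
  have x3 : π x' = b₀ := by
    by_contra h
    have k0 := (tendsto_one_div_add_atTop_nhds_zero_nat (𝕜 := ℝ)).eventually_le_const
      (half_pos (q1 _ h))
    have k := le_LS' (g := fun j y => f j y + -(u (π y) + q (π y))) (t := -(q (π x') / 2))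
      (hT.frequently ((k0.filter_mono (Ultrafilter.of_le _)).mono fun i hi =>
        (neg_le_neg hi).trans (k1 i)).frequently)
    rw [LS_add (ht x' x1)] at k
    replace k := k.trans (add_le_add_left ((hr x1.2).2 x' x1.1 rfl) _)
    rw [← EReal.coe_add, EReal.coe_le_coe_iff] at k
    linarith [q1 _ h]
  refine ⟨x', x1.1, x3, hT.frequently (Eventually.frequently ?_)⟩
  filter_upwards [Tendsto.eventually x2 (eventually_mem_nhds_iff.2 (hn x' x1.1 x3))] with i hi
  simpa only [sub_eq_add_neg] using (m2 (φ i)).isLocalMax hi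

end Vale.Agent.P301Z.Ho
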