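import Vale.Agent.P301Z.Ho.Defs
import Vale.Agent.P281Z.Mf.Loc
import Vale.Agent.P272.K.N.MaxP

/-!
# P301Z, Lemma H: the viscosity inequality on the base
-/

open scoped Manifold ContDiff ComplexOrder Topology Matrix
open Filter Set Metric
open Vale.Agent.P272.K Vale.Agent.P301.H599 Vale.Agent.P285Z
open Vale.Agent.P277Z (Hol at_chart)
open Vale.Agent.P281Z (AnV at_near at_ev)
open Vale.Agent.P301Z.Sa

noncomputable section

namespace Vale.Agent.P301Z.Ho

namespace Vb

variable {d : ℕ}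

theorem lv_add (A B : Matrix (Fin d) (Fin d) ℂ) (ξ : Cm d) : Lv (A + B) ξ = Lv A ξ + Lv B ξ := by
  simp [Lv, Qf, Matrix.add_mulVec, dotProduct_add]

theorem lv_smul (c : ℝ) (A : Matrix (Fin d) (Fin d) ℂ) (ξ : Cm d) :
    Lv ((c : ℂ) • A) ξ = c * Lv A ξ := by
  simp [Lv, Qf, Matrix.smul_mulVec, dotProduct_smul]

theorem lv_le {A B : Matrix (Fin d) (Fin d) ℂ} (h : (-(A - B)).PosSemidef) (ξ : Cm d) :
    Lv A ξ ≤ Lv B ξ := by
  have h1 := (Complex.le_def.1 (h.dotProduct_mulVec_nonneg (star ξ))).1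
  simp only [neg_sub, Matrix.sub_mulVec, dotProduct_sub, Complex.sub_re, Complex.zero_re] at h1
  exact sub_nonneg.1 h1

theorem lv_cont : Continuous fun p : Matrix (Fin d) (Fin d) ℂ × Cm d => Lv p.1 p.2 := by
  simp only [Lv, Qf, dotProduct, Matrix.mulVec, Pi.star_apply]
  fun_prop

theorem cHess_cont {f : Cm d → ℝ} {z : Cm d} (hf : ContDiffAt ℝ 2 f z) :
    ContinuousAt (cHess f) z := by
  have h1 : ContDiffAt ℝ 1 (fderiv ℝ fun y => (f y : ℂ)) z :=
    (Complex.ofRealCLM.contDiff.contDiffAt.comp z hf).fderiv_right (by norm_num)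
  refine continuousAt_pi.2 fun j => continuousAt_pi.2 fun k => ?_
  have h2 : ContDiffAt ℝ 1 (dzb k fun y => (f y : ℂ)) z :=
    ((h1.clm_apply contDiffAt_const).add
      (contDiffAt_const.mul (h1.clm_apply contDiffAt_const))).div_const _
  have h3 := (h2.fderiv_right (m := 0) (by norm_num)).continuousAt
  exact ((h3.clm_apply continuousAt_const).sub
    (continuousAt_const.mul (h3.clm_apply continuousAt_const))).div_const _

theorem dz_an {f : Cm d → ℂ} {z : Cm d} (hf : DifferentiableAt ℂ f z) (i : Fin d) :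
    dz i f z = fderiv ℂ f z (Pi.single i 1) := by
  have h2 : (Pi.single i Complex.I : Cm d) = Complex.I • Pi.single i 1 := by
    rw [← Pi.single_smul]
    simp
  unfold dz
  rw [hf.fderiv_restrictScalars ℝ, h2]
  simp only [ContinuousLinearMap.coe_restrictScalars', map_smul, smul_eq_mul]
  linear_combination -(fderiv ℂ f z (Pi.single i 1) / 2) * Complex.I_mul_I

theorem clm_sum (L : Cm d →L[ℂ] ℂ) (ξ : Cm d) : L ξ = ∑ i, L (Pi.single i 1) * ξ i := by
  conv_lhs => rw [← Finset.univ_sum_single ξ, map_sum]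
  refine Finset.sum_congr rfl fun i _ => ?_
  rw [mul_comm, ← smul_eq_mul, ← map_smul, ← Pi.single_smul, smul_eq_mul, mul_one]

variable {X : Type} [TopologicalSpace X] {e : Chart d X} {y : X}

theorem gr_dot {h : X → ℂ} (hh : DifferentiableAt ℂ (fun z => h (e.symm z)) (e y)) (ξ : Cm d) :
    gr h e y ⬝ᵥ ξ = fderiv ℂ (fun z => h (e.symm z)) (e y) ξ := by
  rw [clm_sum]
  exact Finset.sum_congr rfl fun i _ => by rw [gr, dz_an hh]

theorem gr_pi {n : ℕ} {π : X → Cm n} (h : AnalyticAt ℂ (fun z => π (e.symm z)) (e y)) (ξ : Cm d) :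
    (fun i => gr (fun y => π y i) e y ⬝ᵥ ξ) = fderiv ℂ (fun z => π (e.symm z)) (e y) ξ := by
  have h1 := fun i => (analyticAt_pi_iff.1 h i).differentiableAt
  funext i
  rw [gr_dot (h1 i), fderiv_pi h1]
  rfl

end Vb

open Vb in
theorem vb_of (h1 : CHN) (h2 : LHK) (h3 : MAXJ) : VB := by
  intro d n r X _ _ _ _ w s hw hs O π b R hT f c N hc hN hQ hK g G u x hx hG hu hl hE ζ
  have two : (2 : WithTop ℕ∞) ≤ ∞ := by norm_cast
  have hπ : ∀ y ∈ O, AnV d π y := fun y hy => AnV.pi (hT.ind y hy).1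
  set q : Cm n → ℝ := fun t => ∑ i, ‖t i - π x i‖ ^ 2 with hq
  have q2 : ContDiff ℝ 2 q := ContDiff.sum fun i _ =>
    ((contDiff_apply ℝ ℂ i).sub contDiff_const).norm_sq ℝ
  have key : ∀ η : ℝ, 0 < η → c * ∑ k, ‖fderiv ℂ (G k) (π x) ζ‖ ^ 2 ≤
      N * (Lv (cHess u (π x)) ζ + η * Lv (cHess q (π x)) ζ) := by
    intro η hη
    obtain ⟨x', a1, a2, a3⟩ := h3 n X O π (π x) f u (fun t => η * q t) x hT.opn
      (fun y hy => (hπ y hy).cont.continuousWithinAt)
      (nhdsWithin_le_nhds ((eventually_closedBall_subset (isOpen_ball.mem_nhds (hT.maps hx))).mono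
        fun ρ h => hT.prp _ h (isCompact_closedBall _ _)))
      (fun j y hy => (((hQ.sm j _ y (at_chart y) hy).continuousAt.comp ((chartAt (Cm d) y).continuousAt
        (at_chart y).2)).congr ((P277Z.At.left (at_chart y)).mono fun z hz =>
          congrArg (f j) hz)).continuousWithinAt)
      ((hu.eventually (by simp)).mono fun _ h => h.continuousAt)
      (continuous_const.mul q2.continuous) (by simp [hq]) (fun t ht => mul_pos hη (by
        obtain ⟨i, hi⟩ := Function.ne_iff.1 ht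
        exact Finset.sum_pos' (fun _ _ => by positivity) ⟨i, Finset.mem_univ _,
          pow_pos (norm_pos_iff.2 (sub_ne_zero.2 hi)) 2⟩))
      hx rfl hl (hE.mono fun t h y hy e => (h y hy e).1)
    have he := at_chart (n := d) x'
    set e := chartAt (Cm d) x'
    set v : Cm n → ℝ := fun t => u t + η * q t with hv
    have v2 : ContDiffAt ℝ 2 v (π x') := a2 ▸ hu.add (contDiffAt_const.mul q2.contDiffAt)
    obtain ⟨ξ, hξ⟩ := (P277Z.Slc.ind_iff_surj _).1 ((hT.ind x' a1).2 e he) ζ
    set D : X → Cm n := fun y => fderiv ℂ (fun z => π (e.symm z)) (e y) ξ with hD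
    have D0 : D x' = ζ := by
      rw [← hξ, hD]
      beta_reduce
      rw [fderiv_pi fun i => ((hT.ind x' a1).1 i e he).differentiableAt]
      rfl
    have cπ := (hπ x' a1).cont
    have ce := e.continuousAt he.2
    have cD : ContinuousAt D x' :=
      ((hπ x' a1 e he).fderiv.continuousAt.comp ce).clm_apply continuousAt_const
    have l1 : Tendsto (fun p : ℕ × X => c * ∑ k, ‖fderiv ℂ (G k) (π p.2) (D p.2)‖ ^ 2)
        (atTop ×ˢ 𝓝 x') (𝓝 (c * ∑ k, ‖fderiv ℂ (G k) (π x') (D x')‖ ^ 2)) :=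
      (Tendsto.comp (g := fun y => ∑ k, ‖fderiv ℂ (G k) (π y) (D y)‖ ^ 2) (tendsto_finsetSum _
        fun k _ => (((((a2 ▸ hG k : AnalyticAt ℂ (G k) (π x')).fderiv.continuousAt.comp
          cπ).clm_apply cD).norm).pow 2).tendsto) tendsto_snd).const_mul c
    have l2 : Tendsto (fun p : ℕ × X => N * (ep p.1 * Lv (w e (e p.2)) ξ +
        Lv (cHess v (π p.2)) (D p.2))) (atTop ×ˢ 𝓝 x')
        (𝓝 (N * (0 * Lv (w e (e x')) ξ + Lv (cHess v (π x')) (D x')))) := by
      have c1 : ContinuousAt (fun y => w e (e y)) x' := ContinuousAt.comp (g := w e)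
        (continuousAt_pi.2 fun i => continuousAt_pi.2 fun j =>
          (hw.smooth e x' he i j).continuousAt) ce
      refine (((tendsto_one_div_add_atTop_nhds_zero_nat.comp tendsto_fst).mul ?_).add ?_).const_mul N
      · exact (lv_cont.continuousAt.comp (c1.prodMk continuousAt_const)).tendsto.comp tendsto_snd
      · exact (lv_cont.continuousAt.comp
          (((cHess_cont v2).comp cπ).prodMk cD)).tendsto.comp tendsto_snd
    have l3 := (isClosed_Ici (a := (0 : ℝ))).mem_of_frequently_of_tendsto ?_ (l2.sub l1)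
    · rw [mem_Ici, sub_nonneg, D0, a2, zero_mul, zero_add, hv, cHess_add hu
        (contDiffAt_const.mul q2.contDiffAt), cHess_const_mul η q2.contDiffAt, lv_add,
        lv_smul] at l3
      exact l3
    refine (a3.and_eventually (tendsto_snd.eventually ((hT.opn.eventually_mem a1).and
      ((at_near he).and ((cπ.eventually (a2.symm ▸ hE)).eventually_nhds.and
        (cπ.eventually ((v2.eventually (by simp)).and (eventually_all.2 fun k =>
          (a2 ▸ hG k : AnalyticAt ℂ (G k) (π x')).eventually_analyticAt)))))))).mono ?_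
    rintro ⟨j, y⟩ ⟨b0, b1, b2, b3, b4, b5⟩
    dsimp only at b0 b1 b2 b3 b4 b5 ⊢
    have c1 := hπ y b1 e b2
    have c2 : ContDiffAt ℝ 2 v (π (e.symm (e y))) := by rwa [b2.left_inv]
    have c3 : ContDiffAt ℝ 2 (fun z => v (π (e.symm z))) (e y) :=
      ContDiffAt.comp (f := fun z => π (e.symm z)) _ c2 (c1.restrictScalars (𝕜 := ℝ)).contDiffAt
    have c4 := (hQ.sm j e y b2 b1).of_le two
    have c5 := P272.K.N.neg_cHess_posSemidef (c4.sub c3) (IsMaxFilter.comp_tendsto
      (f := fun y => f j y - v (π y)) (g := e.symm) (by rw [b2.left_inv]; exact b0)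
      (e.tendsto_symm b2.2))
    rw [cHess_sub c4 c3] at c5
    have c6 : ∀ ξ', Lv ((ep j : ℂ) • w e (e y) + ddc (f j) e (e y)) ξ' ≤
        ep j * Lv (w e (e y)) ξ' + Lv (cHess v (π y)) fun i => gr (fun y => π y i) e y ⬝ᵥ ξ' :=
      fun ξ' => by
        have := lv_le c5 ξ'
        rw [h1 n d v _ _ c2 c1, b2.left_inv] at this
        rw [lv_add, lv_smul, gr_pi c1]
        exact add_le_add_right this _
    have c7 : ∀ k ξ', gr (g k) e y ⬝ᵥ ξ' =
        fderiv ℂ (G k) (π y) (fderiv ℂ (fun z => π (e.symm z)) (e y) ξ') := fun k ξ' => by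
      have k1 : (fun z => g k (e.symm z)) =ᶠ[𝓝 (e y)] fun z => G k (π (e.symm z)) :=
        at_ev b2 ((b3.and (hT.opn.eventually_mem b1)).mono fun z hz => (hz.1 z hz.2 rfl).2.1 k)
      have k2 : HasFDerivAt (G k) (fderiv ℂ (G k) (π y)) (π (e.symm (e y))) := by
        rw [b2.left_inv]
        exact (b5 k).differentiableAt.hasFDerivAt
      have k3 := (k2.comp (e y) c1.differentiableAt.hasFDerivAt).congr_of_eventuallyEq k1
      rw [gr_dot k3.differentiableAt, k3.fderiv]
      rfl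
    have c8 := h2 d n r _ (w e (e y)) (s e (e y)) (cHess v (π y)) (ep j) c N
      (fun i => gr (fun y => π y i) e y) (fun k => gr (g k) e y)
      (isUnit_iff_ne_zero.2 (hs e y b2)) Nat.one_div_pos_of_nat hc (hK j e y b2 b1)
      (hT.com y b1 e b2) (fun k => ⟨fun i => fderiv ℂ (G k) (π y) (Pi.single i 1), funext fun a => by
        have := c7 k (Pi.single a 1)
        rw [dotProduct_single, mul_one, clm_sum, ← gr_pi c1] at this
        simpa [dotProduct_single] using this⟩) c6 ((b3.self_of_nhds y b1 rfl).2.2 e b2) ξ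
    simp only [c7] at c8
    have c9 := mul_le_mul_of_nonneg_left (c6 ξ) hN.le
    rw [gr_pi c1] at c9
    exact sub_nonneg.2 (c8.trans c9)
  refine ge_of_tendsto (f := fun η : ℝ => N * (Lv (cHess u (π x)) ζ + η * Lv (cHess q (π x)) ζ))
    (x := 𝓝[>] 0) (tendsto_nhdsWithin_of_tendsto_nhds ?_)
    (eventually_mem_nhdsWithin.mono key)
  exact Continuous.tendsto' (by fun_prop) _ _ (by simp)

end Vale.Agent.P301Z.Ho
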