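import Vale.Agent.P301Z.Ho.Defs
import Vale.Agent.P285K.EnvK
import Vale.Agent.P301.H599.ZL.Touch

/-!
# P301Z, Lemma H: the potential of the curvature, viscosity form of plurisubharmonicity
-/

open scoped Manifold ContDiff ComplexOrder Topology Matrix
open MeasureTheory Filter Set Metric
open Vale.Agent.P272.K Vale.Agent.P301.H599 Vale.Agent.P285Z
open Vale.Agent.P301.H98 (nrm)
open Vale.Agent.P301.H862 (powL)
open Vale.Agent.P301Z.Sa

set_option linter.all false

noncomputable section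

namespace Vale.Agent.P301Z.Ho

open Vale.Agent.P272.K.QN Vale.Agent.P301.H599.ZL in
/-- contact from above by a function of class two -/
theorem psd_of_touch2 {d : ℕ} {Ω : Set (Cm d)} (hΩ : IsOpen Ω) {v : Cm d → EReal} (hv : IsPSH Ω v)
    {f : Cm d → ℝ} {a : Cm d} (ha : a ∈ Ω) (hf2 : ContDiffAt ℝ 2 f a)
    (hva : ((f a : ℝ) : EReal) ≤ v a) (hle : ∀ᶠ z in 𝓝 a, v z ≤ ((f z : ℝ) : EReal)) :
    (cHess f a).PosSemidef := by
  have hH : (cHess f a).IsHermitian := cHess_isHermitian hf2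
  have hd : DifferentiableAt ℝ (fderiv ℝ f) a :=
    (hf2.fderiv_right (m := 1) (by norm_num)).differentiableAt (by norm_num)
  have hsym : ∀ v w, fderiv ℝ (fderiv ℝ f) a v w = fderiv ℝ (fderiv ℝ f) a w v := by
    have := hf2.isSymmSndFDerivAt (by simp)
    intro v w; exact this.eq v w
  refine Matrix.PosSemidef.of_dotProduct_mulVec_nonneg hH fun x => ?_
  rw [N.cHess_eq_lev hd, N.lev_quadratic hsym]
  set b : Cm d := star x with hb
  by_contra hneg
  rw [Complex.zero_le_real, not_le] at hneg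
  set q : Cm d → ℝ := fun z => fderiv ℝ (fderiv ℝ f) z b b +
    fderiv ℝ (fderiv ℝ f) z (Complex.I • b) (Complex.I • b) with hq
  have hqa : q a < 0 := by
    have : q a / 4 < 0 := hneg
    linarith
  -- continuity of `q`
  have hc2 : ContinuousAt (fun z => fderiv ℝ (fderiv ℝ f) z) a := by
    have h1 : ContDiffAt ℝ 1 (fderiv ℝ f) a := hf2.fderiv_right (m := 1) (by norm_num)
    exact (h1.fderiv_right (m := 0) (by norm_num)).continuousAt
  have hqc : ContinuousAt q a := by
    refine ContinuousAt.add ?_ ?_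
    · exact ((hc2.clm_apply continuousAt_const).clm_apply continuousAt_const)
    · exact ((hc2.clm_apply continuousAt_const).clm_apply continuousAt_const)
  have hev : ∀ᶠ z in 𝓝 a, q z < q a / 2 ∧ ContDiffAt ℝ 2 f z ∧ z ∈ Ω ∧
      v z ≤ ((f z : ℝ) : EReal) := by
    refine (hqc.eventually_lt_const (by linarith)).and ?_
    have h3 : ∀ᶠ z in 𝓝 a, z ∈ Ω := hΩ.mem_nhds ha
    exact (hf2.eventually (by simp)).and (h3.and hle)
  obtain ⟨R, hR, hball⟩ := Metric.nhds_basis_closedBall.mem_iff.1 hev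
  -- the disc
  set r : ℝ := R / (‖b‖ + 1) with hr
  have hr0 : 0 < r := by positivity
  have hin : ∀ ζ : ℂ, ‖ζ‖ ≤ 1 → a + ζ • ((r : ℂ) • b) ∈ closedBall a R := by
    intro ζ hζ
    rw [mem_closedBall, dist_eq_norm, add_sub_cancel_left, norm_smul, norm_smul, Complex.norm_real,
      Real.norm_of_nonneg hr0.le]
    have h1 : r * ‖b‖ ≤ R := by
      rw [hr, div_mul_eq_mul_div, div_le_iff₀ (by positivity)]
      nlinarith [norm_nonneg b]
    calc ‖ζ‖ * (r * ‖b‖) ≤ 1 * (r * ‖b‖) := by gcongr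
      _ ≤ R := by linarith
  have hprop := fun ζ hζ => hball (hin ζ hζ)
  have hscale : ∀ z, ContDiffAt ℝ 2 f z → fderiv ℝ (fderiv ℝ f) z ((r : ℂ) • b) ((r : ℂ) • b) +
      fderiv ℝ (fderiv ℝ f) z (Complex.I • (r : ℂ) • b) (Complex.I • (r : ℂ) • b) =
      r ^ 2 * q z := by
    intro z hz
    have e1 : ((r : ℂ) • b : Cm d) = r • b := by ext i; simp
    have e2 : (Complex.I • (r : ℂ) • b : Cm d) = r • (Complex.I • b) := by
      ext i; simp; ring
    rw [e2, e1]
    simp only [map_smul, ContinuousLinearMap.smul_apply, smul_eq_mul, hq]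
    ring
  have key := H86.circle_submean_dir (f := fun z => -f z) (p := a) (w := (r : ℂ) • b)
    (a := r ^ 2 * q a / 8)
    (fun ζ hζ => (hprop ζ (by simpa using hζ)).2.1.neg)
    (fun ζ hζ => by
      have h1 := hprop ζ (by simpa using hζ)
      have h2 := hscale _ h1.2.1
      have e1 : fderiv ℝ (fun z => -f z) = fun z => -fderiv ℝ f z := by
        funext z; exact fderiv_fun_neg
      rw [e1, fderiv_fun_neg]
      simp only [ContinuousLinearMap.neg_apply]
      have h3 : r ^ 2 * q (a + ζ • (r : ℂ) • b) ≤ r ^ 2 * (q a / 2) :=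
        mul_le_mul_of_nonneg_left h1.1.le (by positivity)
      linarith)
  -- the submean inequality of `v`
  set g : ℂ → ℝ := fun ζ => f (a + retr ζ • ((r : ℂ) • b)) with hg
  have hgc : Continuous g := by
    rw [continuous_iff_continuousAt]
    intro ζ
    have h1 := (hprop _ (norm_retr_le ζ)).2.1.continuousAt
    have h2 : ContinuousAt (fun ζ : ℂ => a + retr ζ • ((r : ℂ) • b)) ζ := by
      exact continuousAt_const.add (continuous_retr.continuousAt.smul continuousAt_const)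
    exact ContinuousAt.comp (f := fun ζ : ℂ => a + retr ζ • ((r : ℂ) • b)) h1 h2
  have h5 := hv.2.2 a ((r : ℂ) • b) (fun ζ hζ => (hprop ζ hζ).2.2.1) g hgc (fun ζ hζ => by
    rw [hg]
    simp only [retr_of_norm hζ]
    exact (hprop ζ hζ.le).2.2.2)
  have h6 : f a ≤ Real.circleAverage g 0 1 := EReal.coe_le_coe_iff.1 (hva.trans h5)
  rw [Real.circleAverage_def] at h6
  have e2 : (∫ θ in (0:ℝ)..2 * Real.pi, g (circleMap 0 1 θ)) =
      ∫ θ in (0:ℝ)..2 * Real.pi, f (a + Complex.exp (θ * Complex.I) • ((r : ℂ) • b)) := by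
    refine intervalIntegral.integral_congr fun θ _ => ?_
    have h7 : ‖circleMap 0 1 θ‖ = 1 := by simp
    simp only [hg, retr_of_norm h7]
    simp only [circleMap, zero_add, Complex.ofReal_one, one_mul]
  have hper : Function.Periodic (fun θ : ℝ => f (a + Complex.exp (θ * Complex.I) • ((r : ℂ) • b)))
      (2 * Real.pi) := by
    intro θ
    simp only []
    congr 3
    push_cast
    rw [add_mul, Complex.exp_add, Complex.exp_two_pi_mul_I, mul_one]
  have e1 := hper.intervalIntegral_add_eq (-Real.pi) 0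
  rw [zero_add, show -Real.pi + 2 * Real.pi = Real.pi by ring] at e1
  rw [e2, smul_eq_mul, ← e1] at h6
  rw [intervalIntegral.integral_neg] at key
  set J := ∫ θ in (-Real.pi)..Real.pi, f (a + Complex.exp (θ * Complex.I) • ((r : ℂ) • b))
  have hpi : 0 < 2 * Real.pi := by positivity
  have h8 : 2 * Real.pi * f a ≤ J := by
    rw [inv_mul_eq_div, le_div_iff₀ hpi] at h6
    linarith
  have h9 : 2 * Real.pi * (r ^ 2 * q a / 8) < 0 :=
    mul_neg_of_pos_of_neg hpi (by nlinarith [pow_pos hr0 2])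
  linarith

theorem pot_eq {d : ℕ} {X : Type} [TopologicalSpace X] [ChartedSpace (Cm d) X] {ι : Type}
    {L : LineBundle d X ι} {ρ : ι → X → ℝ} (hρ : IsMetric L ρ) {a : ℕ} {U : Set X} {e : ι → X → ℂ}
    (ha : 0 < a) (hg : Gen L a U e) {i : ι} {x : X} (hx : x ∈ U) (hi : x ∈ L.U i) :
    pot L ρ a e x = ρ i x - (a : ℝ)⁻¹ * Real.log (‖e i x‖ ^ 2) := by
  have hj : x ∈ L.U (L.cover x).choose := (L.cover x).choose_spec
  show -(Real.log (‖e (L.cover x).choose x‖ ^ 2 *
    Real.exp (-((a : ℝ) * ρ (L.cover x).choose x))) / a) = _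
  generalize (L.cover x).choose = j at hj
  have h1 : ‖e j x‖ ≠ 0 := norm_ne_zero_iff.2 (hg.ne j x hx hj)
  have h2 : ‖L.g i j x‖ ≠ 0 := norm_ne_zero_iff.2 (L.ne_zero i j x hi hj)
  have h3 : (a : ℝ) ≠ 0 := by exact_mod_cast ha.ne'
  rw [Real.log_mul (pow_ne_zero 2 h1) (Real.exp_ne_zero _), Real.log_exp, hg.chg i j x hx hi hj,
    hρ.change i j x hi hj, norm_mul, norm_pow, mul_pow,
    Real.log_mul (pow_ne_zero 2 (pow_ne_zero a h2)) (pow_ne_zero 2 h1)]
  simp only [Real.log_pow]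
  field_simp
  ring

theorem pot_ok : POT := by
  intro d X _ _ _ ι L ρ hρ a U e ha hU hg c x hc hx
  obtain ⟨i, hi⟩ := L.cover x
  have h0 : ∀ᶠ z in 𝓝 (c x), c.symm z ∈ U ∧ c.symm z ∈ L.U i := by
    refine (c.continuousAt_symm hc.mem_target).eventually (p := fun y => y ∈ U ∧ y ∈ L.U i) ?_
    rw [hc.left_inv]
    exact Filter.inter_mem (hU.mem_nhds hx) ((L.isOpen i).mem_nhds hi)
  have h1 : (fun z => pot L ρ a e (c.symm z)) =ᶠ[𝓝 (c x)]
      fun z => ρ i (c.symm z) - (a : ℝ)⁻¹ * Real.log (‖e i (c.symm z)‖ ^ 2) := by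
    filter_upwards [h0] with z hz using pot_eq hρ ha hg hz.1 hz.2
  have h2 : ContDiffAt ℂ ω (fun z => e i (c.symm z)) (c x) := (hg.hol i x hx hi c hc).contDiffAt
  have h3 : e i (c.symm (c x)) ≠ 0 := by
    rw [hc.left_inv]
    exact hg.ne i x hx hi
  have h4 : ContDiffAt ℝ ∞ (fun z => Real.log (‖e i (c.symm z)‖ ^ 2)) (c x) :=
    (((h2.restrict_scalars ℝ).of_le le_top).norm_sq ℝ).log
      (pow_ne_zero 2 (norm_ne_zero_iff.2 h3))
  have h5 := hρ.smooth i c x hc hi
  refine ⟨(h5.sub (contDiffAt_const.mul h4)).congr_of_eventuallyEq h1, ?_⟩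
  have h6 : ContDiffAt ℝ 2 (fun z => Real.log (‖e i (c.symm z)‖ ^ 2)) (c x) :=
    h4.of_le (by norm_cast)
  rw [curvature_eq hρ hc hi]
  unfold ddc
  rw [cHess_congr h1, cHess_sub (h5.of_le (by norm_cast)) (contDiffAt_const.mul h6),
    cHess_const_mul _ h6, cHess_log_norm_sq h2 h3, smul_zero, sub_zero]

theorem vis0 : VIS0 := by
  intro d X _ _ _ _ _ w hw ι L ρ hρ φ hφ x t ht e he
  obtain ⟨i, hi⟩ := L.cover x
  have h1 : ContDiffAt ℝ 2 (fun z => ρ i (e.symm z)) (e x) :=
    (hρ.smooth i e x he hi).of_le (by norm_cast)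
  have h2 := psd_of_touch2 (Vale.Agent.P301.H599.isOpen_dom L i e)
    (Vale.Agent.P285K.psh_LS_w hw hρ hφ i he.1)
    (f := fun z => t (e.symm z) + ρ i (e.symm z)) (a := e x)
    ⟨he.mem_target, by rw [mem_preimage, he.left_inv]; exact hi⟩ ((ht.c2 e he).add h1)
    (by
      rw [EReal.coe_add, he.left_inv]
      exact add_le_add ht.ge le_rfl)
    (by
      have h3 : ∀ᶠ z in 𝓝 (e x), LS φ (e.symm z) ≤ (t (e.symm z) : EReal) := by
        refine (e.continuousAt_symm he.mem_target).eventually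
          (p := fun y => LS φ y ≤ (t y : EReal)) ?_
        rw [he.left_inv]
        exact ht.le
      filter_upwards [h3] with z hz
      rw [EReal.coe_add]
      exact add_le_add hz le_rfl)
  rw [cHess_add (ht.c2 e he) h1, add_comm] at h2
  rw [curvature_eq hρ he hi]
  exact h2

end Vale.Agent.P301Z.Ho
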