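import Vale.Agent.P301Z.Ho.Defs
import Vale.Agent.P285K.EnvK

/-! # P301Z, Lemma H: the viscosity inequality across a thin set -/

open scoped Manifold ContDiff ComplexOrder Topology Matrix
open Filter Set Metric
open Vale.Agent.P272.K Vale.Agent.P301.H599

set_option linter.all false

noncomputable section

namespace Vale.Agent.P301Z.Ho

namespace VistX

variable {d : ℕ} {z₀ : Cm d} {U : Cm d → EReal} {τ : Cm d → ℝ} {f : Cm d → ℂ}
  {A : Cm d → Matrix (Fin d) (Fin d) ℂ}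

theorem closed_psd : IsClosed {M : Matrix (Fin d) (Fin d) ℂ | M.PosSemidef} := by
  simp only [Matrix.posSemidef_iff_dotProduct_mulVec, setOf_and, setOf_forall]
  exact (isClosed_eq continuous_id.matrix_conjTranspose continuous_id).inter
    (isClosed_iInter fun x => isClosed_le continuous_const
      (continuous_const.dotProduct (continuous_id.matrix_mulVec continuous_const)))

theorem add_le (a : EReal) (h c : ℝ) : a + h ≤ c ↔ a ≤ ((c - h : ℝ) : EReal) := by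
  induction a using EReal.rec with
  | bot => simp
  | top => simp [← EReal.coe_sub]
  | coe a => rw [← EReal.coe_add, EReal.coe_le_coe_iff, EReal.coe_le_coe_iff, le_sub_iff_add_le]

theorem exists_dir (hf : AnalyticAt ℂ f z₀) (h : ¬ ∀ᶠ z in 𝓝 z₀, f z = 0) :
    ∃ v : Cm d, ∀ᶠ ζ in 𝓝[≠] (0 : ℂ), f (z₀ + ζ • v) ≠ 0 := by
  obtain ⟨r, hr, hb⟩ := nhds_basis_ball.mem_iff.1 hf.eventually_analyticAt
  obtain ⟨z, h1, h2⟩ := ((not_eventually.1 h).and_eventually (ball_mem_nhds z₀ hr)).exists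
  have h3 : AnalyticOnNhd ℂ (fun ζ : ℂ => f (z₀ + ζ • (z - z₀))) (closedBall 0 1) := by
    intro ζ hζ
    refine AnalyticAt.comp (g := f) (hb ?_) (by fun_prop)
    rw [mem_ball_iff_norm, add_sub_cancel_left, norm_smul]
    exact (mul_le_of_le_one_left (norm_nonneg _) (mem_closedBall_zero_iff.1 hζ)).trans_lt
      (mem_ball_iff_norm.1 h2)
  have h0 : (0 : ℂ) ∈ closedBall (0 : ℂ) 1 := mem_closedBall_self zero_le_one
  refine ⟨z - z₀, (h3 0 h0).eventually_eq_zero_or_eventually_ne_zero.resolve_left fun h4 => h1 ?_⟩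
  simpa using h3.eqOn_zero_of_preconnected_of_eventuallyEq_zero
    (convex_closedBall _ _).isPreconnected h0 h4 (x := 1) (by simp)

theorem freq {Ω : Set (Cm d)} (hΩ : Ω ∈ 𝓝 z₀) {b : Cm d → ℝ} (hb : ContinuousAt b z₀)
    (hP : IsPSH Ω fun z => U z + (b z : EReal)) (hτ : ContinuousAt τ z₀)
    (h0 : (τ z₀ : EReal) ≤ U z₀) (hf : AnalyticAt ℂ f z₀) (h : ¬ ∀ᶠ z in 𝓝 z₀, f z = 0)
    (η : ℝ) (hη : 0 < η) : ∃ᶠ z in 𝓝 z₀, f z ≠ 0 ∧ ((τ z - η : ℝ) : EReal) < U z := by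
  intro hc
  obtain ⟨v, hv⟩ := exists_dir hf h
  have h1 : ∀ᶠ z in 𝓝 z₀, z ∈ Ω ∧
      (f z ≠ 0 → U z + (b z : EReal) ≤ ((τ z₀ + b z₀ - η / 2 : ℝ) : EReal)) := by
    filter_upwards [hc, hΩ, (hτ.add hb).eventually_lt_const
      (show τ z₀ + b z₀ < τ z₀ + b z₀ + η / 2 by linarith)] with z k1 k2 k3
    refine ⟨k2, fun k4 => (add_le _ _ _).2 ((not_lt.1 fun k5 => k1 ⟨k4, k5⟩).trans ?_)⟩
    have k6 : τ z + b z < τ z₀ + b z₀ + η / 2 := k3
    exact EReal.coe_le_coe_iff.2 (by linarith)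
  have h2 : Tendsto (fun ζ : ℂ => z₀ + ζ • v) (𝓝 0) (𝓝 z₀) :=
    Continuous.tendsto' (by fun_prop) _ _ (by simp)
  obtain ⟨s, hs, h3⟩ := nhds_basis_closedBall.mem_iff.1
    ((h2.eventually h1).and (eventually_nhdsWithin_iff.1 hv))
  have h4 : ∀ ζ : ℂ, ‖ζ‖ ≤ 1 → ζ * s ∈ closedBall (0 : ℂ) s := fun ζ hζ => by
    rw [mem_closedBall_zero_iff, norm_mul, Complex.norm_real, Real.norm_of_nonneg hs.le]
    exact mul_le_of_le_one_left hs.le hζ
  have h5 := hP.2.2 z₀ ((s : ℂ) • v) (fun ζ hζ => by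
      rw [smul_smul]
      exact (h3 (h4 ζ hζ)).1.1) (fun _ => τ z₀ + b z₀ - η / 2) continuous_const fun ζ hζ => by
    rw [smul_smul]
    exact (h3 (h4 ζ hζ.le)).1.2 ((h3 (h4 ζ hζ.le)).2 (mul_ne_zero
      (norm_ne_zero_iff.1 (by rw [hζ]; exact one_ne_zero)) (Complex.ofReal_ne_zero.2 hs.ne')))
  rw [Real.circleAverage_const, add_le] at h5
  have h6 := EReal.coe_le_coe_iff.1 (h0.trans h5)
  linarith

/-- the viscosity inequality at `z` -/
def V (U : Cm d → EReal) (A : Cm d → Matrix (Fin d) (Fin d) ℂ) (z : Cm d) : Prop :=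
  ∀ σ : Cm d → ℝ, ContDiffAt ℝ 2 σ z → (σ z : EReal) ≤ U z → (∀ᶠ y in 𝓝 z, U y ≤ σ y) →
    (A z + cHess σ z).PosSemidef

theorem step (hU : ∀ᶠ z in 𝓝 z₀, UpperSemicontinuousAt U z) (hτ : ContDiffAt ℝ 2 τ z₀)
    (hle : ∀ᶠ z in 𝓝 z₀, U z ≤ τ z) (hf : AnalyticAt ℂ f z₀)
    (ha : ∀ η, 0 < η → ∃ᶠ z in 𝓝 z₀, f z ≠ 0 ∧ ((τ z - η : ℝ) : EReal) < U z)
    (hV : ∀ᶠ z in 𝓝 z₀, f z ≠ 0 → V U A z) {η : ℝ} (hη : 0 < η) :
    ∃ᶠ z in 𝓝 z₀, (A z + cHess τ z + (η : ℂ) • (1 : Matrix (Fin d) (Fin d) ℂ)).PosSemidef := by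
  refine frequently_iff.2 fun {W} hW => ?_
  have hq : ContDiff ℝ 2 (AMP.sq z₀) := (AMP.contDiff_sq z₀).of_le (by norm_cast)
  obtain ⟨r, hr, hb⟩ := nhds_basis_closedBall.mem_iff.1 ((hU.and (hτ.eventually (by simp))).and
    ((hle.and hf.eventually_analyticAt).and ((hV.and (show ∀ᶠ z in 𝓝 z₀, z ∈ W from hW)).and
      (hf.continuousAt.norm.eventually_lt_const (lt_add_one _)))))
  have hr2 : 0 < η * r ^ 2 := by positivity
  obtain ⟨z₁, ⟨a1, a2⟩, a3, a4⟩ := ((ha (η * r ^ 2 / 4) (by positivity)).and_eventually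
    ((hq.continuous.continuousAt.eventually_lt_const (show AMP.sq z₀ z₀ < r ^ 2 / 4 by
      simp only [AMP.sq, sub_self, map_zero, Finset.sum_const_zero]
      positivity)).and (closedBall_mem_nhds z₀ hr))).exists
  obtain ⟨L, hL⟩ : ∃ L, ∀ z ∈ closedBall z₀ r, f z ≠ 0 → Real.log (‖f z‖ ^ 2) ≤ L :=
    ⟨_, fun z hz h => Real.log_le_log (by positivity)
      (pow_le_pow_left₀ (norm_nonneg _) (hb hz).2.2.2.le 2)⟩
  have hD := sub_nonneg.2 (hL z₁ a4 a1)
  obtain ⟨ε, hε, hε'⟩ : ∃ ε, 0 < ε ∧ ε * (L - Real.log (‖f z₁‖ ^ 2)) ≤ η * r ^ 2 / 4 := by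
    refine ⟨η * r ^ 2 / 4 / (L - Real.log (‖f z₁‖ ^ 2) + 1), by positivity, ?_⟩
    rw [div_mul_eq_mul_div, div_le_iff₀ (by positivity)]
    nlinarith
  let δ := min (‖f z₁‖ ^ 2) (Real.exp (L - η * r ^ 2 / ε))
  have hδ : 0 < δ := lt_min (by positivity) (Real.exp_pos _)
  let K := closedBall z₀ r ∩ (fun z => ‖f z‖ ^ 2) ⁻¹' Ici δ
  have hne : ∀ z ∈ K, f z ≠ 0 := fun z hz h => by
    have k : δ ≤ ‖f z‖ ^ 2 := hz.2
    rw [h, norm_zero] at k
    linarith
  have hl : ∀ z ∈ K, ContDiffAt ℝ 2 (fun y => Real.log (‖f y‖ ^ 2)) z := fun z hz =>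
    (((hb hz.1).2.1.2.contDiffAt.restrict_scalars ℝ).norm_sq ℝ).log
      (pow_ne_zero 2 (norm_ne_zero_iff.2 (hne z hz)))
  let h : Cm d → ℝ := fun z => -τ z - η * AMP.sq z₀ z + ε * (Real.log (‖f z‖ ^ 2) - L)
  have hK : IsCompact K := (isCompact_closedBall _ _).of_isClosed_subset
    (ContinuousOn.preimage_isClosed_of_isClosed
      (fun z hz => ((hb hz).2.1.2.continuousAt.norm.pow 2).continuousWithinAt)
      isClosed_closedBall isClosed_Ici) inter_subset_left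
  have h1 : z₁ ∈ K := ⟨a4, (min_le_left _ _ : δ ≤ ‖f z₁‖ ^ 2)⟩
  obtain ⟨z, hz, hm⟩ := UpperSemicontinuousOn.exists_isMaxOn (f := fun z => U z + (h z : EReal))
    ⟨z₁, h1⟩ hK fun z hz => (UpperSemicontinuousAt.add' (hb hz.1).1.1
      (continuous_coe_real_ereal.continuousAt.comp (((hb hz.1).1.2.continuousAt.neg.sub
        (continuousAt_const.mul hq.continuous.continuousAt)).add (continuousAt_const.mul
          ((hl z hz).continuousAt.sub continuousAt_const)))).upperSemicontinuousAt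
      (EReal.continuousAt_add (Or.inr (EReal.coe_ne_bot _)) (Or.inr (EReal.coe_ne_top _)))
        ).upperSemicontinuousWithinAt K
  have b1 : ((-(η * r ^ 2) : ℝ) : EReal) < U z + (h z : EReal) := by
    refine lt_of_lt_of_le (not_le.1 fun k => ?_) (hm h1)
    have k2 := EReal.coe_lt_coe_iff.1 (a2.trans_le ((add_le _ _ _).1 k))
    simp only [h] at k2
    nlinarith
  have b2 := (hb hz.1).2.1.1
  obtain ⟨u, hu⟩ : ∃ u : ℝ, U z = u := by
    refine ⟨(U z).toReal, (EReal.coe_toReal (ne_top_of_le_ne_top (EReal.coe_ne_top _) b2) ?_).symm⟩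
    intro k
    rw [k, EReal.bot_add] at b1
    exact not_lt_bot b1
  rw [hu, ← EReal.coe_add, EReal.coe_lt_coe_iff] at b1
  rw [hu, EReal.coe_le_coe_iff] at b2
  have b3 := mul_nonneg hε.le (sub_nonneg.2 (hL z hz.1 (hne z hz)))
  have b4 := mul_nonneg hη.le (AMP.normSq_sum_nonneg470 z₀ z)
  have b5 : z ∈ ball z₀ r := by
    have k : AMP.sq z₀ z < r ^ 2 := by
      simp only [h] at b1
      nlinarith
    refine (dist_pi_lt_iff hr).2 fun i => ?_
    have k2 : Complex.normSq (z i - z₀ i) ≤ AMP.sq z₀ z :=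
      Finset.single_le_sum (f := fun i => Complex.normSq (z i - z₀ i))
        (fun i _ => Complex.normSq_nonneg _) (Finset.mem_univ i)
    rw [Complex.normSq_eq_norm_sq] at k2
    rw [dist_eq_norm]
    exact lt_of_pow_lt_pow_left₀ 2 hr.le (k2.trans_lt k)
  have b6 : δ < ‖f z‖ ^ 2 := by
    refine (min_le_right _ _).trans_lt ((Real.lt_log_iff_exp_lt (hδ.trans_le hz.2)).1 ?_)
    rw [sub_lt_comm, lt_div_iff₀ hε]
    simp only [h] at b1
    nlinarith
  have b7 : ∀ᶠ y in 𝓝 z, y ∈ K := by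
    filter_upwards [isOpen_ball.mem_nhds b5,
      ((hb hz.1).2.1.2.continuousAt.norm.pow 2).eventually_const_lt b6] with y k1 k2
    exact ⟨ball_subset_closedBall k1, k2.le⟩
  have c1 := (hb hz.1).1.2
  have c2 : ContDiffAt ℝ 2 (fun y => η * AMP.sq z₀ y) z := contDiffAt_const.mul hq.contDiffAt
  have c3 : ContDiffAt ℝ 2 (fun y => -ε * Real.log (‖f y‖ ^ 2)) z :=
    contDiffAt_const.mul (hl z hz)
  have key := (hb hz.1).2.2.1.1 (hne z hz) (fun y => τ y + (η * AMP.sq z₀ y +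
    (-ε * Real.log (‖f y‖ ^ 2) + (u + h z + ε * L)))) (c1.add (c2.add (c3.add contDiffAt_const)))
    (by rw [hu]; exact EReal.coe_le_coe_iff.2 (le_of_eq (by simp only [h]; ring))) (by
      filter_upwards [b7] with y hy
      have k : U y + (h y : EReal) ≤ U z + (h z : EReal) := hm hy
      rw [hu, ← EReal.coe_add, add_le] at k
      exact k.trans (EReal.coe_le_coe_iff.2 (le_of_eq (by simp only [h]; ring))))
  rw [C2.cHess_add c1 (c2.add (c3.add contDiffAt_const)),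
    C2.cHess_add c2 (c3.add contDiffAt_const), C2.cHess_add c3 contDiffAt_const,
    C2.cHess_const_mul _ hq.contDiffAt, C2.cHess_const_mul _ (hl z hz), AMP.cHess_sq,
    cHess_log_norm_sq (hb hz.1).2.1.2.contDiffAt (hne z hz), C2.cHess_const, smul_zero, add_zero,
    add_zero, ← add_assoc] at key
  exact ⟨z, (hb hz.1).2.2.1.2, key⟩

theorem lim (hA : ContinuousAt A z₀) (hτ : ContDiffAt ℝ 2 τ z₀) (h : ∀ η : ℝ, 0 < η →
    ∃ᶠ z in 𝓝 z₀, (A z + cHess τ z + (η : ℂ) • (1 : Matrix (Fin d) (Fin d) ℂ)).PosSemidef) :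
    (A z₀ + cHess τ z₀).PosSemidef := by
  have h1 : ContinuousAt (cHess τ) z₀ := continuousAt_pi.2 fun i => continuousAt_pi.2 fun j =>
    (C2.contDiffAt_cHess (m := 0) hτ (by norm_num) i j).continuousAt
  have h2 : Tendsto (fun η : ℝ => A z₀ + cHess τ z₀ + (η : ℂ) • (1 : Matrix (Fin d) (Fin d) ℂ))
      (𝓝[>] 0) (𝓝 (A z₀ + cHess τ z₀)) :=
    (Continuous.tendsto' (by fun_prop) _ _ (by simp)).mono_left nhdsWithin_le_nhds
  exact closed_psd.mem_of_tendsto h2 (eventually_mem_nhdsWithin.mono fun η hη =>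
    closed_psd.mem_of_frequently_of_tendsto (h η hη) ((hA.add h1).add continuousAt_const))

end VistX

open VistX

theorem vist : VIST := by
  intro d X _ _ _ _ _ w hw ι L ρ hρ φ hφ T O a hT hO ha hV x hx t ht e he
  obtain ⟨k, g, g1, g2⟩ := hT.1 x
  obtain ⟨i, hi⟩ := L.cover x
  have hs : Tendsto e.symm (𝓝 (e x)) (𝓝 x) := e.tendsto_symm he.2
  obtain ⟨j, hj⟩ : ∃ j, ¬ ∀ᶠ z in 𝓝 (e x), g j (e.symm z) = 0 := by
    by_contra hc
    have h1 : ∀ᶠ y in 𝓝 x, y ∈ T := by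
      filter_upwards [g2, (e.continuousAt he.2).eventually (eventually_all.2 fun j =>
        not_not.1 (not_exists.1 hc j)), e.open_source.mem_nhds he.2] with y k1 k2 k3
      exact k1.2 fun j => by simpa only [e.left_inv k3] using k2 j
    obtain ⟨y, k1, k2⟩ := ((mem_closure_iff_frequently.1 (hT.2 x)).and_eventually h1).exists
    exact k1 k2
  have hρ' := (hρ.smooth i e x he hi).continuousAt
  refine lim (A := a e) (ha e x he hx) (ht.c2 e he) fun η hη =>
    step (U := fun z => LS φ (e.symm z)) ?_ (ht.c2 e he) (hs.eventually ht.le) (g1 j e he)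
      (freq (inter_mem he.nhds_target (hs ((L.isOpen i).mem_nhds hi))) hρ'
        (P285K.psh_LS_w hw hρ hφ i he.1) (ht.c2 e he).continuousAt
        (by simpa only [he.left_inv] using ht.ge) (g1 j e he) hj) ?_ hη
  · filter_upwards [he.nhds_target] with z hz s hs'
    exact (e.continuousAt_symm hz).eventually (usc_LS φ _ s hs')
  · filter_upwards [he.nhds_target, hs.eventually g2, hs (hO.mem_nhds hx)] with z hz k1 k2 k3
      σ s1 s2 s3
    have hy := At.of_target he.1 hz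
    have e1 := e.right_inv hz
    have k4 := hV _ k2 (fun k => k3 (k1.1 k j)) (fun y => σ (e y)) ⟨fun e' he' => ?_, by
      simpa only [e1] using s2, ?_⟩ e hy
    · rw [e1] at k4
      rwa [← C2.cHess_congr (u := fun y => σ (e (e.symm y))) (by
        filter_upwards [e.open_target.mem_nhds hz] with y hy using by rw [e.right_inv hy])]
    · refine ContDiffAt.comp (g := σ) _ ?_ (((transition he' hy).restrict_scalars ℝ).of_le le_top)
      rwa [he'.left_inv, e1]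
    · rw [← e1] at s3
      filter_upwards [(e.continuousAt hy.2).eventually s3, e.open_source.mem_nhds hy.2]
        with y k5 k6
      rwa [e.left_inv k6] at k5

end Vale.Agent.P301Z.Ho
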