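import Vale.Agent.P301Z.Ho.Chn
import Vale.Agent.P281Z.Mf.Loc

/-!
# P301Z, Lemma H: the viscosity inequality on a tube
-/

open scoped Manifold ContDiff ComplexOrder Topology Matrix
open Filter Set Metric
open Vale.Agent.P272.K Vale.Agent.P301.H599 Vale.Agent.P285Z
open Vale.Agent.P277Z (Hol)
open Vale.Agent.P277Z.Slc (Ind)
open Vale.Agent.P301Z.Sa

noncomputable section

namespace Vale.Agent.P301Z.Ho

variable {d n : ℕ} {X : Type} [TopologicalSpace X] [ChartedSpace (Cm d) X]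
  [IsManifold 𝓘(ℂ, Cm d) ω X]

/-- local sections with a given tangent vector -/
theorem exists_sect {π : X → Cm n} {x : X} (hi : Ind d (fun j y => π y j) x) {e : Chart d X}
    (he : At e x) (ξ : Cm d) : ∃ τ : Cm n → Cm d, AnalyticAt ℂ τ (π x) ∧ τ (π x) = e x ∧
      (∀ᶠ b in 𝓝 (π x), π (e.symm (τ b)) = b) ∧
      (fderiv ℂ (fun z => π (e.symm z)) (e x) ξ ≠ 0 →
        fderiv ℂ τ (π x) (fderiv ℂ (fun z => π (e.symm z)) (e x) ξ) = ξ) := by
  obtain ⟨k, hk⟩ := Nat.exists_eq_add_of_le (P281Z.ind_le hi)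
  obtain ⟨Θ, h1, h2, -, h4⟩ := P281Z.exists_co hi hk.symm univ_mem
  set ζ := fderiv ℂ (fun z => π (e.symm z)) (e x) ξ with hζ
  have hx : Θ.symm (Θ x) = x := Θ.left_inv h2
  have hP : AnalyticAt ℂ (fun v => e (Θ.symm v)) (Θ x) :=
    h1.inv _ (Θ.map_source h2) e (by rw [hx]; exact he)
  have hQ : AnalyticAt ℂ (fun z => Θ (e.symm z)) (e x) := h1.an x h2 e he
  have hex : e.symm (e x) = x := e.left_inv he.2
  have hn : ∀ᶠ z in 𝓝 (e x), z ∈ e.target ∧ e.symm z ∈ Θ.source := by
    refine (e.open_target.eventually_mem (e.map_source he.2)).and ?_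
    refine (e.continuousAt_symm (e.map_source he.2)).eventually ?_
    rw [hex]
    exact Θ.open_source.mem_nhds h2
  set v := fderiv ℂ (fun z => Θ (e.symm z)) (e x) ξ with hv
  have e1 : fderiv ℂ (fun v => e (Θ.symm v)) (Θ x) v = ξ := by
    have k1 : (fun z => e (Θ.symm (Θ (e.symm z)))) =ᶠ[𝓝 (e x)] id := by
      filter_upwards [hn] with z hz
      rw [Θ.left_inv hz.2, e.right_inv hz.1, id]
    have k2 := (HasFDerivAt.comp (e x) (g := fun v => e (Θ.symm v)) (f := fun z => Θ (e.symm z))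
      (by rw [hex]; exact hP.differentiableAt.hasFDerivAt) hQ.differentiableAt.hasFDerivAt).fderiv
    have k3 := k1.fderiv_eq (𝕜 := ℂ)
    rw [fderiv_id] at k3
    exact (congrArg (fun T => T ξ) (k2.symm.trans k3) :)
  have e2 : v.1 = ζ := by
    have k1 : (fun z => π (e.symm z)) =ᶠ[𝓝 (e x)] fun z => (Θ (e.symm z)).1 := by
      filter_upwards [hn] with z hz
      rw [h4 _ hz.2]
    rw [hζ, k1.fderiv_eq, hQ.differentiableAt.hasFDerivAt.fst.fderiv]
    rfl
  obtain ⟨A, hA⟩ : ∃ A : Cm n →L[ℂ] Cm k, ζ ≠ 0 → A ζ = v.2 := by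
    by_cases h0 : ζ = 0
    · exact ⟨0, fun h => absurd h0 h⟩
    obtain ⟨i, hi⟩ := Function.ne_iff.1 h0
    refine ⟨(ContinuousLinearMap.proj i).smulRight ((ζ i)⁻¹ • v.2), fun _ => ?_⟩
    rw [ContinuousLinearMap.smulRight_apply, smul_smul]
    show (ζ i * (ζ i)⁻¹) • v.2 = v.2
    rw [mul_inv_cancel₀ hi, one_smul]
  set j : Cm n → Cm n × Cm k := fun b => (b, (Θ x).2 + A (b - π x)) with hj
  have j0 : j (π x) = Θ x := by
    simp only [hj, sub_self, map_zero, add_zero]
    exact Prod.ext (h4 x h2).symm rfl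
  have j1 : AnalyticAt ℂ j (π x) := analyticAt_id.prod
    (analyticAt_const.add ((A.analyticAt _).fun_comp (analyticAt_id.sub analyticAt_const)))
  have j2 : HasFDerivAt j ((ContinuousLinearMap.id ℂ _).prod A) (π x) := by
    refine (hasFDerivAt_id _).prodMk ?_
    simpa using (A.hasFDerivAt.comp (π x) ((hasFDerivAt_id (π x)).sub_const (π x))).const_add (Θ x).2
  refine ⟨fun b => e (Θ.symm (j b)), AnalyticAt.fun_comp (g := fun v => e (Θ.symm v))
    (by rw [j0]; exact hP) j1, by simp only [j0, hx], ?_, fun h0 => ?_⟩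
  · have k1 : ∀ᶠ v in 𝓝 (Θ x), v ∈ Θ.target ∧ Θ.symm v ∈ e.source := by
      refine (Θ.open_target.eventually_mem (Θ.map_source h2)).and ?_
      refine (Θ.continuousAt_symm (Θ.map_source h2)).eventually ?_
      rw [hx]
      exact e.open_source.mem_nhds he.2
    rw [← j0] at k1
    filter_upwards [j1.continuousAt.eventually k1] with b hb
    rw [e.left_inv hb.2]
    have := h4 _ (Θ.map_target hb.1)
    rw [Θ.right_inv hb.1] at this
    exact this.symm
  · have k2 := (HasFDerivAt.comp (π x) (g := fun v => e (Θ.symm v)) (f := j)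
      (by rw [j0]; exact hP.differentiableAt.hasFDerivAt) j2).fderiv
    refine (congrArg (fun T => T ζ) k2 :).trans ?_
    rw [← e1]
    show fderiv ℂ _ _ (ζ, A ζ) = _
    rw [hA h0, ← e2]

theorem vt_of (fibc : FIBC) (vb : VB) : VT := by
  intro d n r X _ _ _ _ w s hw hs O π b R hT f c N hc hN hQ hk g hg hgc hX x hx hx1 h0 t ht e he
  have hsq := sqh d r X g e x he fun k => hg k x hx
  have hex : e.symm (e x) = x := e.left_inv he.2
  have hH : (-(((c / N : ℝ) : ℂ) • ddc (d := d) (sq g) e (e x)) + ddc t e (e x)).IsHermitian := by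
    refine Matrix.IsHermitian.add (Matrix.IsHermitian.neg ?_) (C2.cHess_isHermitian (ht.c2 e he))
    exact (C2.cHess_isHermitian (hsq.1.self_of_nhds.of_le (by norm_cast))).smul
      (Complex.conj_ofReal _)
  refine (psd_iff_Lv hH).2 fun ξ => ?_
  rw [Lv_add, Lv_neg, Lv_smul, hsq.2]
  obtain ⟨τ, t1, t2, t3, t4⟩ := exists_sect (hT.ind x hx) he ξ
  set ζ := fderiv ℂ (fun z => π (e.symm z)) (e x) ξ with hζ
  have hπ : AnalyticAt ℂ (fun z => π (e.symm z)) (e x) :=
    AnalyticAt.pi fun j => (hT.ind x hx).1 j e he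
  have hσ : Tendsto (fun b => e.symm (τ b)) (𝓝 (π x)) (𝓝 x) := by
    have h1 := (e.continuousAt_symm (e.map_source he.2)).tendsto
    rw [hex] at h1
    have h2 := t1.continuousAt.tendsto
    rw [t2] at h2
    exact h1.comp h2
  have hO := hσ.eventually (hT.opn.mem_nhds hx)
  set G : Fin r → Cm n → ℂ := fun k b => g k (e.symm (τ b)) with hG
  have hGa : ∀ k, AnalyticAt ℂ (G k) (π x) := fun k =>
    AnalyticAt.fun_comp (g := fun z => g k (e.symm z)) (by rw [t2]; exact hg k x hx e he) t1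
  have hGe : ∀ᶠ b in 𝓝 (π x), ∀ y ∈ O, π y = b → ∀ k, g k y = G k b := by
    filter_upwards [hO, t3] with b h1 h2 y hy h3
    exact hgc y hy _ h1 (h3.trans h2.symm)
  have e1 : ∀ k, gr (g k) e x ⬝ᵥ ξ = fderiv ℂ (G k) (π x) ζ := by
    intro k
    have h1 : Tendsto (fun z => e.symm z) (𝓝 (e x)) (𝓝 x) := by
      simpa only [hex] using (e.continuousAt_symm (e.map_source he.2)).tendsto
    have h2 : Tendsto (fun z => π (e.symm z)) (𝓝 (e x)) (𝓝 (π x)) := by
      simpa only [hex] using hπ.continuousAt.tendsto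
    have h3 : (fun z => g k (e.symm z)) =ᶠ[𝓝 (e x)] fun z => G k (π (e.symm z)) := by
      filter_upwards [h1.eventually (hT.opn.mem_nhds hx), h2.eventually hGe] with z k1 k2
      exact k2 _ k1 rfl k
    rw [gr_dot he (hg k x hx), h3.fderiv_eq]
    exact congrArg (fun T => T ξ) (HasFDerivAt.comp (e x) (g := G k) (f := fun z => π (e.symm z))
      (by rw [hex]; exact (hGa k).differentiableAt.hasFDerivAt)
      hπ.differentiableAt.hasFDerivAt).fderiv
  simp only [e1]
  by_cases hz : ζ = 0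
  · have h1 := Lv_nonneg (h0 t ht e he) ξ
    rw [zero_add] at h1
    simpa [hz] using h1
  have h2 : ContDiffAt ℝ 2 (fun z => t (e.symm z)) (τ (π x)) := by
    rw [t2]
    exact ht.c2 e he
  have h3 := vb d n r X w s hw hs O π b R hT f c N hc hN hQ hk g G (fun b => t (e.symm (τ b))) x hx
    hGa (h2.comp _ ((t1.restrictScalars (𝕜 := ℝ)).contDiffAt)) (by rw [t2, hex]; exact ht.ge)
    (by
      have h4 : ContinuousAt (sq g) x := by
        refine (hsq.1.self_of_nhds.continuousAt.comp (e.continuousAt he.2)).congr ?_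
        filter_upwards [e.open_source.mem_nhds he.2] with y hy
        exact congrArg (sq g) (e.left_inv hy)
      filter_upwards [hO, t3, hGe, hσ.eventually ht.le,
        hσ.eventually (h4.eventually (gt_mem_nhds hx1))] with b k1 k2 k3 k4 k5 y hy k6
      refine ⟨?_, k3 y hy k6, hX y hy ?_⟩
      · rw [fibc d n X w s hw O π _ R hT f hQ y hy _ k1 (k6.trans k2.symm)]
        exact k4
      · refine lt_of_eq_of_lt ?_ k5
        exact Finset.sum_congr rfl fun k _ => by rw [k3 y hy k6 k]) ζ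
  rw [chn d n (fun z => t (e.symm z)) τ _ h2 t1, t4 hz, t2] at h3
  have h5 : c / N * ∑ k, ‖fderiv ℂ (G k) (π x) ζ‖ ^ 2 ≤ Lv (ddc t e (e x)) ξ := by
    rw [div_mul_eq_mul_div, div_le_iff₀ hN, mul_comm _ N]
    exact h3
  linarith

end Vale.Agent.P301Z.Ho
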