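import Vale.Agent.P301Z.Ho.Defs
import Vale.Agent.P285Z.Wt

/-!
# P301Z, Lemma H: the weight and the cut-off
-/

open scoped Manifold ContDiff ComplexOrder Topology ENNReal Matrix
open MeasureTheory Filter Set Metric
open Vale.Agent.P272.K Vale.Agent.P301.H599 Vale.Agent.P301.H99 Vale.Agent.P285Z
open Vale.Agent.P301.H98 (IsSection nrm RForm)
open Vale.Agent.P301.H862 (powL IsSc)

noncomputable section

namespace Vale.Agent.P301Z.Ho

namespace WtrX

variable {d : ℕ}

theorem cHess_w {u v : Cm d → ℝ} {z : Cm d} (hu : ContDiffAt ℝ 2 u z) (hv : ContDiffAt ℝ 2 v z)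
    (M : ℝ) : cHess (fun y => M * u y + kap (v y - u y - 4)) z =
      (M : ℂ) • cHess u z + ((zeta (v z - u z - 4) : ℝ) : ℂ) • (cHess v z - cHess u z) +
        ((deriv zeta (v z - u z - 4) : ℝ) : ℂ) • wtN (fun y => v y - u y - 4) z := by
  have hp : ContDiffAt ℝ 2 (fun y => v y - u y - 4) z := (hv.sub hu).sub contDiffAt_const
  have hk : ContDiffAt ℝ 2 (fun y => kap (v y - u y - 4)) z :=
    (kap_contDiff (n := 2)).contDiffAt.comp z hp
  rw [C2.cHess_add (u := fun y => M * u y) (v := fun y => kap (v y - u y - 4))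
      (contDiffAt_const.mul hu) hk, cHess_kap hp, C2.cHess_const_mul M hu,
    C2.cHess_sub (u := fun y => v y - u y) (v := fun _ => 4) (hv.sub hu) contDiffAt_const,
    C2.cHess_const, C2.cHess_sub hv hu, sub_zero, add_assoc]

theorem w_psd {θ om U V N : Matrix (Fin d) (Fin d) ℂ} {M α ε ε' g : ℝ} (hom : om.PosSemidef)
    (hα : 0 ≤ α) (hM : α ≤ M) (hε : ε' ≤ ε) (h1 : (θ + (ε : ℂ) • om + U).PosSemidef)
    (h2 : (θ + (ε' : ℂ) • om + V).PosSemidef) :
    ((M : ℂ) • θ + ((M : ℂ) • U + (α : ℂ) • (V - U) + (g : ℂ) • N) + ((M * ε : ℝ) : ℂ) • om -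
      (g : ℂ) • N).PosSemidef := by
  have h3 := ((psd_smul h1 (c := M - α) (by linarith)).add (psd_smul h2 hα)).add
    (psd_smul hom (mul_nonneg hα (sub_nonneg.2 hε)))
  have e : (M : ℂ) • θ + ((M : ℂ) • U + (α : ℂ) • (V - U) + (g : ℂ) • N) +
      ((M * ε : ℝ) : ℂ) • om - (g : ℂ) • N =
      ((M - α : ℝ) : ℂ) • (θ + (ε : ℂ) • om + U) + (α : ℂ) • (θ + (ε' : ℂ) • om + V) +
        ((α * (ε - ε') : ℝ) : ℂ) • om := by
    push_cast
    module
  rw [e]
  exact h3

variable {X : Type} [TopologicalSpace X] [ChartedSpace (Cm d) X]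

theorem ev_chart {e : Chart d X} {x : X} (hx : At e x) {p : X → Prop} (h : ∀ᶠ y in 𝓝 x, p y) :
    ∀ᶠ z in 𝓝 (e x), p (e.symm z) := by
  have h1 := (e.continuousAt_symm hx.mem_target).tendsto
  rw [hx.left_inv] at h1
  exact h1.eventually h

theorem cont_of_chart {F : Type} [TopologicalSpace F] {f : X → F} {e : Chart d X} {x : X}
    (hx : At e x) (h : ContinuousAt (fun z => f (e.symm z)) (e x)) : ContinuousAt f x := by
  have h1 : ContinuousAt (fun y => f (e.symm (e y))) x := h.comp (f := e) (e.continuousAt hx.2)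
  refine h1.congr ?_
  filter_upwards [e.open_source.mem_nhds hx.2] with y hy
  rw [e.left_inv hy]

theorem nrm_at {κ : Type} {B : LineBundle d X κ} {ρ : κ → X → ℝ} (hρ : IsMetric B ρ) {U : Set X}
    {E : κ → X → ℂ} (hE : SecOn B U E) {x : X} (hx : x ∈ U) {i : κ} (hi : x ∈ B.U i) :
    nrm B ρ E x = ‖E i x‖ ^ 2 * Real.exp (-ρ i x) := by
  set j := (B.cover x).choose with hj
  have hjx : x ∈ B.U j := (B.cover x).choose_spec
  unfold nrm
  rw [← hj, hE.chg i j x hx hi hjx, hρ.change i j x hi hjx]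
  have hg : B.g i j x ≠ 0 := B.ne_zero i j x hi hjx
  rw [neg_add, Real.exp_add, Real.exp_neg (Real.log _), Real.exp_log (by positivity), norm_mul]
  field_simp

end WtrX

open WtrX

theorem wtr : WTR := by
  intro d X _ _ _ _ κ B ρ hρ U K E hU hK hKU hE θ w M ε ε' u φ hw hM hε hu hφ h1 h2 hs
  have ht : Smooth (d := d) (tt u φ) := fun e x hx =>
    ((hφ e x hx).sub (hu e x hx)).sub contDiffAt_const
  have hW : Smooth (d := d) (wW M u φ) := (hu.const_mul M).add (smooth_comp_real ht kap_contDiff)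
  have hoff : ∀ x, x ∉ U → ∀ᶠ y in 𝓝 x, tt u φ y ≤ -1 := by
    intro x hx
    filter_upwards [hK.isOpen_compl.mem_nhds fun h => hx (hKU h)] with y hy
    exact not_lt.1 fun h => hy (hs y h)
  have key : ∀ e x, At e x → ((M : ℂ) • θ e (e x) + ddc (wW M u φ) e (e x) +
      ((M * ε : ℝ) : ℂ) • w e (e x) - ((deriv zeta (tt u φ x) : ℝ) : ℂ) •
        wtN (fun y => tt u φ (e.symm y)) (e x)).PosSemidef := by
    intro e x hx
    have e1 := cHess_w (hu.two e x hx) (hφ.two e x hx) M
    rw [hx.left_inv] at e1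
    have e2 : ddc (wW M u φ) e (e x) = _ := e1
    rw [e2]
    exact w_psd (hw e x hx) (zeta_nonneg _) ((zeta_le_one _).trans hM) hε (h1 e x hx) (h2 e x hx)
  have hdiff : ∀ e x, At e x → DifferentiableAt ℝ (fun y => tt u φ (e.symm y)) (e x) :=
    fun e x hx => (ht e x hx).differentiableAt (by simp)
  have hpsd : PSD fun e z => (M : ℂ) • θ e z + ddc (wW M u φ) e z + ((M * ε : ℝ) : ℂ) • w e z := by
    intro e x hx
    have h3 := (key e x hx).add (psd_smul (wtN_psd (hdiff e x hx)) (deriv_zeta_nonneg (tt u φ x)))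
    rwa [sub_add_cancel] at h3
  have hzero : ∀ i (e : Chart d X) x, At e x → x ∉ U →
      (fun z => (zeta (tt u φ (e.symm z)) : ℂ) * E i (e.symm z)) =ᶠ[𝓝 (e x)] fun _ => 0 := by
    intro i e x hx hxU
    filter_upwards [ev_chart hx (hoff x hxU)] with z hz
    rw [zeta_of_le hz, Complex.ofReal_zero, zero_mul]
  refine ⟨hW, hpsd, ⟨fun i e x hx hi => ?_, fun i j x hi hj => ?_⟩, ?_, fun i e x hx hi v => ?_⟩
  · by_cases hxU : x ∈ U
    · exact (Complex.ofRealCLM.contDiff.contDiffAt.comp (e x)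
        (smooth_comp_real ht zeta_contDiff e x hx)).mul
        (((hE.hol i x hxU hi e hx).contDiffAt (n := ∞)).restrict_scalars ℝ)
    · exact contDiffAt_const.congr_of_eventuallyEq (hzero i e x hx hxU)
  · by_cases hxU : x ∈ U
    · show _ * E i x = _ * (_ * E j x)
      rw [hE.chg i j x hxU hi hj]
      ring
    · show (zeta (tt u φ x) : ℂ) * E i x = _ * ((zeta (tt u φ x) : ℂ) * E j x)
      rw [zeta_of_le (hoff x hxU).self_of_nhds]
      simp
  · refine continuous_iff_continuousAt.2 fun x => ?_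
    by_cases hxU : x ∈ U
    · obtain ⟨i, hi⟩ := B.cover x
      have hx : At (chartAt (Cm d) x) x := ⟨chart_mem_atlas _ x, mem_chart_source _ x⟩
      have c1 : ContinuousAt (E i) x := cont_of_chart hx (hE.hol i x hxU hi _ hx).continuousAt
      have c2 : ContinuousAt (ρ i) x := cont_of_chart hx (hρ.smooth i _ x hx hi).continuousAt
      have c3 : ContinuousAt (nrm B ρ E) x := by
        refine ((c1.norm.pow 2).mul (Real.continuous_exp.continuousAt.comp c2.neg)).congr ?_
        filter_upwards [hU.mem_nhds hxU, (B.isOpen i).mem_nhds hi] with y k1 k2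
        exact (nrm_at hρ hE k1 k2).symm
      exact (deriv_zeta_continuous.comp (smooth_continuous ht)).continuousAt.mul c3
    · refine (continuousAt_const (y := (0 : ℝ))).congr ?_
      filter_upwards [hoff x hxU] with y hy
      rw [deriv_zeta_of_le hy, zero_mul]
  · by_cases hxU : x ∈ U
    · have h3 := Qf_mono (key e x hx) v
      rw [Qf_smul, Qf_wtN (hdiff e x hx)] at h3
      have d1 : DifferentiableAt ℝ (fun z => ((zeta (tt u φ (e.symm z)) : ℝ) : ℂ)) (e x) :=
        C2.differentiableAt_ofReal ((zeta_differentiable _).comp (e x) (hdiff e x hx))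
      have hh := hE.hol i x hxU hi e hx
      have d2 : DifferentiableAt ℝ (fun z => E i (e.symm z)) (e x) :=
        hh.differentiableAt.restrictScalars ℝ
      have h4 : ∀ b, dzb b (fun z => ((zeta (tt u φ (e.symm z)) : ℝ) : ℂ) * E i (e.symm z)) (e x) =
          ((deriv zeta (tt u φ x) : ℝ) : ℂ) * E i x *
            dzb b (fun y => ((tt u φ (e.symm y) : ℝ) : ℂ)) (e x) := by
        intro b
        rw [C2.dzb_mul b d1 d2, Vale.Agent.P301.H98.dzb_holo hh, mul_zero, add_zero,
          C2.dzb_comp_real b (ψ := zeta) (zeta_hasDerivAt _) (hdiff e x hx), hx.left_inv]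
        ring
      have h5 : ∑ b, dzb b (fun z => ((zeta (tt u φ (e.symm z)) : ℝ) : ℂ) * E i (e.symm z)) (e x) *
          v b = ((deriv zeta (tt u φ x) : ℝ) : ℂ) * E i x *
            ∑ b, dzb b (fun y => ((tt u φ (e.symm y) : ℝ) : ℂ)) (e x) * v b := by
        rw [Finset.mul_sum]
        exact Finset.sum_congr rfl fun b _ => by rw [h4]; ring
      refine le_trans (le_of_eq ?_) (mul_le_mul_of_nonneg_left h3
        (mul_nonneg (deriv_zeta_nonneg _) (nrm_nonneg' B ρ E x)))
      beta_reduce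
      rw [h5, nrm_at hρ hE hxU hi, norm_mul, norm_mul, mul_pow, mul_pow, Complex.norm_real,
        Real.norm_eq_abs, sq_abs]
      ring
    · have h4 : ∀ b, dzb b (fun z => ((zeta (tt u φ (e.symm z)) : ℝ) : ℂ) * E i (e.symm z)) (e x) =
          0 := by
        intro b
        unfold dzb
        rw [(hzero i e x hx hxU).fderiv_eq]
        simp
      beta_reduce
      simp only [h4, zero_mul, Finset.sum_const_zero, norm_zero]
      rw [deriv_zeta_of_le (hoff x hxU).self_of_nhds]
      simp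

end Vale.Agent.P301Z.Ho
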