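import Vale.Agent.P301Z.Ho.Top
import Vale.Agent.P301Z.Ho.Vt
import Vale.Agent.P301Z.Ho.Abs
import Vale.Agent.P301Z.Ho.Ahk
import Vale.Agent.P301Z.Ho.Asm1
import Vale.Agent.P301Z.Ho.Asm2
import Vale.Agent.P301Z.Ho.Ayo
import Vale.Agent.P301Z.Ho.Cyf
import Vale.Agent.P301Z.Ho.Est2
import Vale.Agent.P301Z.Ho.Fibc
import Vale.Agent.P301Z.Ho.Hpt
import Vale.Agent.P301Z.Ho.Lhk
import Vale.Agent.P301Z.Ho.Maxj
import Vale.Agent.P301Z.Ho.Pole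
import Vale.Agent.P301Z.Ho.Vb
import Vale.Agent.P301Z.Ho.Vis0
import Vale.Agent.P301Z.Ho.Vist
import Vale.Agent.P301Z.Ho.Wtr

/-!
# P301Z, Lemma H
-/

namespace Vale.Agent.P301Z.Ho

theorem vt : VT := vt_of (fibc_of chn) (vb_of chn lhk maxj)

theorem ahk : AHK := ahk_of abs_eps est_eps2

/-- **Lemma H** -/
theorem hl2 : HL2 :=
  hl2_of sqh xb pot_ok vt vis0 vist cyf (pole_of sqh) (asm1_of ayo wtr ahk) asm2

theorem hpt : Sa.HPT := hpt_of hl2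

end Vale.Agent.P301Z.Ho
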