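import Vale.Agent.P301Z.Sa.Hpt
import Vale.Agent.P285K.Sk
import Vale.Agent.P301.H599.LS

/-!
# P301Z, Lemma H: definitions and statements of the blocks
-/

open scoped Manifold ContDiff ComplexOrder Topology ENNReal Matrix
open MeasureTheory Filter Set Metric
open Vale.Agent.P272.K Vale.Agent.P301.H599 Vale.Agent.P301.H99 Vale.Agent.P285Z
open Vale.Agent.P301.H98 (IsSection nrm RForm)
open Vale.Agent.P301.H862 (powL IsSc)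
open Vale.Agent.P272.K.AMP (volX)
open Vale.Agent.P277Z (Hol)
open Vale.Agent.P281Z (Thin)
open Vale.Agent.P301Z.Sa

noncomputable section

namespace Vale.Agent.P301Z.Ho

/-- the value of the form with the matrix `H` on the tangent vector `ξ` -/
def Lv {d : ℕ} (H : Matrix (Fin d) (Fin d) ℂ) (ξ : Fin d → ℂ) : ℝ := Qf H (star ξ)

/-- `1 / (j + 1)` -/
def ep (j : ℕ) : ℝ := 1 / ((j : ℝ) + 1)

/-- `|D|² q ^ (-N)` is integrable near `z₀` -/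
def Pl {d : ℕ} (D : Cm d → ℂ) (q : Cm d → ℝ) (N : ℕ) (z₀ : Cm d) : Prop :=
  ∃ V ∈ 𝓝 z₀, ∃ C : ℝ≥0∞, C ≠ ⊤ ∧ ∀ δ : ℝ, 0 < δ →
    ∫⁻ z in V, ENNReal.ofReal (‖D z‖ ^ 2 / (q z + δ) ^ N) ≤ C

section

variable {d : ℕ} {X : Type} [TopologicalSpace X] [ChartedSpace (Cm d) X] {ι : Type}

/-- `Σ |g k|²` -/
def sq {r : ℕ} (g : Fin r → X → ℂ) (x : X) : ℝ := ∑ k, ‖g k x‖ ^ 2

variable (d) in
/-- `t` touches `Φ` from above at `x` -/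
structure Touch (Φ : X → EReal) (t : X → ℝ) (x : X) : Prop where
  c2 : ∀ e : Chart d X, At e x → ContDiffAt ℝ 2 (fun z => t (e.symm z)) (e x)
  ge : (t x : EReal) ≤ Φ x
  le : ∀ᶠ y in 𝓝 x, Φ y ≤ (t y : EReal)

/-- `a + i∂∂̄Φ ≥ 0` at `x` in the viscosity sense -/
def Vis (Φ : X → EReal) (a : Fm d X) (x : X) : Prop :=
  ∀ t, Touch d Φ t x → ∀ e, At e x → (a e (e x) + ddc t e (e x)).PosSemidef

/-- the metrics `θ + ε w + i∂∂̄φ` -/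
def wj (w θ : Fm d X) (φ : ℕ → X → ℝ) (j : ℕ) : Fm d X :=
  fun e z => θ e z + (ep j : ℂ) • w e z + ddc (φ j) e z

/-- `W` is positive and compatible with `S` with a constant `≥ k` -/
def HKm (W S : Matrix (Fin d) (Fin d) ℂ) (k : ℝ) : Prop :=
  W.PosDef ∧ ∃ κ : ℝ, k ≤ κ ∧ W * (Sᴴ)⁻¹ * Wᵀ = (κ : ℂ) • S

/-- Calabi-Yau potentials -/
structure CY (w s θ : Fm d X) (c : ℝ) (φ : ℕ → X → ℝ) : Prop where
  inS : ∀ j, InS θ w (ep j) (φ j)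
  hk : ∀ j e x, At e x → HKm (wj w θ φ j e (e x)) (s e (e x)) (c * ep j)

/-- `E` is a holomorphic section of `B` over `U` -/
structure SecOn (B : LineBundle d X ι) (U : Set X) (E : ι → X → ℂ) : Prop where
  hol : ∀ i, ∀ x ∈ U, x ∈ B.U i → Hol d (E i) x
  chg : ∀ i j, ∀ x ∈ U, x ∈ B.U i → x ∈ B.U j → E i x = B.g i j x * E j x

/-- the potential `- log |e|² / a` of the curvature of `ρ` -/
def pot (L : LineBundle d X ι) (ρ : ι → X → ℝ) (a : ℕ) (e : ι → X → ℂ) (x : X) : ℝ :=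
  -(Real.log (nrm (powL L a) (powM ρ a) e x) / a)

/-- the functions `f j` are smooth, almost plurisubharmonic, locally bounded above on `O` -/
structure QP (w : Fm d X) (O : Set X) (f : ℕ → X → ℝ) : Prop where
  sm : ∀ j (e : Chart d X) x, At e x → x ∈ O → ContDiffAt ℝ ∞ (fun z => f j (e.symm z)) (e x)
  psd : ∀ j e x, At e x → x ∈ O → ((ep j : ℂ) • w e (e x) + ddc (f j) e (e x)).PosSemidef
  bdd : ∀ x ∈ O, ∃ C : ℝ, ∀ᶠ y in 𝓝 x, ∀ j, f j y ≤ C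

/-- a bound for the Hamiltonian fields of the `g k` at `y` -/
def XBd (w s : Fm d X) {r : ℕ} (g : Fin r → X → ℂ) (N : ℝ) (y : X) : Prop :=
  ∀ e, At e y → ∑ k, Lv (w e (e y)) ((s e (e y))⁻¹ *ᵥ gr (g k) e y) ≤ N

/-- `φ - u - 4` -/
def tt (u φ : X → ℝ) (x : X) : ℝ := φ x - u x - 4

/-- the weight -/
def wW (M : ℝ) (u φ : X → ℝ) (x : X) : ℝ := M * u x + kap (tt u φ x)

variable [IsManifold 𝓘(ℂ, Cm d) ω X] [T2Space X] [CompactSpace X] [MeasurableSpace X]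

/-- uniform exponential moments -/
def Mom (w : Fm d X) (φ : ℕ → X → ℝ) : Prop :=
  ∀ p : ℝ, 0 < p → ∃ B : ℝ≥0∞, B ≠ ⊤ ∧ ∀ j,
    ∫⁻ x, ENNReal.ofReal (Real.exp (-(p * φ j x))) ∂(volX w) ≤ B

end

/-! ### calculus and linear algebra -/

/-- (CHN) the chain rule for the Levi form -/
def CHN : Prop :=
  ∀ (p q : ℕ) (f : Cm p → ℝ) (τ : Cm q → Cm p) (z : Cm q), ContDiffAt ℝ 2 f (τ z) →
    AnalyticAt ℂ τ z → ∀ ξ, Lv (cHess (fun y => f (τ y)) z) ξ = Lv (cHess f (τ z)) (fderiv ℂ τ z ξ)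

/-- (SQH) the Levi form of `Σ |g k|²` -/
def SQH : Prop :=
  ∀ (d r : ℕ) (X : Type) [TopologicalSpace X] [ChartedSpace (Cm d) X] (g : Fin r → X → ℂ)
    (e : Chart d X) (x : X), At e x → (∀ k, Hol d (g k) x) →
    (∀ᶠ z in 𝓝 (e x), ContDiffAt ℝ ∞ (fun z => sq g (e.symm z)) z) ∧
      ∀ ξ, Lv (ddc (sq g) e (e x)) ξ = ∑ k, ‖gr (g k) e x ⬝ᵥ ξ‖ ^ 2

/-- (LHK) the pointwise inequality -/
def LHK : Prop :=
  ∀ (d n r : ℕ) (W w S : Matrix (Fin d) (Fin d) ℂ) (H : Matrix (Fin n) (Fin n) ℂ) (ε c N : ℝ)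
    (J : Fin n → Fin d → ℂ) (G : Fin r → Fin d → ℂ), IsUnit S.det → 0 < ε → 0 < c →
    HKm W S (c * ε) → (∀ i j, J i ⬝ᵥ (S⁻¹ *ᵥ J j) = 0) →
    (∀ k, ∃ l : Fin n → ℂ, G k = ∑ i, l i • J i) →
    (∀ ξ, Lv W ξ ≤ ε * Lv w ξ + Lv H fun i => J i ⬝ᵥ ξ) → ∑ k, Lv w (S⁻¹ *ᵥ G k) ≤ N →
    ∀ ξ, c * ∑ k, ‖G k ⬝ᵥ ξ‖ ^ 2 ≤ N * Lv W ξ

/-- (XB) the Hamiltonian fields are bounded on compact sets -/
def XB : Prop :=
  ∀ (d r : ℕ) (X : Type) [TopologicalSpace X] [ChartedSpace (Cm d) X]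
    [IsManifold 𝓘(ℂ, Cm d) ω X] (w s : Fm d X), IsHermitian w → IsHolTwoForm s →
    (∀ e x, At e x → (s e (e x)).det ≠ 0) → ∀ (g : Fin r → X → ℂ) (K : Set X), IsCompact K →
    (∀ k, ∀ x ∈ K, Hol d (g k) x) → ∃ N : ℝ, 0 < N ∧ ∀ y ∈ K, XBd w s g N y

/-- (POT) the potential of the curvature -/
def POT : Prop :=
  ∀ (d : ℕ) (X : Type) [TopologicalSpace X] [ChartedSpace (Cm d) X] [IsManifold 𝓘(ℂ, Cm d) ω X]
    (ι : Type) (L : LineBundle d X ι) (ρ : ι → X → ℝ), IsMetric L ρ →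
    ∀ (a : ℕ) (U : Set X) (e : ι → X → ℂ), 0 < a → IsOpen U → Gen L a U e →
    ∀ (c : Chart d X) x, At c x → x ∈ U →
      ContDiffAt ℝ ∞ (fun z => pot L ρ a e (c.symm z)) (c x) ∧
        ddc (pot L ρ a e) c (c x) = curvature L ρ c (c x)

/-! ### viscosity -/

/-- (MAXJ) maxima near a fibre -/
def MAXJ : Prop :=
  ∀ (n : ℕ) (X : Type) [TopologicalSpace X] [T2Space X] (O : Set X) (π : X → Cm n) (b₀ : Cm n)
    (f : ℕ → X → ℝ) (u q : Cm n → ℝ) (x : X), IsOpen O → ContinuousOn π O →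
    (∀ᶠ r in 𝓝[>] (0 : ℝ), IsCompact (O ∩ π ⁻¹' closedBall b₀ r)) →
    (∀ j, ContinuousOn (f j) O) → (∀ᶠ b in 𝓝 b₀, ContinuousAt u b) → Continuous q → q b₀ = 0 →
    (∀ b, b ≠ b₀ → 0 < q b) → x ∈ O → π x = b₀ → (u b₀ : EReal) ≤ LS f x →
    (∀ᶠ b in 𝓝 b₀, ∀ y ∈ O, π y = b → LS f y ≤ (u b : EReal)) →
    ∃ x' ∈ O, π x' = b₀ ∧ ∃ᶠ p : ℕ × X in atTop ×ˢ 𝓝 x',
      IsLocalMax (fun y => f p.1 y - (u (π y) + q (π y))) p.2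

/-- (FIBC) the upper limit is constant on the fibres -/
def FIBC : Prop :=
  ∀ (d n : ℕ) (X : Type) [TopologicalSpace X] [ChartedSpace (Cm d) X]
    [IsManifold 𝓘(ℂ, Cm d) ω X] [T2Space X] (w s : Fm d X), IsHermitian w →
    ∀ (O : Set X) (π : X → Cm n) (b : Cm n) (R : ℝ), Tube s O π b R → ∀ f : ℕ → X → ℝ, QP w O f →
    ∀ y ∈ O, ∀ y' ∈ O, π y = π y' → LS f y = LS f y'

/-- (VB) the inequality on the base -/
def VB : Prop :=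
  ∀ (d n r : ℕ) (X : Type) [TopologicalSpace X] [ChartedSpace (Cm d) X]
    [IsManifold 𝓘(ℂ, Cm d) ω X] [T2Space X] (w s : Fm d X), IsHermitian w →
    (∀ e x, At e x → (s e (e x)).det ≠ 0) →
    ∀ (O : Set X) (π : X → Cm n) (b : Cm n) (R : ℝ), Tube s O π b R →
    ∀ (f : ℕ → X → ℝ) (c N : ℝ), 0 < c → 0 < N → QP w O f →
    (∀ j e y, At e y → y ∈ O →
      HKm ((ep j : ℂ) • w e (e y) + ddc (f j) e (e y)) (s e (e y)) (c * ep j)) →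
    ∀ (g : Fin r → X → ℂ) (G : Fin r → Cm n → ℂ) (u : Cm n → ℝ), ∀ x ∈ O,
    (∀ k, AnalyticAt ℂ (G k) (π x)) → ContDiffAt ℝ 2 u (π x) → (u (π x) : EReal) ≤ LS f x →
    (∀ᶠ t in 𝓝 (π x), ∀ y ∈ O, π y = t →
      LS f y ≤ (u t : EReal) ∧ (∀ k, g k y = G k t) ∧ XBd w s g N y) →
    ∀ ζ, c * ∑ k, ‖fderiv ℂ (G k) (π x) ζ‖ ^ 2 ≤ N * Lv (cHess u (π x)) ζ

/-- (VT) the inequality on a tube -/
def VT : Prop :=
  ∀ (d n r : ℕ) (X : Type) [TopologicalSpace X] [ChartedSpace (Cm d) X]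
    [IsManifold 𝓘(ℂ, Cm d) ω X] [T2Space X] (w s : Fm d X), IsHermitian w →
    (∀ e x, At e x → (s e (e x)).det ≠ 0) →
    ∀ (O : Set X) (π : X → Cm n) (b : Cm n) (R : ℝ), Tube s O π b R →
    ∀ (f : ℕ → X → ℝ) (c N : ℝ), 0 < c → 0 < N → QP w O f →
    (∀ j e y, At e y → y ∈ O →
      HKm ((ep j : ℂ) • w e (e y) + ddc (f j) e (e y)) (s e (e y)) (c * ep j)) →
    ∀ g : Fin r → X → ℂ, (∀ k, ∀ y ∈ O, Hol d (g k) y) →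
    (∀ y ∈ O, ∀ y' ∈ O, π y = π y' → ∀ k, g k y = g k y') →
    (∀ y ∈ O, sq g y < 1 → XBd w s g N y) → ∀ x ∈ O, sq g x < 1 →
    Vis (LS f) (fun _ _ => (0 : Matrix (Fin d) (Fin d) ℂ)) x →
    Vis (LS f) (fun e z => -(((c / N : ℝ) : ℂ) • ddc (d := d) (sq g) e z)) x

/-- (VIS0) plurisubharmonic weights -/
def VIS0 : Prop :=
  ∀ (d : ℕ) (X : Type) [TopologicalSpace X] [ChartedSpace (Cm d) X] [IsManifold 𝓘(ℂ, Cm d) ω X]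
    [T2Space X] [CompactSpace X] (w : Fm d X), IsKahler w →
    ∀ (ι : Type) (L : LineBundle d X ι) (ρ : ι → X → ℝ), IsMetric L ρ → ∀ φ : ℕ → X → ℝ,
    (∀ j, InS (curvature L ρ) w (ep j) (φ j)) → ∀ x, Vis (LS φ) (curvature L ρ) x

/-- (VIST) extension across a thin set -/
def VIST : Prop :=
  ∀ (d : ℕ) (X : Type) [TopologicalSpace X] [ChartedSpace (Cm d) X] [IsManifold 𝓘(ℂ, Cm d) ω X]
    [T2Space X] [CompactSpace X] (w : Fm d X), IsKahler w →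
    ∀ (ι : Type) (L : LineBundle d X ι) (ρ : ι → X → ℝ), IsMetric L ρ → ∀ φ : ℕ → X → ℝ,
    (∀ j, InS (curvature L ρ) w (ep j) (φ j)) → ∀ (T O : Set X) (a : Fm d X), Thin d T →
    IsOpen O → (∀ e x, At e x → x ∈ O → ContinuousAt (a e) (e x)) →
    (∀ x ∈ O, x ∉ T → Vis (LS φ) a x) → ∀ x ∈ O, Vis (LS φ) a x

/-- (AYO) the obstacle problem -/
def AYO : Prop :=
  ∀ (d : ℕ) (X : Type) [TopologicalSpace X] [ChartedSpace (Cm d) X] [IsManifold 𝓘(ℂ, Cm d) ω X]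
    [T2Space X] [CompactSpace X] [ConnectedSpace X] (w θ : Fm d X), IsKahler w → RForm θ →
    NefW θ w → ∀ (φ : ℕ → X → ℝ) (ψ : X → ℝ), (∀ j x, φ j x ≤ 0) → Smooth (d := d) ψ →
    (∀ x, Vis (LS φ) (fun e z => θ e z + ddc ψ e z) x) → ∀ ε : ℝ, 0 < ε →
    ∃ u : X → ℝ, Smooth (d := d) u ∧ (PSD fun e z => θ e z + (ε : ℂ) • w e z + ddc u e z) ∧
      (∀ x, u x ≤ ψ x + 1) ∧ ∀ᶠ j in atTop, ∀ x, φ j x + ψ x - 2 ≤ u x

/-! ### potentials, poles, weights -/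

/-- (CYF) Calabi-Yau potentials with uniform moments -/
def CYF : Prop :=
  ∀ (d : ℕ) (X : Type) [TopologicalSpace X] [ChartedSpace (Cm d) X] [IsManifold 𝓘(ℂ, Cm d) ω X]
    [T2Space X] [CompactSpace X] [ConnectedSpace X] [MeasurableSpace X] [BorelSpace X]
    (w s : Fm d X), IsSymplectic d X w s →
    ∀ (ι : Type) (L : LineBundle d X ι) (ρ : ι → X → ℝ), IsMetric L ρ → Nef w L ρ →
    ¬ SameClass (curvature L ρ) (fun _ _ => 0) →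
    ∃ (c : ℝ) (φ : ℕ → X → ℝ), 0 < c ∧ CY w s (curvature L ρ) c φ ∧ Mom w φ

/-- (POLE) smooth poles -/
def POLE : Prop :=
  ∀ (d r : ℕ) (X : Type) [TopologicalSpace X] [ChartedSpace (Cm d) X]
    [IsManifold 𝓘(ℂ, Cm d) ω X] [T2Space X] (U : Set X) (g : Fin r → X → ℂ), IsOpen U →
    (∀ k, ∀ x ∈ U, Hol d (g k) x) → IsCompact {x | x ∈ U ∧ sq g x ≤ 1} → ∀ c : ℝ, 0 < c →
    ∃ γ : ℝ, 0 < γ ∧ ∀ δ : ℝ, 0 < δ → δ ≤ 1 / 4 → ∃ ψ : X → ℝ, Smooth (d := d) ψ ∧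
      (∀ x, ψ x ≤ 0) ∧ (∀ x ∈ U, sq g x ≤ 1 / 4 → ψ x ≤ γ * Real.log (sq g x + δ) + 1) ∧
      (∀ x, ψ x ≠ 0 → x ∈ U ∧ sq g x ≤ 1) ∧
      (∀ (e : Chart d X) x, At e x → x ∈ U →
        (ddc ψ e (e x) + (c : ℂ) • ddc (sq g) e (e x)).PosSemidef) ∧
      ∀ (e : Chart d X) x, At e x → ¬ (x ∈ U ∧ sq g x < 1) → ddc ψ e (e x) = 0

/-- (WTR) the weight and the cut-off -/
def WTR : Prop :=
  ∀ (d : ℕ) (X : Type) [TopologicalSpace X] [ChartedSpace (Cm d) X] [IsManifold 𝓘(ℂ, Cm d) ω X]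
    [T2Space X] (κ : Type) (B : LineBundle d X κ) (ρ : κ → X → ℝ), IsMetric B ρ →
    ∀ (U K : Set X) (E : κ → X → ℂ), IsOpen U → IsClosed K → K ⊆ U → SecOn B U E →
    ∀ (θ w : Fm d X) (M ε ε' : ℝ) (u φ : X → ℝ), PSD w → 1 ≤ M → ε' ≤ ε → Smooth (d := d) u →
    Smooth (d := d) φ → (PSD fun e z => θ e z + (ε : ℂ) • w e z + ddc u e z) →
    (PSD fun e z => θ e z + (ε' : ℂ) • w e z + ddc φ e z) → (∀ x, -1 < tt u φ x → x ∈ K) →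
    Smooth (d := d) (wW M u φ) ∧
      (PSD fun e z => (M : ℂ) • θ e z + ddc (wW M u φ) e z + ((M * ε : ℝ) : ℂ) • w e z) ∧
      IsSc B (fun i x => (zeta (tt u φ x) : ℂ) * E i x) ∧
      Continuous (fun x => deriv zeta (tt u φ x) * nrm B ρ E x) ∧
      DbarLe B ρ (fun i x => (zeta (tt u φ x) : ℂ) * E i x)
        (fun x => deriv zeta (tt u φ x) * nrm B ρ E x)
        fun e z => (M : ℂ) • θ e z + ddc (wW M u φ) e z + ((M * ε : ℝ) : ℂ) • w e z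

/-- (AHK) the `L²` estimate with a small loss of positivity -/
def AHK : Prop :=
  ∀ (d : ℕ) (X : Type) [TopologicalSpace X] [ChartedSpace (Cm d) X] [IsManifold 𝓘(ℂ, Cm d) ω X]
    [T2Space X] [CompactSpace X] [MeasurableSpace X] [BorelSpace X] (w : Fm d X), IsKahler w →
    ∀ h : X → ℝ, Smooth (d := d) h → FEq (ddc h) (kc w) → ∃ C₀ : ℝ≥0∞, C₀ ≠ ⊤ ∧
    ∀ (κ : Type) (B : LineBundle d X κ) (ρ : κ → X → ℝ), IsMetric B ρ →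
    ∀ (Ψ a : ℕ → X → ℝ) (ε : ℕ → ℝ) (s : ℕ → κ → X → ℂ) (C₁ : ℝ) (A : ℝ≥0∞), A ≠ ⊤ →
    (∀ n, 0 < ε n) → Tendsto ε atTop (𝓝 0) → (∀ n, Smooth (d := d) (Ψ n)) →
    (∀ n x, Ψ n x ≤ C₁) → Mom w Ψ →
    (∀ n, PSD fun e z => curvature B ρ e z + ddc (Ψ n) e z + (ε n : ℂ) • w e z) →
    (∀ n, IsSc B (s n)) → (∀ n x, nrm B ρ (s n) x ≤ C₁) → (∀ n, Continuous (a n)) →
    (∀ n x, 0 ≤ a n x) →
    (∀ n, DbarLe B ρ (s n) (a n)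
      fun e z => curvature B ρ e z + ddc (Ψ n) e z + (ε n : ℂ) • w e z) →
    (∀ n, ∫⁻ x, ENNReal.ofReal (a n x * Real.exp (-Ψ n x)) ∂(volX w) ≤ A) →
    ∃ G, IsSection B G ∧ ∃ n,
      ∫⁻ x, ENNReal.ofReal (nrm B ρ (fun i y => G i y - s n i y) x * Real.exp (-Ψ n x))
        ∂(volX w) ≤ C₀ * (A + 1)

/-- (ASM1) sections for a smooth obstacle -/
def ASM1 : Prop :=
  ∀ (d : ℕ) (X : Type) [TopologicalSpace X] [ChartedSpace (Cm d) X] [IsManifold 𝓘(ℂ, Cm d) ω X]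
    [T2Space X] [CompactSpace X] [ConnectedSpace X] [MeasurableSpace X] [BorelSpace X]
    (w : Fm d X), IsKahler w → ∀ h : X → ℝ, Smooth (d := d) h → FEq (ddc h) (kc w) →
    ∀ (ι : Type) (L : LineBundle d X ι) (ρ : ι → X → ℝ), IsMetric L ρ → NefW (curvature L ρ) w →
    ∀ φ : ℕ → X → ℝ, (∀ j, InS (curvature L ρ) w (ep j) (φ j)) → Mom w φ →
    ∀ (U K : Set X) (M : ℕ) (E : ι → X → ℂ), IsOpen U → IsCompact K → K ⊆ U → 1 ≤ M →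
    SecOn (powL L M) U E → ∃ C : ℝ≥0∞, C ≠ ⊤ ∧ ∀ ψ : X → ℝ, Smooth (d := d) ψ → (∀ x, ψ x ≤ 0) →
      (∀ x, ψ x ≠ 0 → x ∈ K) →
      (∀ x, Vis (LS φ) (fun e z => curvature L ρ e z + ddc ψ e z) x) →
      ∃ G, IsSection (powL L M) G ∧
        ∫⁻ x in K, ENNReal.ofReal (nrm (powL L M) (powM ρ M) (fun i y => G i y - E i y) x *
          Real.exp (-(((M : ℝ) - 1) * ψ x))) ∂(volX w) ≤ C

/-- (ASM2) the limit `δ → 0` -/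
def ASM2 : Prop :=
  ∀ (d : ℕ) (X : Type) [TopologicalSpace X] [ChartedSpace (Cm d) X] [IsManifold 𝓘(ℂ, Cm d) ω X]
    [T2Space X] [CompactSpace X] [MeasurableSpace X] [BorelSpace X] (w : Fm d X), IsKahler w →
    ∀ (κ : Type) (B : LineBundle d X κ) (ρ : κ → X → ℝ), IsMetric B ρ →
    ∀ (U : Set X) (E : κ → X → ℂ) (q : X → ℝ) (p : ℝ) (C : ℝ≥0∞), IsOpen U → SecOn B U E →
    ContinuousOn q U → (∀ x, 0 ≤ q x) → IsCompact {x | x ∈ U ∧ q x ≤ 1 / 4} → 0 ≤ p → C ≠ ⊤ →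
    (∀ δ : ℝ, 0 < δ → δ ≤ 1 / 4 → ∃ G, IsSection B G ∧
      ∫⁻ x in {x | x ∈ U ∧ q x ≤ 1 / 4}, ENNReal.ofReal (nrm B ρ (fun i y => G i y - E i y) x *
        Real.exp (-(p * Real.log (q x + δ)))) ∂(volX w) ≤ C) →
    ∃ G, IsSection B G ∧ ∀ N : ℕ, (N : ℝ) ≤ p → ∀ x ∈ U, q x < 1 / 4 →
      ∀ i (e : Chart d X), At e x → x ∈ B.U i →
        Pl (fun z => G i (e.symm z) - E i (e.symm z)) (fun z => q (e.symm z)) N (e x)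

/-- **HL2**: Lemma H -/
def HL2 : Prop := ForS fun d n X _ _ s ι L => ∀ (U : Set X) (r : ℕ) (g : Fin r → X → ℂ) (a : ℕ)
  (e : ι → X → ℂ) (T : Set X), Loc s L n U g a e T → ∃ c : ℝ, 0 < c ∧ ∀ m : ℕ, 0 < m →
    ∀ F : X → ℂ, (∀ x ∈ U, Hol d F x) → ∃ σ : ι → X → ℂ, Sec L (a * m) σ ∧
      ∀ N : ℕ, (N : ℝ) ≤ c * ((a * m : ℕ) - 1) → ∀ x ∈ U, sq g x < 1 / 4 →
        ∀ i (k : Chart d X), At k x → x ∈ L.U i →
          Pl (fun z => σ i (k.symm z) - F (k.symm z) * e i (k.symm z) ^ m)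
            (fun z => sq g (k.symm z)) N (k x)

end Vale.Agent.P301Z.Ho
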