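import Vale.Agent.P301Z.Ho.Defs
import Vale.Agent.P285Z.H0

/-!
# P301Z, Lemma H: the approximate `L²` estimate, statements
-/

open scoped Manifold ContDiff ComplexOrder Topology Matrix
open MeasureTheory Filter
open Vale.Agent.P272.K Vale.Agent.P301.H599 Vale.Agent.P285Z Vale.Agent.P285Z.H0
open Vale.Agent.P301.H862
open Vale.Agent.P272.K.AMP (volX)

noncomputable section

namespace Vale.Agent.P301Z.Ho

/-- (ABS) the abstract estimate -/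
def ABS : Prop :=
  ∀ (d : ℕ) (X : Type) [TopologicalSpace X] [ChartedSpace (Cm d) X] [IsManifold 𝓘(ℂ, Cm d) ω X]
    [T2Space X] [CompactSpace X] (ι : Type) (B : HB d X ι) (s : B.S) (A ε η : ℝ),
    B.dg d s = s → 0 ≤ A → 0 < ε → 0 < η →
    (∀ p, p + 1 = d → ∀ γ : B.S, B.dg p γ = γ →
      2 * (inner ℂ γ (B.Dd s)).re ≤ A + B.qf γ + ε * ‖γ‖ ^ 2) →
    ∃ u : B.S, B.dg d u = u ∧ ‖s - u‖ ^ 2 + ε⁻¹ * B.grad u ≤ A + η

/-- (EST) the hypothesis of `ABS` -/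
def EST : Prop :=
  ∀ (d : ℕ) (X : Type) [TopologicalSpace X] [ChartedSpace (Cm d) X] [IsManifold 𝓘(ℂ, Cm d) ω X]
    [T2Space X] [CompactSpace X] [MeasurableSpace X] [BorelSpace X] (w : Fm d X)
    (hw : IsKahler w) (κ : Type) (M : LineBundle d X κ) (ρ : κ → X → ℝ) (hρ : IsMetric M ρ)
    (ε : ℝ), (PSD fun e z => curvature M ρ e z - kc w e z + (ε : ℂ) • w e z) →
    ∀ (s : κ → X → ℂ) (hs : IsSc M s) (a : X → ℝ), Continuous a → (∀ x, 0 ≤ a x) →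
    (DbarLe M ρ s a fun e z => curvature M ρ e z - kc w e z + (ε : ℂ) • w e z) →
    ∀ p, p + 1 = d → ∀ γ : (HN hw hρ).S, (HN hw hρ).dg p γ = γ →
      2 * (inner ℂ γ ((HN hw hρ).Dd (upS hw hρ hs))).re ≤
        ∫ x, a x ∂(volX w) + (HN hw hρ).qf γ + ε * ‖γ‖ ^ 2

end Vale.Agent.P301Z.Ho
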