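import Vale.Agent.P301Z.Ho.Defs

/-!
# P301Z, Lemma H: elementary facts on `Lv` and `gr`
-/

open scoped ContDiff ComplexOrder Topology Matrix
open Vale.Agent.P272.K Vale.Agent.P285Z
open Vale.Agent.P277Z (Hol)
open Vale.Agent.P301Z.Sa

noncomputable section

namespace Vale.Agent.P301Z.Ho

variable {d : ℕ}

theorem Lv_eq (H : Matrix (Fin d) (Fin d) ℂ) (ξ : Fin d → ℂ) :
    Lv H ξ = (ξ ⬝ᵥ (H *ᵥ star ξ)).re := by
  rw [Lv, Qf, star_star]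

theorem Lv_add (H H' : Matrix (Fin d) (Fin d) ℂ) (ξ : Fin d → ℂ) :
    Lv (H + H') ξ = Lv H ξ + Lv H' ξ := by
  simp only [Lv_eq, Matrix.add_mulVec, dotProduct_add, Complex.add_re]

theorem Lv_neg (H : Matrix (Fin d) (Fin d) ℂ) (ξ : Fin d → ℂ) : Lv (-H) ξ = -Lv H ξ := by
  simp only [Lv_eq, Matrix.neg_mulVec, dotProduct_neg, Complex.neg_re]

theorem Lv_sub (H H' : Matrix (Fin d) (Fin d) ℂ) (ξ : Fin d → ℂ) :
    Lv (H - H') ξ = Lv H ξ - Lv H' ξ := by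
  simp only [Lv_eq, Matrix.sub_mulVec, dotProduct_sub, Complex.sub_re]

theorem Lv_smul (c : ℝ) (H : Matrix (Fin d) (Fin d) ℂ) (ξ : Fin d → ℂ) :
    Lv ((c : ℂ) • H) ξ = c * Lv H ξ := by
  simp only [Lv_eq, Matrix.smul_mulVec, dotProduct_smul, smul_eq_mul, Complex.re_ofReal_mul]

theorem Lv_zero (ξ : Fin d → ℂ) : Lv (0 : Matrix (Fin d) (Fin d) ℂ) ξ = 0 := by
  simp [Lv_eq]

theorem Lv_zero_vec (H : Matrix (Fin d) (Fin d) ℂ) : Lv H 0 = 0 := by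
  simp [Lv_eq]

theorem Lv_sum {κ : Type*} (s : Finset κ) (H : κ → Matrix (Fin d) (Fin d) ℂ) (ξ : Fin d → ℂ) :
    Lv (∑ k ∈ s, H k) ξ = ∑ k ∈ s, Lv (H k) ξ := by
  simp only [Lv_eq, Matrix.sum_mulVec, dotProduct_sum, Complex.re_sum]

theorem Lv_smul_vec (H : Matrix (Fin d) (Fin d) ℂ) (c : ℂ) (ξ : Fin d → ℂ) :
    Lv H (c • ξ) = ‖c‖ ^ 2 * Lv H ξ := by
  rw [Lv_eq, Lv_eq, star_smul, Matrix.mulVec_smul, smul_dotProduct, dotProduct_smul, smul_smul,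
    smul_eq_mul, Complex.star_def, Complex.mul_conj, Complex.re_ofReal_mul,
    Complex.normSq_eq_norm_sq]

theorem Lv_nonneg {H : Matrix (Fin d) (Fin d) ℂ} (h : H.PosSemidef) (ξ : Fin d → ℂ) :
    0 ≤ Lv H ξ := (Complex.nonneg_iff.1 (h.dotProduct_mulVec_nonneg (star ξ))).1

theorem psd_iff_Lv {H : Matrix (Fin d) (Fin d) ℂ} (h : H.IsHermitian) :
    H.PosSemidef ↔ ∀ ξ, 0 ≤ Lv H ξ := by
  refine ⟨Lv_nonneg, fun h1 => Matrix.PosSemidef.of_dotProduct_mulVec_nonneg h fun x => ?_⟩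
  have h2 := h1 (star x)
  rw [Lv, star_star] at h2
  exact Complex.nonneg_iff.2 ⟨h2, (h.im_star_dotProduct_mulVec_self x).symm⟩

theorem Lv_pb {p q : ℕ} (J : Matrix (Fin p) (Fin q) ℂ) (H : Matrix (Fin p) (Fin p) ℂ)
    (ξ : Fin q → ℂ) : Lv (Jᵀ * H * J.map (starRingEnd ℂ)) ξ = Lv H (J *ᵥ ξ) := by
  have e : star (J *ᵥ ξ) = J.map (starRingEnd ℂ) *ᵥ star ξ :=
    funext fun i => RingHom.map_mulVec (starRingEnd ℂ) J ξ i
  rw [Lv_eq, Lv_eq, e, ← Matrix.mulVec_mulVec, ← Matrix.mulVec_mulVec, Matrix.dotProduct_mulVec,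
    Matrix.vecMul_transpose]

theorem Lv_rank_one (v ξ : Fin d → ℂ) :
    Lv (Matrix.of fun j k => v j * (starRingEnd ℂ) (v k)) ξ = ‖v ⬝ᵥ ξ‖ ^ 2 := by
  have e : ξ ⬝ᵥ ((Matrix.of fun j k => v j * (starRingEnd ℂ) (v k)) *ᵥ star ξ) =
      (v ⬝ᵥ ξ) * (starRingEnd ℂ) (v ⬝ᵥ ξ) := by
    simp only [dotProduct, Matrix.mulVec, Matrix.of_apply, map_sum, map_mul, Pi.star_apply,
      Complex.star_def]
    rw [Finset.sum_mul_sum]
    simp only [Finset.mul_sum]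
    exact Finset.sum_congr rfl fun j _ => Finset.sum_congr rfl fun k _ => by ring
  rw [Lv_eq, e, Complex.mul_conj, Complex.ofReal_re, Complex.normSq_eq_norm_sq]

theorem dz_dot {f : Cm d → ℂ} {z : Cm d} (h : DifferentiableAt ℂ f z) (ξ : Fin d → ℂ) :
    (fun a => dz a f z) ⬝ᵥ ξ = fderiv ℂ f z ξ := by
  conv_rhs => rw [pi_eq_sum_univ' ξ, map_sum]
  refine Finset.sum_congr rfl fun a _ => ?_
  rw [map_smul, ← dz_of_holo h, smul_eq_mul, mul_comm]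

theorem gr_dot {X : Type} [TopologicalSpace X] [ChartedSpace (Cm d) X] {g : X → ℂ}
    {e : Chart d X} {x : X} (he : At e x) (hg : Hol d g x) (ξ : Fin d → ℂ) :
    gr g e x ⬝ᵥ ξ = fderiv ℂ (fun z => g (e.symm z)) (e x) ξ :=
  dz_dot (hg e he).differentiableAt ξ

end Vale.Agent.P301Z.Ho
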