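import Vale.Agent.P301Z.Ho.Defs
import Vale.Agent.P285Z.Lse
import Vale.Agent.P285Z.Zeta

/-!
# P301Z, Lemma H: smooth poles
-/

open scoped Manifold ContDiff ComplexOrder Topology Matrix
open Filter Set
open Vale.Agent.P272.K Vale.Agent.P301.H599 Vale.Agent.P285Z

noncomputable section

namespace Vale.Agent.P301Z.Ho

namespace PoleH

/-- the argument of the cut-off -/
def ar (δ s : ℝ) : ℝ := -3 * Real.log (s + δ) - 2

/-- the profile -/
def pf (γ δ s : ℝ) : ℝ := -(γ / 3) * kap (ar δ s)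

variable {γ δ s : ℝ}

theorem ar_der (h : 0 < s + δ) : HasDerivAt (ar δ) (-3 * (s + δ)⁻¹) s :=
  (((((hasDerivAt_id s).add_const δ).log h.ne').const_mul (-3)).sub_const 2).congr_deriv (by simp)

theorem ar_nonneg (h : 0 < s + δ) (h' : s + δ ≤ 1 / 2) : 0 ≤ ar δ s := by
  have h1 := Real.log_le_log h h'
  rw [one_div, Real.log_inv] at h1
  have := Real.log_two_gt_d9
  unfold ar
  linarith

theorem ar_le (h : 3 / 4 ≤ s + δ) : ar δ s ≤ -1 := by
  have h1 := Real.log_le_log (by norm_num) h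
  have := Real.one_sub_inv_le_log_of_pos (x := 3 / 4) (by norm_num)
  unfold ar
  linarith

theorem pf_der (h : 0 < s + δ) : HasDerivAt (pf γ δ) (γ * (zeta (ar δ s) * (s + δ)⁻¹)) s :=
  (((kap_hasDerivAt _).comp s (ar_der h)).const_mul (-(γ / 3))).congr_deriv (by ring)

theorem pf_der2 (h : 0 < s + δ) : HasDerivAt (fun s => γ * (zeta (ar δ s) * (s + δ)⁻¹))
    (-(γ * (3 * deriv zeta (ar δ s) + zeta (ar δ s)) * (s + δ)⁻¹ ^ 2)) s :=
  ((((zeta_hasDerivAt _).comp s (ar_der h)).mul (((hasDerivAt_id s).add_const δ).inv h.ne')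
    ).const_mul γ).congr_deriv (by
      simp only [Function.comp, Pi.inv_apply, id]
      field_simp
      ring)

theorem pf_sm (h : 0 < s + δ) : ContDiffAt ℝ ∞ (pf γ δ) s :=
  contDiffAt_const.mul (kap_contDiff.contDiffAt.comp s
    ((contDiffAt_const.mul ((contDiffAt_id.add contDiffAt_const).log h.ne')).sub contDiffAt_const))

theorem pf_zero (h : 3 / 4 ≤ s + δ) : pf γ δ s = 0 := by rw [pf, kap_of_le (ar_le h), mul_zero]

theorem pf_hess {d : ℕ} {S : Cm d → ℝ} {z : Cm d} (hS : ContDiffAt ℝ 2 S z) (h : 0 < S z + δ) :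
    cHess (fun y => pf γ δ (S y)) z =
      ((γ * (zeta (ar δ (S z)) * (S z + δ)⁻¹) : ℝ) : ℂ) • cHess S z +
        ((-(γ * (3 * deriv zeta (ar δ (S z)) + zeta (ar δ (S z))) * (S z + δ)⁻¹ ^ 2) : ℝ) : ℂ) •
          Ch.gm S z :=
  Ch.cHess_chain' (h₁ := fun s => γ * (zeta (ar δ s) * (s + δ)⁻¹))
    (((continuousAt_id.add continuousAt_const).eventually (lt_mem_nhds h)).mono fun _ => pf_der)
    (pf_der2 h) hS

theorem est {K c A D : ℝ} (hK : ∀ x, deriv zeta x ≤ K) (K0 : 0 ≤ K) (hγ : 0 ≤ γ)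
    (hc : γ * (6 * K) ≤ c) (hδ : 0 < δ) (hs : 0 ≤ s) (hA : 0 ≤ A) (hD : D ≤ s * A) :
    0 ≤ γ * (zeta (ar δ s) * (s + δ)⁻¹) * A +
      -(γ * (3 * deriv zeta (ar δ s) + zeta (ar δ s)) * (s + δ)⁻¹ ^ 2) * D + c * A := by
  have h0 : 0 < s + δ := by linarith
  have h1 : deriv zeta (ar δ s) * (s + δ)⁻¹ ≤ 2 * K := by
    rcases le_or_gt (s + δ) (1 / 2) with h | h
    · rw [deriv_zeta_of_ge (ar_nonneg h0 h), zero_mul]
      linarith
    · rw [mul_comm 2]
      exact mul_le_mul (hK _) ((inv_le_comm₀ h0 two_pos).2 (by linarith)) (inv_pos.2 h0).le K0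
  have h2 : (s + δ)⁻¹ ^ 2 * D ≤ (s + δ)⁻¹ * A := by
    rw [pow_two, mul_assoc]
    refine mul_le_mul_of_nonneg_left ?_ (inv_pos.2 h0).le
    rw [inv_mul_le_iff₀ h0]
    nlinarith
  have h3 := mul_le_mul_of_nonneg_left h2 (mul_nonneg hγ (add_nonneg
    (mul_nonneg zero_le_three (deriv_zeta_nonneg (ar δ s))) (zeta_nonneg (ar δ s))))
  nlinarith [mul_le_mul_of_nonneg_left h1 (mul_nonneg hγ hA), mul_le_mul_of_nonneg_right hc hA]

end PoleH

open PoleH

theorem pole_of (h : SQH) : POLE := by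
  classical
  intro d r X _ _ _ _ U g hU hg hK c hc
  obtain ⟨K, K0, hz⟩ := exists_deriv_zeta_le
  set γ := min 1 (c / (6 * K + 1)) with hγ
  have γ0 : 0 < γ := lt_min one_pos (by positivity)
  have γ1 : γ ≤ 1 := min_le_left _ _
  have γc : γ * (6 * K) ≤ c := by
    have := (le_div_iff₀ (by positivity)).1 (min_le_right 1 (c / (6 * K + 1)))
    nlinarith
  have s0 : ∀ x, 0 ≤ sq g x := fun x => Finset.sum_nonneg fun _ _ => sq_nonneg _
  refine ⟨γ, γ0, fun δ hδ hδ' => ?_⟩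
  set ψ : X → ℝ := fun x => if x ∈ U then pf γ δ (sq g x) else 0 with hψ
  have p0 : ∀ x, 0 < sq g x + δ := fun x => add_pos_of_nonneg_of_pos (s0 x) hδ
  have h1 : ∀ x, ψ x ≠ 0 → x ∈ U ∧ sq g x ≤ 1 := fun x hx => by
    by_cases hU : x ∈ U
    · refine ⟨hU, le_of_not_gt fun h2 => hx ?_⟩
      simp only [hψ, if_pos hU]
      exact pf_zero (by linarith)
    · exact (hx (if_neg hU)).elim
  have e1 : ∀ (e : Chart d X) x, At e x → x ∈ U → (fun z => ψ (e.symm z)) =ᶠ[𝓝 (e x)]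
      fun z => pf γ δ (sq g (e.symm z)) := fun e x he hx =>
    ((e.tendsto_symm he.2).eventually (hU.mem_nhds hx)).mono fun z hz => if_pos hz
  have e0 : ∀ (e : Chart d X) x, At e x → x ∉ U → (fun z => ψ (e.symm z)) =ᶠ[𝓝 (e x)]
      fun _ => 0 := fun e x he hx =>
    ((e.tendsto_symm he.2).eventually (hK.isClosed.isOpen_compl.mem_nhds fun h2 => hx h2.1)).mono
      fun z hz => of_not_not fun h2 => hz (h1 _ h2)
  have sm : ∀ (e : Chart d X) x, At e x → x ∈ U →
      ContDiffAt ℝ ∞ (fun z => sq g (e.symm z)) (e x) := fun e x he hx =>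
    (h d r X g e x he fun k => hg k x hx).1.self_of_nhds
  have hs : ∀ (e : Chart d X) x, At e x → x ∈ U → ddc ψ e (e x) =
      ((γ * (zeta (ar δ (sq g x)) * (sq g x + δ)⁻¹) : ℝ) : ℂ) • ddc (sq g) e (e x) +
        ((-(γ * (3 * deriv zeta (ar δ (sq g x)) + zeta (ar δ (sq g x))) *
          (sq g x + δ)⁻¹ ^ 2) : ℝ) : ℂ) • Ch.gm (fun z => sq g (e.symm z)) (e x) :=
    fun e x he hx => by
      have := pf_hess (γ := γ) ((sm e x he hx).of_le (by norm_cast)) (p0 _)
      rw [e.left_inv he.2] at this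
      exact (C2.cHess_congr (e1 e x he hx)).trans this
  refine ⟨ψ, fun e x he => ?_, fun x => ?_, fun x hx h2 => ?_, h1, fun e x he hx => ?_,
    fun e x he hx => ?_⟩
  · by_cases hx : x ∈ U
    · exact (ContDiffAt.comp (g := pf γ δ) (e x) (pf_sm (p0 _)) (sm e x he hx)
        ).congr_of_eventuallyEq (e1 e x he hx)
    · exact contDiffAt_const.congr_of_eventuallyEq (e0 e x he hx)
  · simp only [hψ]
    split_ifs
    · exact mul_nonpos_of_nonpos_of_nonneg (by linarith) (kap_nonneg _)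
    · exact le_rfl
  · simp only [hψ, if_pos hx]
    rw [pf, kap_of_ge (ar_nonneg (p0 x) (by linarith)), ar]
    nlinarith [mul_nonneg γ0.le (kap_nonneg 0)]
  · have s2 : ContDiffAt ℝ 2 (fun z => sq g (e.symm z)) (e x) := (sm e x he hx).of_le (by norm_cast)
    have gd : Ch.Good 0 (fun z => sq g (e.symm z)) (e x) := by
      have := Ch.good_sum Finset.univ fun k _ =>
        Ch.good_nh (ρ := fun _ => 0) (hg k x hx e he) contDiffAt_const
      rw [C2.cHess_const] at this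
      exact this.congr (.of_forall fun z => by simp [sq, P301.H98.nh])
    have hh : (ddc (sq g) e (e x)).IsHermitian := C2.cHess_isHermitian s2
    rw [hs e x he hx]
    refine Ch.psd_of_Qf (((Ch.herm_smul _ hh).add (Ch.herm_smul _
      (Ch.gm_herm (s2.differentiableAt (by norm_num))))).add (Ch.herm_smul _ hh)) fun v => ?_
    rw [Ch.Qf_add, Ch.Qf_add, Ch.Qf_smul, Ch.Qf_smul, Ch.Qf_smul,
      Ch.Qf_gm (s2.differentiableAt (by norm_num))]
    refine est hz K0 γ0.le γc hδ (s0 x) ?_ ?_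
    · simpa [Ch.Qf_zero, ddc] using gd.pos v
    · simpa [Ch.Qf_zero, ddc, e.left_inv he.2] using gd.le v
  · by_cases hU : x ∈ U
    · have h2 := ar_le (δ := δ) (s := sq g x) (by linarith [not_lt.1 fun h2 => hx ⟨hU, h2⟩])
      rw [hs e x he hU, zeta_of_le h2, deriv_zeta_of_le h2]
      simp
    · exact (C2.cHess_congr (e0 e x he hU)).trans (C2.cHess_const 0)

end Vale.Agent.P301Z.Ho
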