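import Vale.Agent.P301Z.Ho.Defs
import Vale.Agent.P285Z.Alg
import Vale.Agent.P285Z.Ihs

/-!
# P301Z, Lemma H: the assembly
-/

open scoped Manifold ContDiff ComplexOrder Topology ENNReal Matrix
open MeasureTheory Filter Set Metric
open Vale.Agent.P272.K Vale.Agent.P301.H599 Vale.Agent.P301.H99 Vale.Agent.P285Z
open Vale.Agent.P301.H98 (IsSection nrm RForm)
open Vale.Agent.P301.H862 (powL IsSc)
open Vale.Agent.P272.K.AMP (volX)
open Vale.Agent.P277Z (Hol)
open Vale.Agent.P301Z.Sa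

noncomputable section

namespace Vale.Agent.P301Z.Ho

section

variable {d : ℕ} {X : Type} [TopologicalSpace X] [ChartedSpace (Cm d) X] {Φ Φ' : X → EReal}
  {p : X → ℝ} {a a' : Fm d X} {x : X}

theorem Vis.mono (h : Vis Φ a x) (ha : ∀ e, At e x → (a' e (e x) - a e (e x)).PosSemidef) :
    Vis Φ a' x := fun t ht e he => by
  have h1 := (h t ht e he).add (ha e he)
  rwa [show a e (e x) + ddc t e (e x) + (a' e (e x) - a e (e x)) = a' e (e x) + ddc t e (e x) by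
    abel] at h1

theorem vis_of_add (hp : ∀ e : Chart d X, At e x → ContDiffAt ℝ 2 (fun z => p (e.symm z)) (e x))
    (h : ∀ᶠ y in 𝓝 x, Φ' y = Φ y + (p y : EReal))
    (ha : ∀ e, At e x → a e (e x) = a' e (e x) + ddc p e (e x)) (hv : Vis Φ' a' x) :
    Vis Φ a x := by
  intro t ht e he
  have h1 := hv (fun y => t y + p y) ⟨fun e he => (ht.c2 e he).add (hp e he), ?_, ?_⟩ e he
  · have h2 : ddc (fun y => t y + p y) e (e x) = ddc t e (e x) + ddc p e (e x) :=
      C2.cHess_add (ht.c2 e he) (hp e he)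
    rw [h2] at h1
    rw [ha e he, add_assoc, add_comm (ddc p e (e x))]
    exact h1
  · rw [h.self_of_nhds, EReal.coe_add]
    exact add_le_add ht.ge le_rfl
  · filter_upwards [h, ht.le] with y h1 h2
    rw [h1, EReal.coe_add]
    exact add_le_add h2 le_rfl

theorem vis_add (hp : ∀ e : Chart d X, At e x → ContDiffAt ℝ 2 (fun z => p (e.symm z)) (e x))
    (h : ∀ᶠ y in 𝓝 x, Φ' y = Φ y + (p y : EReal))
    (ha : ∀ e, At e x → a e (e x) = a' e (e x) + ddc p e (e x)) (hv : Vis Φ a x) :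
    Vis Φ' a' x := by
  refine vis_of_add (p := fun y => -p y) (fun e he => (hp e he).neg) ?_ (fun e he => ?_) hv
  · filter_upwards [h] with y h1
    rw [h1, add_assoc, ← EReal.coe_add, add_neg_cancel, EReal.coe_zero, add_zero]
  · have h2 : ddc (fun y => -p y) e (e x) = -ddc p e (e x) := C2.cHess_neg (hp e he)
    rw [h2, ha e he, add_neg_cancel_right]

theorem contAt_chart {Y : Type} [TopologicalSpace Y] {f : X → Y} {e : Chart d X} (he : At e x)
    (h : ContinuousAt (fun z => f (e.symm z)) (e x)) : ContinuousAt f x := by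
  refine (h.comp (e.continuousAt he.2)).congr ?_
  filter_upwards [e.open_source.mem_nhds he.2] with y hy
  exact congrArg f (e.left_inv hy)

theorem atc (x : X) : At (chartAt (Cm d) x) x := ⟨chart_mem_atlas _ x, mem_chart_source _ x⟩

theorem sq_cont (sqh : SQH) {r : ℕ} {g : Fin r → X → ℂ} {U : Set X}
    (hg : ∀ j, ∀ x ∈ U, Hol d (g j) x) : ContinuousOn (sq g) U := fun x hx =>
  (contAt_chart (atc x) (sqh d r X g _ x (atc x)
    fun j => hg j x hx).1.self_of_nhds.continuousAt).continuousWithinAt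

theorem sq_nonneg' {r : ℕ} (g : Fin r → X → ℂ) (x : X) : 0 ≤ sq g x :=
  Finset.sum_nonneg fun _ _ => by positivity

end

section

variable {d n r a : ℕ} {X : Type} [TopologicalSpace X] [ChartedSpace (Cm d) X]
  [IsManifold 𝓘(ℂ, Cm d) ω X] [T2Space X] [CompactSpace X] {ι : Type} {w s : Fm d X}
  {L : LineBundle d X ι} {ρ : ι → X → ℝ} {U T : Set X} {g : Fin r → X → ℂ} {e : ι → X → ℂ}
  {φ : ℕ → X → ℝ} {c N : ℝ}

theorem vis_tube (pt : POT) (vt : VT) (vis0 : VIS0) (hs : IsSymplectic d X w s)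
    (hρ : IsMetric L ρ) (hL : Loc s L n U g a e T) (hc : 0 < c) (hN : 0 < N)
    (hcy : CY w s (curvature L ρ) c φ) (hX : ∀ y ∈ U, sq g y < 1 → XBd w s g N y) {x : X}
    (hx : x ∈ U) (hx1 : sq g x < 1) (hT : x ∉ T) : Vis (LS φ)
      (fun k z => -(((c / N : ℝ) : ℂ) • ddc (d := d) (sq g) k z) + curvature L ρ k z) x := by
  have hp := pt d X ι L ρ hρ a U e hL.pos hL.opn hL.gen
  have hpc : ∀ x ∈ U, ContinuousAt (pot L ρ a e) x := fun x hx =>
    contAt_chart (atc x) (hp _ x (atc x) hx).1.continuousAt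
  obtain ⟨O, π, b, R, hT, hxO, hOU, hg⟩ := hL.tube x hx hx1.le hT
  obtain ⟨f, hf⟩ : ∃ f : ℕ → X → ℝ, f = fun j y => φ j y + pot L ρ a e y := ⟨_, rfl⟩
  have e0 : ∀ j (k : Chart d X) y, At k y → y ∈ O →
      ContDiffAt ℝ ∞ (fun z => f j (k.symm z)) (k y) := fun j k y hk hy => by
    rw [hf]
    exact ((hcy.inS j).smooth k y hk).add (hp k y hk (hOU hy)).1
  have e1 : ∀ j (k : Chart d X) y, At k y → y ∈ O →
      (ep j : ℂ) • w k (k y) + ddc (f j) k (k y) = wj w (curvature L ρ) φ j k (k y) := by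
    intro j k y hk hy
    have h1 : ddc (f j) k (k y) = ddc (φ j) k (k y) + ddc (pot L ρ a e) k (k y) := by
      rw [hf]
      exact C2.cHess_add (((hcy.inS j).smooth k y hk).of_le (by norm_cast))
        ((hp k y hk (hOU hy)).1.of_le (by norm_cast))
    rw [h1, (hp k y hk (hOU hy)).2, wj]
    abel
  have hQ : QP w O f := by
    refine ⟨e0, fun j k y hk hy => ?_, fun y hy => ⟨pot L ρ a e y + 1, ?_⟩⟩
    · rw [e1 j k y hk hy]
      exact (hcy.hk j k y hk).1.posSemidef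
    · filter_upwards [(hpc y (hOU hy)).eventually (gt_mem_nhds (lt_add_one _))] with z hz j
      have := (hcy.inS j).nonpos z
      simp only [hf]
      linarith
  have e2 : ∀ᶠ y in 𝓝 x, LS f y = LS φ y + (pot L ρ a e y : EReal) := by
    filter_upwards [hL.opn.mem_nhds hx] with y hy
    rw [hf]
    exact LS_add (hpc y hy)
  have e3 : ∀ k : Chart d X, At k x → ContDiffAt ℝ 2 (fun z => pot L ρ a e (k.symm z)) (k x) :=
    fun k hk => (hp k x hk hx).1.of_le (by norm_cast)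
  have h1 := vt d n r X w s hs.kahler.toIsHermitian hs.nondeg O π b R hT f c N hc hN hQ
    (fun j k y hk hy => by rw [e1 j k y hk hy]; exact hcy.hk j k y hk) g
    (fun k y hy => hL.hol k y (hOU hy)) hg (fun y hy h1 => hX y (hOU hy) h1) x hxO hx1
    (vis_add e3 e2 (fun k hk => by rw [(hp k x hk hx).2, zero_add])
      (vis0 d X w hs.kahler ι L ρ hρ φ hcy.inS x))
  exact vis_of_add e3 e2 (fun k hk => by rw [(hp k x hk hx).2]) h1

theorem vis_loc (sqh : SQH) (xb : XB) (pt : POT) (vt : VT) (vis0 : VIS0) (vist : VIST)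
    (hs : IsSymplectic d X w s) (hρ : IsMetric L ρ) (hL : Loc s L n U g a e T) (hc : 0 < c)
    (hcy : CY w s (curvature L ρ) c φ) : ∃ c' : ℝ, 0 < c' ∧ ∀ x ∈ U, sq g x < 1 → Vis (LS φ)
      (fun k z => -((c' : ℂ) • ddc (d := d) (sq g) k z) + curvature L ρ k z) x := by
  obtain ⟨N, hN, hX⟩ := xb d r X w s hs.kahler.toIsHermitian hs.form hs.nondeg g _ hL.cpt
    fun k x hx => hL.hol k x hx.1
  have hO : IsOpen (U ∩ sq g ⁻¹' Iio 1) :=
    (sq_cont sqh hL.hol).isOpen_inter_preimage hL.opn isOpen_Iio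
  have hK : ∀ y ∈ U, sq g y < 1 → XBd w s g N y := fun y hy h1 => hX y ⟨hy, h1.le⟩
  have hc1 : ∀ (k : Chart d X) x, At k x → x ∈ U ∩ sq g ⁻¹' Iio 1 → ContinuousAt
      (fun z => -(((c / N : ℝ) : ℂ) • ddc (d := d) (sq g) k z) + curvature L ρ k z) (k x) := by
    intro k x hk hx
    have h0 := (sqh d r X g k x hk fun j => hL.hol j x hx.1).1.self_of_nhds
    refine continuousAt_pi.2 fun i => continuousAt_pi.2 fun j => ?_
    have h1 : ContinuousAt (fun z => ddc (d := d) (sq g) k z i j) (k x) :=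
      (C2.contDiffAt_cHess (m := 0) h0 (by norm_cast) i j).continuousAt
    have h2 : ContinuousAt (fun z => curvature L ρ k z i j) (k x) :=
      ((P301.H98.rform_curvature hρ).closed.smooth k x hk i j).continuousAt
    simp only [Matrix.add_apply, Matrix.neg_apply, Matrix.smul_apply, smul_eq_mul]
    exact (continuousAt_const.mul h1).neg.add h2
  have h3 := vist d X w hs.kahler ι L ρ hρ φ hcy.inS T _
    (fun k z => -(((c / N : ℝ) : ℂ) • ddc (d := d) (sq g) k z) + curvature L ρ k z) hL.thin hO hc1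
    fun x hx hT => vis_tube pt vt vis0 hs hρ hL hc hN hcy hK hx.1 hx.2 hT
  exact ⟨c / N, div_pos hc hN, fun x hx hx1 => h3 x ⟨hx, hx1⟩⟩

omit [IsManifold 𝓘(ℂ, Cm d) ω X] [CompactSpace X] [ChartedSpace (Cm d) X] in
theorem cpt_quarter {q : X → ℝ} (hq : ContinuousOn q U) (hK : IsCompact {x | x ∈ U ∧ q x ≤ 1}) :
    IsCompact {x | x ∈ U ∧ q x ≤ 1 / 4} := by
  have h1 := (hq.mono fun x (hx : x ∈ {x | x ∈ U ∧ q x ≤ 1}) => hx.1).preimage_isClosed_of_isClosed
    hK.isClosed (isClosed_Iic (a := (1 / 4 : ℝ)))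
  have h2 := hK.of_isClosed_subset h1 inter_subset_left
  rwa [show {x | x ∈ U ∧ q x ≤ 1} ∩ q ⁻¹' Iic (1 / 4) = {x | x ∈ U ∧ q x ≤ 1 / 4} from
    ext fun x => ⟨fun h => ⟨h.1.1, h.2⟩, fun h => ⟨⟨h.1, h.2.trans (by norm_num)⟩, h.2⟩⟩] at h2

omit [IsManifold 𝓘(ℂ, Cm d) ω X] [CompactSpace X] [ChartedSpace (Cm d) X] in
theorem int_pole [MeasurableSpace X] [BorelSpace X] {μ : Measure X} {q ψ v : X → ℝ} {γ δ M : ℝ}
    {C : ℝ≥0∞} (hK : IsCompact {x | x ∈ U ∧ q x ≤ 1 / 4}) (hM : 0 ≤ M) (hv : ∀ x, 0 ≤ v x)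
    (h : ∀ x ∈ U, q x ≤ 1 / 4 → ψ x ≤ γ * Real.log (q x + δ) + 1)
    (H : ∫⁻ x in {x | x ∈ U ∧ q x ≤ 1}, ENNReal.ofReal (v x * Real.exp (-(M * ψ x))) ∂μ ≤ C) :
    ∫⁻ x in {x | x ∈ U ∧ q x ≤ 1 / 4},
      ENNReal.ofReal (v x * Real.exp (-(γ * M * Real.log (q x + δ)))) ∂μ ≤
      ENNReal.ofReal (Real.exp M) * C := by
  refine le_trans ?_ (mul_le_mul_right ((lintegral_mono_set
    (fun x (hx : x ∈ {x | x ∈ U ∧ q x ≤ 1 / 4}) =>
      (⟨hx.1, hx.2.trans (by norm_num)⟩ : x ∈ {x | x ∈ U ∧ q x ≤ 1}))).trans H) _)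
  rw [← lintegral_const_mul' _ _ ENNReal.ofReal_ne_top]
  refine setLIntegral_mono' hK.measurableSet fun x hx => ?_
  rw [← ENNReal.ofReal_mul (Real.exp_pos _).le, mul_left_comm, ← Real.exp_add]
  refine ENNReal.ofReal_le_ofReal (mul_le_mul_of_nonneg_left (Real.exp_le_exp.2 ?_) (hv x))
  nlinarith [mul_le_mul_of_nonneg_left (h x hx.1 hx.2) hM]

end

theorem hl2_of (sqh : SQH) (xb : XB) (pt : POT) (vt : VT) (vis0 : VIS0) (vist : VIST) (cyf : CYF)
    (pole : POLE) (asm1 : ASM1) (asm2 : ASM2) : HL2 := by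
  intro d n X _ _ _ _ _ _ w s _ hs ι L ρ hρ hn _ hne U r g a e T hL
  borelize X
  have hw := hs.kahler
  obtain ⟨c, φ, hc, hcy, hmom⟩ := cyf d X w s hs ι L ρ hρ hn hne
  have hK : IsCompact {x | x ∈ U ∧ sq g x ≤ 1} := hL.cpt
  have hqc := sq_cont sqh hL.hol
  have V0 := vis0 d X w hw ι L ρ hρ φ hcy.inS
  obtain ⟨c', hc', V2⟩ := vis_loc sqh xb pt vt vis0 vist hs hρ hL hc hcy
  obtain ⟨γ, hγ, hpole⟩ := pole d r X U g hL.opn hL.hol hK c' hc'
  refine ⟨γ, hγ, fun m hm F hF => ?_⟩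
  have hM : 1 ≤ a * m := Nat.mul_pos hL.pos hm
  have hM' : (0 : ℝ) ≤ ((a * m : ℕ) : ℝ) - 1 := sub_nonneg.2 (by exact_mod_cast hM)
  have hE : SecOn (powL L (a * m)) U fun i x => F x * e i x ^ m := by
    refine ⟨fun i x hx hi k hk => (hF x hx k hk).mul ((hL.gen.hol i x hx hi k hk).pow m),
      fun i j x hx hi hj => ?_⟩
    show F x * e i x ^ m = L.g i j x ^ (a * m) * (F x * e j x ^ m)
    rw [hL.gen.chg i j x hx hi hj, mul_pow, pow_mul]
    ring
  obtain ⟨h, hh, hk⟩ := ihs d X w s hs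
  obtain ⟨C, hC, H1⟩ := asm1 d X w hw h hh hk ι L ρ hρ hn φ hcy.inS hmom U _ (a * m) _ hL.opn hK
    (fun x hx => hx.1) hM hE
  have hK' := cpt_quarter hqc hK
  obtain ⟨G, hG, H2⟩ := asm2 d X w hw ι _ _ (isMetric_pow hρ (a * m)) U _ (sq g)
    (γ * (((a * m : ℕ) : ℝ) - 1)) (ENNReal.ofReal (Real.exp (((a * m : ℕ) : ℝ) - 1)) * C) hL.opn hE
    hqc (sq_nonneg' g) hK' (mul_nonneg hγ.le hM') (ENNReal.mul_ne_top ENNReal.ofReal_ne_top hC)
    fun δ h0 h1 => by
      obtain ⟨ψ, k1, k2, k3, k4, k5, k6⟩ := hpole δ h0 h1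
      obtain ⟨G, hG, H2⟩ := H1 ψ k1 k2 k4 fun x => by
        by_cases hx : x ∈ U ∧ sq g x < 1
        · refine (V2 x hx.1 hx.2).mono fun k hk => ?_
          have := k5 k x hk hx.1
          rwa [show curvature L ρ k (k x) + ddc ψ k (k x) -
            (-((c' : ℂ) • ddc (d := d) (sq g) k (k x)) + curvature L ρ k (k x)) =
            ddc ψ k (k x) + (c' : ℂ) • ddc (sq g) k (k x) by abel]
        · refine (V0 x).mono fun k hk => ?_
          rw [k6 k x hk hx, add_zero, sub_self]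
          exact Matrix.PosSemidef.zero
      exact ⟨G, hG, int_pole hK' hM' (nrm_nonneg' _ _ _) k3 H2⟩
  exact ⟨G, ⟨hG.holo, hG.change⟩, H2⟩

end Vale.Agent.P301Z.Ho
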